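import Mathlib

/-!
# P045: lines of the affine plane over `ZMod q`
-/

namespace Vale.Agent.P045

/-- A line of the affine plane: `(some a, b)` is `y = a x + b`, `(none, c)` is `x = c`. -/
abbrev Line (q : ℕ) := Option (ZMod q) × ZMod q

/-- Incidence. -/
def OnLine {q : ℕ} (p : ZMod q × ZMod q) : Line q → Prop
  | (some a, b) => p.2 = a * p.1 + b
  | (none, c) => p.1 = c

instance {q : ℕ} (p : ZMod q × ZMod q) : DecidablePred (OnLine p) := fun l => by
  rcases l with ⟨a | a, b⟩ <;> unfold OnLine <;> infer_instance

instance {q : ℕ} (l : Line q) : DecidablePred (fun p : ZMod q × ZMod q => OnLine p l) :=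
  fun p => by rcases l with ⟨a | a, b⟩ <;> unfold OnLine <;> infer_instance

end Vale.Agent.P045
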