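import Mathlib
import Vale.Agent.P045.Plane

/-!
# P045: the hypergraph

Points are (almost all) points of `AG(2,q)`; they become the edges. A point has one block (vertex)
in each colour. The colours are the `q + 1` slopes and two groups of `m` colours each, indexed by
`Fin 2 × K`, where `K` is the label field with `m` elements.
-/

namespace Vale.Agent.P045

open Finset

variable {q : ℕ} [Fact q.Prime] {K : Type*} [Field K] [Fintype K] [DecidableEq K]

/-- Points of the plane. -/
abbrev Pt (q : ℕ) := ZMod q × ZMod q

/-- Slopes; `none` is vertical. -/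
abbrev Slope (q : ℕ) := Option (ZMod q)

/-- The slope of the line from `O` to `p`. -/
def slopeTo (O p : Pt q) : Slope q :=
  if p.1 = O.1 then none else some ((p.2 - O.2) / (p.1 - O.1))

/-- The line through `p` of slope `s`. -/
def lineThru (p : Pt q) : Slope q → Line q
  | some a => (some a, p.2 - a * p.1)
  | none => (none, p.1)

/-- The four centres. -/
def cen : Fin 4 → Pt q := ![(0, 0), (-1, 0), (-2, -2), (1, -1)]

/-- The partner of a centre in its group. -/
def partner : Fin 4 → Fin 4 := ![1, 0, 3, 2]

/-- The first and the second centre of a group. -/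
def fstC : Fin 2 → Fin 4 := ![0, 2]

/-- The second centre of a group. -/
def sndC : Fin 2 → Fin 4 := ![1, 3]

/-- The side through both centres of group `i`. -/
def sameSide (i : Fin 2) : Line q :=
  lineThru (cen (fstC i)) (slopeTo (cen (fstC i)) (cen (sndC i)))

/-- The side joining centres of different groups. -/
def crossSide (j : Fin 2 × Fin 2) : Line q :=
  lineThru (cen (![0, 1] j.1)) (slopeTo (cen (![0, 1] j.1)) (cen (![2, 3] j.2)))

/-- The six auxiliary lines. Three pass through each of two diagonal points of the centres. -/
def wLine : Fin 6 → Line q :=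
  ![(some (1 / 3), -2 / 9), (some (-1), -2 / 3), (some 2, 1 / 3),
    (some 0, 2 / 3), (some 1, 4 / 3), (some (-1 / 2), 1 / 3)]

/-- A slope of one of the six sides. -/
def IsSideSlope (s : Slope q) : Prop :=
  (∃ i, (sameSide (q := q) i).1 = s) ∨ (∃ j, (crossSide (q := q) j).1 = s)

/-- `p` is a centre. -/
def IsCen (p : Pt q) : Prop := ∃ a, cen a = p

/-- `p` lies on one of the four cross sides. -/
def OnCross (p : Pt q) : Prop := ∃ j, OnLine p (crossSide j)

/-- `p` lies on a side or a centre. -/
def OnSide (p : Pt q) : Prop := (∃ i, OnLine p (sameSide i)) ∨ OnCross p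

/-- `p` lies on an auxiliary line. -/
def OnW (p : Pt q) : Prop := ∃ l, OnLine p (wLine l)

/-- A point on no special line. -/
def Plain (p : Pt q) : Prop := ¬ OnSide p ∧ ¬ OnW p

open Classical in
/-- The pencil whose label is used for `p` in place of pencil `a`. -/
noncomputable def effPencil (a : Fin 4) (p : Pt q) : Fin 4 :=
  if ∃ j, OnLine (cen a) (crossSide (q := q) j) ∧ OnLine p (crossSide j) then partner a else a

/-- The column of a point. -/
def col (p : Pt q) : Slope q := slopeTo (cen 0) p

/-- The row of a point. -/
def row (p : Pt q) : Slope q := slopeTo (cen 1) p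

/-- The coset of direction `d` of a label. -/
def coset (d : K) (v : K × K) : K := v.2 - d * v.1

/-- The colours. -/
abbrev Colour (q : ℕ) (K : Type*) := Slope q ⊕ (Fin 2 × K)

/-- The pieces of a line. -/
inductive Piece (K : Type*) : Type _
  | whole : Piece K
  | one (x : K) : Piece K
  | two (x z : K) : Piece K
  deriving DecidableEq

/-- Names of blocks. -/
inductive Blk (q : ℕ) (K : Type*) (M : ℕ) : Type _
  | line (l : Line q) (p : Piece K) : Blk q K M
  | cell (γ : Fin 2) (d c₁ c₂ : K) : Blk q K M
  | spec (i : Fin 2) (κ : Option K) (a : ZMod M) : Blk q K M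
  | tag (s : Slope q) : Blk q K M
  deriving DecidableEq

/-- The size of a group of special points. -/
abbrev modM (K : Type*) [Fintype K] : ℕ := Fintype.card K + 1

/-- The shifts used on special points: `inl` for the sides, `inr` for auxiliary lines. -/
abbrev ShiftIdx := Fin 21 ⊕ (Fin 6 × Fin 12)

/-- The free data of the construction. -/
structure Data (q : ℕ) (K : Type*) [Fintype K] where
  /-- The kept points of the two sides joining centres of the same group. -/
  om : Fin 2 → Fin 21 → Option K → Pt q
  /-- The kept points of the auxiliary lines. -/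
  wp : Fin 6 → Fin 12 → K → Pt q
  /-- Shifts. -/
  sh : ShiftIdx → K
  /-- Numbering of the special colours. -/
  num : Option K → ZMod (modM K)
  /-- Labels of the lines through the centres. -/
  L : Fin 4 → Slope q → K × K
  /-- The direction of the tag of a slope. -/
  dir : Slope q → K
  /-- The columns of the tagged points of a slope. -/
  Z : Slope q → Finset (Slope q)

namespace Data

variable (D : Data q K)

/-- The label of `p` in slot `a`. -/
noncomputable def lab (a : Fin 4) (p : Pt q) : K × K :=
  D.L (effPencil a p) (slopeTo (cen (effPencil a p)) p)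

/-- A tagged position. -/
def Tagged (p : Pt q) : Prop :=
  Plain p ∧ ¬ IsSideSlope (row p) ∧ col p ∈ D.Z (row p)

/-- Deleted, being in the tag coset of its row. -/
def Kill₁ (p : Pt q) : Prop :=
  Plain p ∧ ¬ IsSideSlope (row p) ∧ col p ∉ D.Z (row p) ∧
    coset (D.dir (row p)) (D.L 0 (col p)) = coset (D.dir (row p)) (D.L 0 (row p))

/-- Deleted, being in conflict with a tagged point of its column. -/
def Kill₂ (p : Pt q) : Prop :=
  Plain p ∧ ∃ s, ¬ IsSideSlope s ∧ s ≠ row p ∧ col p ∈ D.Z s ∧
    coset (D.dir s) (D.L 1 (row p)) = coset (D.dir s) (D.L 1 s)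

/-- The special point sets of the sides joining centres of the same group. -/
def IsOm (i : Fin 2) (p : Pt q) : Prop := ∃ g x, D.om i g x = p

/-- The kept points of auxiliary lines. -/
def IsW (p : Pt q) : Prop := ∃ l i x, D.wp l i x = p

/-- The points of the construction. -/
def Keep (p : Pt q) : Prop :=
  (Plain p ∧ ¬ D.Kill₁ p ∧ ¬ D.Kill₂ p) ∨ (∃ i, D.IsOm i p) ∨ D.IsW p ∨
    (OnCross p ∧ ¬ IsCen p ∧ ¬ OnW p)

open Classical in
/-- The finset of points of the construction. -/
noncomputable def pts : Finset (Pt q) := Finset.univ.filter D.Keep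

open Classical in
/-- The index of a special point of side `i`. -/
noncomputable def omIdx (i : Fin 2) (p : Pt q) : Fin 21 × Option K :=
  if h : ∃ z : Fin 21 × Option K, D.om i z.1 z.2 = p then h.choose else (0, none)

/-- The special block of a point of side `i` in its special colour `κ`. -/
noncomputable def specAt (i : Fin 2) (κ : Option K) (p : Pt q) : Blk q K (modM K) :=
  .spec i κ (D.num (D.omIdx i p).2 - D.num κ * ((D.omIdx i p).1 : ℕ))

open Classical in
/-- The block of `p` in colour `c`. -/
noncomputable def block (p : Pt q) : Colour q K → Blk q K (modM K)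
  | .inl s =>
    if h : ∃ i, lineThru p s = sameSide i then D.specAt h.choose none p
    else if ∃ l, lineThru p s = wLine l then .line (lineThru p s) (.one (D.lab 0 p).1)
    else if ∃ j, lineThru p s = crossSide j then
      .line (lineThru p s) (.two (D.lab 0 p).1 (D.lab 2 p).1)
    else if h : ∃ a, OnLine (cen a) (lineThru p s) then
      .line (lineThru p s) (.one (D.lab (partner h.choose) p).1)
    else .line (lineThru p s) .whole
  | .inr (γ, d) =>
    if D.IsOm γ p then D.specAt γ (some d) p
    else if γ = 0 ∧ D.Tagged p ∧ d = D.dir (row p) then .tag (row p)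
    else .cell γ d (coset d (D.lab (fstC γ) p)) (coset d (D.lab (sndC γ) p))

/-- Lines of the label plane: `(some d, c)` has direction `d`, `(none, x)` is vertical. -/
def InVLine (ξ : Option K × K) (v : K × K) : Prop :=
  match ξ.1 with
  | some d => coset d v = ξ.2
  | none => v.1 = ξ.2

open Classical in
/-- Points of the construction on a line and on no side. -/
noncomputable def linePts (l : Line q) : Finset (Pt q) :=
  D.pts.filter (fun p => OnLine p l ∧ ¬ OnSide p)

/-- `ξ` is wholly deleted on the line of slope `s` through centre `a`. -/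
def Killed (a : Fin 4) (s : Slope q) (ξ : Option K × K) : Prop :=
  (a = 1 ∧ ¬ IsSideSlope s ∧ ξ = (some (D.dir s), coset (D.dir s) (D.L 0 s))) ∨
  (a = 0 ∧ ∃ s', ¬ IsSideSlope s' ∧ s ∈ D.Z s' ∧
    ξ = (some (D.dir s'), coset (D.dir s') (D.L 1 s')))

end Data

end Vale.Agent.P045
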