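import Mathlib
import Vale.Agent.P045.Defs

/-!
# P045: the properties of the data used by the two main proofs
-/

namespace Vale.Agent.P045

open Finset

variable {q : ℕ} [Fact q.Prime] {K : Type*} [Field K] [Fintype K] [DecidableEq K]

/-- The properties needed for any two points to share a block. -/
structure Design (D : Data q K) : Prop where
  num_bij : Function.Bijective D.num
  small : ∀ i j : Fin 21, i ≠ j → IsUnit (((i : ℕ) : ZMod (modM K)) - ((j : ℕ) : ℕ))
  sh_inj : Function.Injective D.sh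
  sh_ne : ∀ i, D.sh i ≠ 0
  char2 : CharP K 2
  om_inj : Function.Injective fun z : Fin 2 × Fin 21 × Option K => D.om z.1 z.2.1 z.2.2
  om_side : ∀ i g z, OnLine (D.om i g z) (sameSide i)
  om_off : ∀ i g z, ¬ IsCen (D.om i g z) ∧ ¬ OnCross (D.om i g z) ∧ ¬ OnW (D.om i g z) ∧
    ∀ i', i' ≠ i → ¬ OnLine (D.om i g z) (sameSide i')
  om_fst : ∀ i g z, D.lab (fstC (1 - i)) (D.om i g z) = (z.getD 0, z.getD 0 ^ 2)
  om_snd : ∀ i g z, D.lab (sndC (1 - i)) (D.om i g z) =
    (z.getD 0, z.getD 0 ^ 2 + D.sh (.inl g))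
  wp_inj : Function.Injective fun z : Fin 6 × Fin 12 × K => D.wp z.1 z.2.1 z.2.2
  wp_line : ∀ l i x, OnLine (D.wp l i x) (wLine l) ∧ ¬ OnSide (D.wp l i x) ∧
    ∀ l', OnLine (D.wp l i x) (wLine l') → l' = l
  wp_lab0 : ∀ l i x, D.lab 0 (D.wp l i x) = (x, x ^ 2 + D.sh (.inr (l, i)) ^ 2)
  wp_lab1 : ∀ l i x, D.lab 1 (D.wp l i x) =
    (x, x ^ 2 + D.sh (.inr (l, i)) ^ 2 + D.sh (.inr (l, 0)))
  wp_lab2 : ∀ l i x, D.lab 2 (D.wp l i x) = (x, x ^ 2 + D.sh (.inr (l, i)) ^ 2)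
  wp_lab3 : ∀ l i x, D.lab 3 (D.wp l i x) =
    (x, x ^ 2 + D.sh (.inr (l, i)) ^ 2 + D.sh (.inr (l, i)))
  /-- A special point never lies in the tag coset of its row. -/
  row_special : ∀ p, (D.IsOm 1 p ∨ D.IsW p) → ¬ IsSideSlope (row p) →
    ∀ d, coset d (D.lab 0 p) ≠ coset d (D.L 0 (row p))
  dir_ok : ∀ s : Slope q, ¬ IsSideSlope s →
    coset (D.dir s) (D.L 0 s) ≠ coset (D.dir s) (D.L 1 s)
  Z_coset : ∀ s : Slope q, ¬ IsSideSlope s → ∀ t ∈ D.Z s,
    coset (D.dir s) (D.L 0 t) = coset (D.dir s) (D.L 0 s) ∧ D.L 0 t ≠ D.L 0 s ∧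
    coset (D.dir s) (D.L 1 t) ≠ coset (D.dir s) (D.L 1 s)
  Z_special : ∀ s : Slope q, ¬ IsSideSlope s → ∀ p, (D.IsOm 1 p ∨ D.IsW p) → col p ∈ D.Z s →
    coset (D.dir s) (D.lab 1 p) ≠ coset (D.dir s) (D.L 1 s)

/-- `l` carries full blocks: it is no side, passes through no centre and is no auxiliary line. -/
def Ordinary (l : Line q) : Prop := (∀ a, ¬ OnLine (cen a) l) ∧ ∀ i, l ≠ wLine i

/-- `l` is a line through centre `a` other than a side. -/
def Role (a : Fin 4) (l : Line q) : Prop :=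
  OnLine (cen a) l ∧ ∀ a', a' ≠ a → ¬ OnLine (cen a') l

/-- The first centre of a cross side. -/
def crossA (j : Fin 2 × Fin 2) : Fin 4 := ![0, 1] j.1

/-- The second centre of a cross side. -/
def crossC (j : Fin 2 × Fin 2) : Fin 4 := ![2, 3] j.2

open Classical in
/-- The points of the construction on a cross side. -/
noncomputable def Data.crossPts (D : Data q K) (j : Fin 2 × Fin 2) : Finset (Pt q) :=
  D.pts.filter fun p => OnLine p (crossSide j)

open Classical in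
/-- The part of the label plane seen from `pb` in a direction of `A` and on no line of `Ξ`. -/
noncomputable def region (pb : K × K) (A : Finset K) (Ξ : Finset (Option K × K)) :
    Finset (K × K) :=
  Finset.univ.filter fun v =>
    v ≠ pb ∧ (∃ d ∈ A, coset d v = coset d pb) ∧ ∀ ξ ∈ Ξ, ¬ Data.InVLine ξ v

open Classical in
/-- The properties needed for the bound on covers; `T`, `κ`, `g`, `Dl`, `err` are numbers. -/
structure Good (D : Data q K) (T κ g Dl err : ℕ) : Prop extends Design D where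
  side_lab : ∀ i : Fin 2,
    D.L (fstC (1 - i)) (sameSide i).1 = D.L (sndC (1 - i)) (sameSide i).1
  side_X : ∀ i P, OnLine P (sameSide (q := q) i) → ¬ IsCen P →
    (D.lab (fstC (1 - i)) P).1 = (D.lab (sndC (1 - i)) P).1
  load : ∀ a ξ, (univ.filter fun t : Slope q => Data.InVLine ξ (D.L a t)).card ≤ T
  mult : ∀ a v, (univ.filter fun t : Slope q => D.L a t = v).card ≤ κ
  band : ∀ a l ξ, Role a l → ¬ D.Killed a l.1 ξ →
    g ≤ ((D.linePts l).filter fun p => Data.InVLine ξ (D.lab (partner a) p)).card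
  spread : ∀ a l pb A Ξ, Role a l → Ξ.card ≤ 3 * Fintype.card K →
    q * (region pb A Ξ).card ≤ 32 * Fintype.card K ^ 2 *
      (((D.linePts l).filter fun p => D.lab (partner a) p ∈ region pb A Ξ).card + err)
  starBand : ∀ (a : Fin 4) (γ : Fin 2) l ξ (u v : K × K), Role a l →
    a ≠ fstC γ → a ≠ sndC γ →
    ((D.linePts l).filter fun p => Data.InVLine ξ (D.lab (partner a) p) ∧
      ∃ d, coset d (D.lab (fstC γ) p) = coset d u ∧
        coset d (D.lab (sndC γ) p) = coset d v).card ≤ κ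
  cellLine : ∀ (γ : Fin 2) l d c₁ c₂, ¬ OnLine (cen (fstC γ)) l → ¬ OnLine (cen (sndC γ)) l →
    ((D.linePts l).filter fun p =>
      coset d (D.lab (fstC γ) p) = c₁ ∧ coset d (D.lab (sndC γ) p) = c₂).card ≤ κ
  line_low : ∀ l, Ordinary l → q ≤ (D.pts.filter fun p => OnLine p l).card + Dl
  total : q ^ 2 ≤ D.pts.card + (q + 1) * Dl
  cross_low : ∀ j, q ≤ (D.crossPts j).card + 16
  cross_piece : ∀ j x z, ((D.crossPts j).filter fun p =>
    (D.lab (crossA j) p).1 = x ∧ (D.lab (crossC j) p).1 = z).card ≤ κ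
  cross_band : ∀ j a x, a = crossA j ∨ a = crossC j →
    g ≤ ((D.crossPts j).filter fun p => (D.lab a p).1 = x).card
  cross_band_line : ∀ j a c x d e, (a = crossA j ∧ c = crossC j) ∨
      (a = crossC j ∧ c = crossA j) →
    ((D.crossPts j).filter fun p =>
      (D.lab a p).1 = x ∧ coset d (D.lab c p) = e).card ≤ κ
  mate : ∀ j P, OnLine P (crossSide j) → ¬ IsCen P →
    (∀ j', OnLine P (crossSide j') → j' = j) →
    ∃ p ∈ D.crossPts j, p ≠ P ∧
      (D.lab (crossA j) p).1 = (D.lab (crossA j) P).1 ∧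
      (D.lab (crossA j) p).2 ≠ (D.lab (crossA j) P).2 ∧
      (D.lab (crossC j) p).1 = (D.lab (crossC j) P).1 ∧
      (D.lab (crossC j) p).2 ≠ (D.lab (crossC j) P).2
  Z_card : ∀ s : Slope q, (D.Z s).card ≤ 8 * κ
  witness : ∀ s : Slope q, ¬ IsSideSlope s →
    4 * κ ≤ (D.pts.filter fun p => D.Tagged p ∧ row p = s).card

/-- The inequalities between the numbers. -/
structure Sizes (q m T κ g Dl err kk : ℕ) : Prop where
  m_big : 1000 * (kk + 10) * (κ + 10) ≤ m
  T_sq : 4 * ((T + 3) ^ 2 + κ + 24) ≤ q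
  T_lin : (m + 20) * T + 40 ≤ 2 * q
  Dl_small : 4096 * (Dl + m + 1) ≤ q
  κ_small : 8 * m * (κ + 100) ≤ q
  kk_def : 32 * m * (4 * m * (κ + 10) + err) ≤ q * kk
  κ_big : 30 ≤ κ
  g_big : 100 * (kk + 10) * (κ + 10) ≤ g

end Vale.Agent.P045
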