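import Mathlib
import Vale.Agent.P045.Good

/-!
# P045: interface between the special points and the random labels
-/

namespace Vale.Agent.P045

open Finset

variable {q : ℕ} [Fact q.Prime] {K : Type*} [Field K] [Fintype K] [DecidableEq K]

/-- The determinant of two vectors. -/
def det2 (u v : Pt q) : ZMod q := u.1 * v.2 - u.2 * v.1

/-- A vector of the given slope. -/
def dirVec : Slope q → Pt q
  | some a => (1, a)
  | none => (0, 1)

/-- The three centres other than `a`: the partner, then the two others. -/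
def otherCen : Fin 4 → Fin 4 × Fin 4 × Fin 4 := ![(1, 2, 3), (0, 2, 3), (3, 0, 1), (2, 0, 1)]

/-- The invariant of the four lines at centre `a`: to the other centres and of slope `t`. -/
def key (a : Fin 4) (t : Slope q) : Option (ZMod q) :=
  let u := dirVec t
  let v₁ := cen (otherCen a).1 - cen a
  let v₂ := cen (otherCen a).2.1 - cen a
  let v₃ := cen (otherCen a).2.2 - cen a
  let x := det2 u v₁ * det2 v₂ v₃
  let y := det2 u v₂ * det2 v₃ v₁
  let z := det2 u v₃ * det2 v₁ v₂
  if x * y * z = 0 then none else some ((x ^ 2 + y ^ 2 + z ^ 2) ^ 3 / (x * y * z) ^ 2)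

/-- The coordinates of the random choice. -/
abbrev Coord (q : ℕ) := (Fin 2 × Option (ZMod q)) ⊕ (Fin 4 × Slope q)

/-- The group of a centre. -/
def grpOf : Fin 4 → Fin 2 := ![0, 0, 1, 1]

/-- The coordinate giving the abscissa of a label. -/
def xCoord (a : Fin 4) (t : Slope q) : Coord q := .inl (grpOf a, key a t)

/-- The coordinate giving the ordinate of a label. -/
def yCoord (a : Fin 4) (t : Slope q) : Coord q := .inr (a, t)

/-- Special points and the values prescribed by them. A coordinate has its random value sent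
through `val`: this is constant for a fixed coordinate. -/
structure Layout (q : ℕ) (K : Type*) [Fintype K] where
  /-- The special points on sides. -/
  om : Fin 2 → Fin 21 → Option K → Pt q
  /-- The points of auxiliary lines. -/
  wp : Fin 6 → Fin 12 → K → Pt q
  /-- Shifts. -/
  sh : ShiftIdx → K
  /-- Numbering of the special colours. -/
  num : Option K → ZMod (modM K)
  /-- The fixed coordinates. -/
  fixed : Finset (Coord q)
  /-- The value of a coordinate. -/
  val : Coord q → K → K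

/-- The labels. -/
def Layout.labels (Λ : Layout q K) (ω : Coord q → K) (a : Fin 4) (t : Slope q) : K × K :=
  (Λ.val (xCoord a t) (ω (xCoord a t)), Λ.val (yCoord a t) (ω (yCoord a t)))

/-- The data from a layout and the random choices. -/
def Layout.toData (Λ : Layout q K) (ω : Coord q → K) (dir : Slope q → K)
    (Z : Slope q → Finset (Slope q)) : Data q K :=
  { om := Λ.om, wp := Λ.wp, sh := Λ.sh, num := Λ.num, L := Λ.labels ω, dir := dir, Z := Z }

open Classical in
/-- What the random stage may use about a layout. -/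
structure LayoutOK (Λ : Layout q K) : Prop where
  /- positions -/
  num_bij : Function.Bijective Λ.num
  sh_inj : Function.Injective Λ.sh
  sh_ne : ∀ i, Λ.sh i ≠ 0
  om_inj : Function.Injective fun z : Fin 2 × Fin 21 × Option K => Λ.om z.1 z.2.1 z.2.2
  om_side : ∀ i g z, OnLine (Λ.om i g z) (sameSide i)
  om_off : ∀ i g z, ¬ IsCen (Λ.om i g z) ∧ ¬ OnCross (Λ.om i g z) ∧ ¬ OnW (Λ.om i g z) ∧
    ∀ i', i' ≠ i → ¬ OnLine (Λ.om i g z) (sameSide i')
  wp_inj : Function.Injective fun z : Fin 6 × Fin 12 × K => Λ.wp z.1 z.2.1 z.2.2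
  wp_line : ∀ l i x, OnLine (Λ.wp l i x) (wLine l) ∧ ¬ OnSide (Λ.wp l i x) ∧
    ∀ l', OnLine (Λ.wp l i x) (wLine l') → l' = l
  /- labels of special points, for every random choice -/
  om_fst : ∀ ω dir Z i g z, (Λ.toData ω dir Z).lab (fstC (1 - i)) (Λ.om i g z) =
    (z.getD 0, z.getD 0 ^ 2)
  om_snd : ∀ ω dir Z i g z, (Λ.toData ω dir Z).lab (sndC (1 - i)) (Λ.om i g z) =
    (z.getD 0, z.getD 0 ^ 2 + Λ.sh (.inl g))
  wp_lab : ∀ ω dir Z l i (x : K), ∀ a : Fin 4, (Λ.toData ω dir Z).lab a (Λ.wp l i x) =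
    (x, x ^ 2 + Λ.sh (.inr (l, i)) ^ 2 +
      (![0, Λ.sh (.inr (l, 0)), 0, Λ.sh (.inr (l, i))] : Fin 4 → K) a)
  row_special : ∀ ω dir Z p, ((∃ g z, Λ.om 1 g z = p) ∨ ∃ l i x, Λ.wp l i x = p) →
    ¬ IsSideSlope (row p) →
    ∀ d, coset d ((Λ.toData ω dir Z).lab 0 p) ≠ coset d (Λ.labels ω 0 (row p))
  side_lab : ∀ ω (i : Fin 2),
    Λ.labels ω (fstC (1 - i)) (sameSide i).1 = Λ.labels ω (sndC (1 - i)) (sameSide i).1
  side_X : ∀ ω dir Z i P, OnLine P (sameSide (q := q) i) → ¬ IsCen P →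
    ((Λ.toData ω dir Z).lab (fstC (1 - i)) P).1 = ((Λ.toData ω dir Z).lab (sndC (1 - i)) P).1
  /- the shape of `val` -/
  val_fixed : ∀ i ∈ Λ.fixed, ∀ v w, Λ.val i v = Λ.val i w
  val_fibre : ∀ i ∉ Λ.fixed, ∀ v, (univ.filter fun w => Λ.val i w = v).card ≤ 2
  val_free_x : ∀ a t, xCoord a t ∉ Λ.fixed →
    (∀ v, Λ.val (xCoord a t) v = v) ∧ yCoord a t ∉ Λ.fixed ∧ ∀ v, Λ.val (yCoord a t) v = v
  fixed_count : ∀ a, (univ.filter fun t : Slope q => xCoord a t ∈ Λ.fixed).card
    ≤ 5000 * Fintype.card K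
  fixed_load : ∀ a ξ, (univ.filter fun t : Slope q => yCoord a t ∈ Λ.fixed ∧
    ∀ ω, Data.InVLine ξ (Λ.labels ω a t)).card ≤ 3000
  fixed_load_x : ∀ a x, (univ.filter fun t : Slope q => xCoord a t ∈ Λ.fixed ∧
    ∀ ω, (Λ.labels ω a t).1 = x).card ≤ 3000
  fixed01 : ∀ ω (s : Slope q), ¬ IsSideSlope s → xCoord 0 s ∈ Λ.fixed → xCoord 1 s ∈ Λ.fixed →
    Λ.labels ω 0 s ≠ Λ.labels ω 1 s
  /- geometry of the keys -/
  key_fibre : ∀ a k, (univ.filter fun t : Slope q => key a t = k).card ≤ 6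
  key01 : (univ.filter fun s : Slope q => key 0 s = key 1 s).card ≤ 12
  cross_key : ∀ j P, OnLine P (crossSide (q := q) j) → ¬ IsCen P →
    key (partner (crossA j)) (slopeTo (cen (partner (crossA j))) P) =
      key (partner (crossC j)) (slopeTo (cen (partner (crossC j))) P)
  /-- Candidates for mates on a cross side: five in general, two if a key is fixed, one always. -/
  mates : ∃ Exc : Finset (Pt q), Exc.card ≤ 200 ∧ ∀ j P, OnLine P (crossSide (q := q) j) →
    ¬ IsCen P → (∀ j', OnLine P (crossSide j') → j' = j) →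
    ∃ Ms : Finset (Pt q), 1 ≤ Ms.card ∧ (P ∉ Exc → 2 ≤ Ms.card) ∧
      (P ∉ Exc → (∀ a, a = crossA j ∨ a = crossC j →
          xCoord (partner a) (slopeTo (cen (partner a)) P) ∉ Λ.fixed) → 5 ≤ Ms.card) ∧
      ∀ p ∈ Ms, p ≠ P ∧ OnLine p (crossSide j) ∧ ¬ IsCen p ∧ ¬ OnW p ∧
        ∀ a, a = crossA j ∨ a = crossC j →
          key (partner a) (slopeTo (cen (partner a)) p) =
            key (partner a) (slopeTo (cen (partner a)) P) ∧
          yCoord (partner a) (slopeTo (cen (partner a)) p) ∉ Λ.fixed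

/-- A layout exists. -/
def LayoutExists (q : ℕ) [Fact q.Prime] (K : Type*) [Field K] [Fintype K] [DecidableEq K] :
    Prop :=
  ∃ Λ : Layout q K, LayoutOK Λ

end Vale.Agent.P045
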