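import Mathlib

/-!
# P045: elementary averaging over finite products
-/

namespace Vale.Agent.P045

open Finset

variable {ι : Type*} [Fintype ι] [DecidableEq ι] {α : ι → Type*}
  [∀ i, Fintype (α i)] [∀ i, Nonempty (α i)]

/-- Average over the finite product. -/
noncomputable def avg (F : (∀ i, α i) → ℝ) : ℝ :=
  (∑ ω, F ω) / (Fintype.card (∀ i, α i) : ℝ)

open Classical in
/-- Indicator of an event. -/
noncomputable def ind {Ω : Type*} (E : Ω → Prop) (ω : Ω) : ℝ := if E ω then 1 else 0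

/-- Probability of an event. -/
noncomputable def prob (E : (∀ i, α i) → Prop) : ℝ := avg (ind E)

/-- Conditional expectation of `φ`, given all coordinates outside `S`, is at most `c`. -/
def CondLe (S : Finset ι) (φ : (∀ i, α i) → ℝ) (c : ℝ) : Prop :=
  ∀ G : (∀ i, α i) → ℝ, (∀ ω, 0 ≤ G ω) → DependsOn G ((S : Set ι)ᶜ) →
    avg (fun ω => φ ω * G ω) ≤ c * avg G

/-- Conditional probability of `E`, given all coordinates outside `S`, is at least `c`. -/
def CondGe (S : Finset ι) (E : (∀ i, α i) → Prop) (c : ℝ) : Prop :=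
  ∀ G : (∀ i, α i) → ℝ, (∀ ω, 0 ≤ G ω) → DependsOn G ((S : Set ι)ᶜ) →
    c * avg G ≤ avg (fun ω => ind E ω * G ω)

omit [Fintype ι] [DecidableEq ι] [∀ i, Fintype (α i)] [∀ i, Nonempty (α i)] in
theorem ind_nonneg {Ω : Type*} (E : Ω → Prop) (ω : Ω) : 0 ≤ ind E ω := by
  unfold ind; split <;> norm_num

theorem avg_mono {F G : (∀ i, α i) → ℝ} (h : ∀ ω, F ω ≤ G ω) : avg F ≤ avg G := by
  unfold avg; gcongr; exact h _

theorem avg_nonneg {F : (∀ i, α i) → ℝ} (h : ∀ ω, 0 ≤ F ω) : 0 ≤ avg F :=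
  div_nonneg (Finset.sum_nonneg fun ω _ => h ω) (Nat.cast_nonneg _)

theorem avg_add (F G : (∀ i, α i) → ℝ) : avg (fun ω => F ω + G ω) = avg F + avg G := by
  simp [avg, Finset.sum_add_distrib, add_div]

theorem avg_sub (F G : (∀ i, α i) → ℝ) : avg (fun ω => F ω - G ω) = avg F - avg G := by
  simp [avg, Finset.sum_sub_distrib, sub_div]

theorem avg_const_mul (c : ℝ) (F : (∀ i, α i) → ℝ) : avg (fun ω => c * F ω) = c * avg F := by
  simp [avg, ← Finset.mul_sum, mul_div_assoc]

theorem avg_const (c : ℝ) : avg (fun _ : (∀ i, α i) => c) = c := by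
  simp [avg, mul_div_cancel_left₀, Finset.prod_ne_zero_iff, Fintype.card_ne_zero]

theorem avg_finsum {J : Type*} (Js : Finset J) (F : J → (∀ i, α i) → ℝ) :
    avg (fun ω => ∑ j ∈ Js, F j ω) = ∑ j ∈ Js, avg (F j) := by
  simp only [avg]
  rw [Finset.sum_comm, Finset.sum_div]

theorem sum_update (i : ι) (f : (∀ j, α j) → ℝ) :
    ∑ ω, ∑ a : α i, f (Function.update ω i a) = (Fintype.card (α i) : ℝ) * ∑ ω, f ω := by
  have h : ∑ x : (∀ j, α j) × α i, f (Function.update x.1 i x.2) =
      ∑ x : (∀ j, α j) × α i, f x.1 :=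
    Fintype.sum_equiv
      ⟨fun x => (Function.update x.1 i x.2, x.1 i), fun x => (Function.update x.1 i x.2, x.1 i),
        fun x => by simp, fun x => by simp⟩ _ _ fun x => rfl
  rw [Fintype.sum_prod_type, Fintype.sum_prod_type] at h
  rw [h, Finset.mul_sum]
  simp

omit [Fintype ι] [∀ i, Fintype (α i)] [∀ i, Nonempty (α i)] in
theorem update_eq_of_dependsOn {β : Type*} {G : (∀ i, α i) → β} {i : ι}
    (hG : DependsOn G (((({i} : Finset ι) : Set ι))ᶜ)) (ω : ∀ i, α i) (a : α i) :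
    G (Function.update ω i a) = G ω :=
  hG fun j hj => Function.update_of_ne (by simpa using hj) _ _

open Classical in
theorem sum_ind_update (i : ι) (E : (∀ i, α i) → Prop) (ω : ∀ i, α i) :
    ∑ a : α i, ind E (Function.update ω i a) =
      ({a : α i | E (Function.update ω i a)}.ncard : ℝ) := by
  simp only [ind, Finset.sum_boole]
  rw [Set.ncard_eq_toFinset_card' ]
  simp

/-- An event allowing at most `r` values of coordinate `i`, the others being fixed. -/
theorem condLe_coord (i : ι) (E : (∀ i, α i) → Prop) (r : ℕ)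
    (h : ∀ ω, {a : α i | E (Function.update ω i a)}.ncard ≤ r) :
    CondLe {i} (ind E) ((r : ℝ) / Fintype.card (α i)) := by
  intro G hG hdep
  have hN : (0 : ℝ) < Fintype.card (α i) := Nat.cast_pos.2 Fintype.card_pos
  have key := sum_update i (fun ω => ind E ω * G ω)
  simp only [update_eq_of_dependsOn hdep, ← Finset.sum_mul, sum_ind_update] at key
  rw [← avg_const_mul]
  unfold avg
  gcongr ?_ / _
  rw [← Finset.mul_sum, div_mul_eq_mul_div, le_div_iff₀ hN,
    mul_comm (∑ ω, ind E ω * G ω), ← key, Finset.mul_sum]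
  exact Finset.sum_le_sum fun ω _ =>
    mul_le_mul_of_nonneg_right (by exact_mod_cast h ω) (hG ω)

/-- An event allowing at least `r` values of coordinate `i`, the others being fixed. -/
theorem condGe_coord (i : ι) (E : (∀ i, α i) → Prop) (r : ℕ)
    (h : ∀ ω, r ≤ {a : α i | E (Function.update ω i a)}.ncard) :
    CondGe {i} E ((r : ℝ) / Fintype.card (α i)) := by
  intro G hG hdep
  have hN : (0 : ℝ) < Fintype.card (α i) := Nat.cast_pos.2 Fintype.card_pos
  have key := sum_update i (fun ω => ind E ω * G ω)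
  simp only [update_eq_of_dependsOn hdep, ← Finset.sum_mul, sum_ind_update] at key
  rw [← avg_const_mul]
  unfold avg
  gcongr ?_ / _
  rw [← Finset.mul_sum, div_mul_eq_mul_div, div_le_iff₀ hN,
    mul_comm (∑ ω, ind E ω * G ω), ← key, Finset.mul_sum]
  exact Finset.sum_le_sum fun ω _ =>
    mul_le_mul_of_nonneg_right (by exact_mod_cast h ω) (hG ω)

theorem CondLe.mono {S T : Finset ι} {φ : (∀ i, α i) → ℝ} {c c' : ℝ}
    (h : CondLe S φ c) (hST : S ⊆ T) (hc : c ≤ c') : CondLe T φ c' := by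
  intro G hG hdep
  exact (h G hG (hdep.mono (Set.compl_subset_compl.2 (Finset.coe_subset.2 hST)))).trans
    (mul_le_mul_of_nonneg_right hc (avg_nonneg hG))

theorem CondLe.of_imp {S : Finset ι} {E F : (∀ i, α i) → Prop} {c : ℝ}
    (h : CondLe S (ind F) c) (hEF : ∀ ω, E ω → F ω) : CondLe S (ind E) c := by
  intro G hG hdep
  refine (avg_mono fun ω => mul_le_mul_of_nonneg_right ?_ (hG ω)).trans (h G hG hdep)
  by_cases hE : E ω
  · simp [ind, hE, hEF ω hE]
  · simp only [ind, hE, if_false]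
    split <;> norm_num

theorem CondLe.or {S : Finset ι} {E F : (∀ i, α i) → Prop} {c d : ℝ}
    (hE : CondLe S (ind E) c) (hF : CondLe S (ind F) d) :
    CondLe S (ind (fun ω => E ω ∨ F ω)) (c + d) := by
  intro G hG hdep
  rw [add_mul]
  refine le_trans ?_ (add_le_add (hE G hG hdep) (hF G hG hdep))
  rw [← avg_add]
  refine avg_mono fun ω => ?_
  rw [← add_mul]
  refine mul_le_mul_of_nonneg_right ?_ (hG ω)
  unfold ind
  by_cases h1 : E ω <;> by_cases h2 : F ω <;> simp [h1, h2]

/-- `E` bounded by its coordinates `S`, `F` by `T`, and `F` does not read `S`. -/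
theorem CondLe.and {S T : Finset ι} {E F : (∀ i, α i) → Prop} {c d : ℝ}
    (hE : CondLe S (ind E) c) (hF : CondLe T (ind F) d) (hc : 0 ≤ c)
    (hdep : DependsOn F ((S : Set ι)ᶜ)) (hST : Disjoint S T) :
    CondLe (S ∪ T) (ind (fun ω => E ω ∧ F ω)) (c * d) := by
  intro G hG hdepG
  have hd : DependsOn (fun ω => ind F ω * G ω) ((S : Set ι)ᶜ) := by
    intro x y hxy
    have e1 : F x = F y := hdep hxy
    have e2 : G x = G y := hdepG fun j hj => hxy j (fun hjS => hj (by simp [Finset.mem_coe.1 hjS]))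
    have e1' : F x ↔ F y := e1.to_iff
    by_cases hy : F y <;> simp [ind, e1', e2, hy]
  have hT : DependsOn G ((T : Set ι)ᶜ) :=
    hdepG.mono (Set.compl_subset_compl.2 (by simp))
  have hpos : ∀ ω, 0 ≤ ind F ω * G ω := fun ω => mul_nonneg (ind_nonneg _ _) (hG ω)
  have e : (fun ω => ind (fun ω => E ω ∧ F ω) ω * G ω) = fun ω => ind E ω * (ind F ω * G ω) := by
    funext ω
    by_cases h1 : E ω <;> by_cases h2 : F ω <;> simp [ind, h1, h2]
  rw [e]
  calc avg (fun ω => ind E ω * (ind F ω * G ω)) ≤ c * avg (fun ω => ind F ω * G ω) := hE _ hpos hd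
    _ ≤ c * (d * avg G) := mul_le_mul_of_nonneg_left (hF G hG hT) hc
    _ = c * d * avg G := (mul_assoc _ _ _).symm

theorem CondGe.and {S T : Finset ι} {E F : (∀ i, α i) → Prop} {c d : ℝ}
    (hE : CondGe S E c) (hF : CondGe T F d) (hc : 0 ≤ c)
    (hdep : DependsOn F ((S : Set ι)ᶜ)) (hST : Disjoint S T) :
    CondGe (S ∪ T) (fun ω => E ω ∧ F ω) (c * d) := by
  intro G hG hdepG
  have hd : DependsOn (fun ω => ind F ω * G ω) ((S : Set ι)ᶜ) := by
    intro x y hxy
    have e1 : F x = F y := hdep hxy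
    have e2 : G x = G y := hdepG fun j hj => hxy j (fun hjS => hj (by simp [Finset.mem_coe.1 hjS]))
    have e1' : F x ↔ F y := e1.to_iff
    by_cases hy : F y <;> simp [ind, e1', e2, hy]
  have hT : DependsOn G ((T : Set ι)ᶜ) :=
    hdepG.mono (Set.compl_subset_compl.2 (by simp))
  have hpos : ∀ ω, 0 ≤ ind F ω * G ω := fun ω => mul_nonneg (ind_nonneg _ _) (hG ω)
  have e : (fun ω => ind (fun ω => E ω ∧ F ω) ω * G ω) = fun ω => ind E ω * (ind F ω * G ω) := by
    funext ω
    by_cases h1 : E ω <;> by_cases h2 : F ω <;> simp [ind, h1, h2]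
  rw [e]
  calc c * d * avg G = c * (d * avg G) := mul_assoc _ _ _
    _ ≤ c * avg (fun ω => ind F ω * G ω) := mul_le_mul_of_nonneg_left (hF G hG hT) hc
    _ ≤ avg (fun ω => ind E ω * (ind F ω * G ω)) := hE _ hpos hd

theorem CondLe.nonneg {S : Finset ι} {φ : (∀ i, α i) → ℝ} {c : ℝ} (h : CondLe S φ c)
    (hφ : ∀ ω, 0 ≤ φ ω) : 0 ≤ c := by
  have h1 := h (fun _ => 1) (fun _ => zero_le_one) fun _ _ _ => rfl
  simp only [mul_one, avg_const] at h1
  exact (avg_nonneg hφ).trans h1

variable {Y : Type*} [DecidableEq Y]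

/-- The engine: each factor has private coordinates `S y` which no other factor reads. -/
theorem avg_prod_le (Ys : Finset Y) (S : Y → Finset ι) (φ : Y → (∀ i, α i) → ℝ) (c : Y → ℝ)
    (hpos : ∀ y ∈ Ys, ∀ ω, 0 ≤ φ y ω) (hc : ∀ y ∈ Ys, CondLe (S y) (φ y) (c y))
    (hdep : ∀ y ∈ Ys, ∀ y' ∈ Ys, y ≠ y' → DependsOn (φ y') ((S y : Set ι)ᶜ)) :
    avg (fun ω => ∏ y ∈ Ys, φ y ω) ≤ ∏ y ∈ Ys, c y := by
  induction Ys using Finset.induction_on with
  | empty => simp [avg_const]
  | insert a s ha ih =>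
    have hp' : ∀ y ∈ s, ∀ ω, 0 ≤ φ y ω := fun y hy => hpos y (Finset.mem_insert_of_mem hy)
    have h2 : ∀ y ∈ s, ∀ y' ∈ s, y ≠ y' → DependsOn (φ y') ((S y : Set ι)ᶜ) := fun y hy y' hy' =>
      hdep y (Finset.mem_insert_of_mem hy) y' (Finset.mem_insert_of_mem hy')
    simp only [Finset.prod_insert ha]
    refine (hc a (Finset.mem_insert_self a s) _ (fun ω => Finset.prod_nonneg fun y hy => hp' y hy ω)
      ?_).trans (mul_le_mul_of_nonneg_left (ih hp' (fun y hy => hc y (Finset.mem_insert_of_mem hy)) h2)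
        ((hc a (Finset.mem_insert_self a s)).nonneg (hpos a (Finset.mem_insert_self a s))))
    intro x z hxz
    exact Finset.prod_congr rfl fun y hy => hdep a (Finset.mem_insert_self a s) y
      (Finset.mem_insert_of_mem hy) (fun e => ha (e ▸ hy)) hxz

omit [Fintype ι] [DecidableEq ι] in
theorem dependsOn_ind {S : Set ι} {F : (∀ i, α i) → Prop} (h : DependsOn F S) :
    DependsOn (ind F) S := fun x y hxy => by
  have e : F x ↔ F y := (h hxy).to_iff
  by_cases hy : F y <;> simp [ind, e, hy]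

omit [DecidableEq Y] in
theorem pow_succ_add_le {x a : ℝ} (hx : 0 ≤ x) (ha : 0 ≤ a) :
    ∀ k : ℕ, x ^ (k + 1) + (k + 1) * a * x ^ k ≤ (x + a) ^ (k + 1)
  | 0 => by simp
  | k + 1 => by
    have h := mul_le_mul_of_nonneg_right (pow_succ_add_le hx ha k) (add_nonneg hx ha)
    have h' : 0 ≤ (k + 1 : ℝ) * a * a * x ^ k := by positivity
    rw [pow_succ (x + a) (k + 1)]
    refine le_trans ?_ h
    push_cast
    rw [pow_succ x (k + 1), pow_succ x k]
    nlinarith

theorem sum_powersetCard_prod_le (p : Y → ℝ) : ∀ (s : Finset Y), (∀ y ∈ s, 0 ≤ p y) → ∀ k : ℕ,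
    (k.factorial : ℝ) * ∑ T ∈ s.powersetCard k, ∏ y ∈ T, p y ≤ (∑ y ∈ s, p y) ^ k := by
  intro s
  induction s using Finset.induction_on with
  | empty =>
    intro _ k
    cases k with
    | zero => simp
    | succ k => simp [Finset.powersetCard_eq_empty.2 (show (∅ : Finset Y).card < k + 1 by simp)]
  | insert a s ha ih =>
    intro hp k
    have hp' : ∀ y ∈ s, 0 ≤ p y := fun y hy => hp y (Finset.mem_insert_of_mem hy)
    cases k with
    | zero => simp
    | succ k =>
      have hdis : Disjoint (s.powersetCard (k + 1)) ((s.powersetCard k).image (insert a)) := by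
        rw [Finset.disjoint_left]
        intro T hT hT'
        obtain ⟨U, -, rfl⟩ := Finset.mem_image.1 hT'
        exact ha ((Finset.mem_powersetCard.1 hT).1 (Finset.mem_insert_self a U))
      have hinj : Set.InjOn (insert a) (s.powersetCard k : Set (Finset Y)) := by
        intro U hU V hV e
        have hu : a ∉ U := fun h => ha ((Finset.mem_powersetCard.1 hU).1 h)
        have hv : a ∉ V := fun h => ha ((Finset.mem_powersetCard.1 hV).1 h)
        rw [← Finset.erase_insert hu, e, Finset.erase_insert hv]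
      have hmul : ∑ U ∈ s.powersetCard k, ∏ y ∈ insert a U, p y =
          p a * ∑ U ∈ s.powersetCard k, ∏ y ∈ U, p y := by
        rw [Finset.mul_sum]
        exact Finset.sum_congr rfl fun U hU =>
          Finset.prod_insert fun h => ha ((Finset.mem_powersetCard.1 hU).1 h)
      rw [Finset.powersetCard_succ_insert ha, Finset.sum_union hdis, Finset.sum_image hinj, hmul,
        Finset.sum_insert ha, mul_add, Nat.factorial_succ, Nat.cast_mul, Nat.cast_add, Nat.cast_one]
      have h1 := ih hp' (k + 1)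
      rw [Nat.factorial_succ, Nat.cast_mul, Nat.cast_add, Nat.cast_one] at h1
      have h2 := mul_le_mul_of_nonneg_left (ih hp' k)
        (mul_nonneg (by positivity : (0 : ℝ) ≤ k + 1) (hp a (Finset.mem_insert_self a s)))
      have h3 := pow_succ_add_le (Finset.sum_nonneg hp') (hp a (Finset.mem_insert_self a s)) k
      rw [add_comm (p a)]
      linarith

open Classical in
/-- Upper tail through `k`-subsets. -/
theorem prob_count_ge_le (Ys : Finset Y) (S : Y → Finset ι) (E : Y → (∀ i, α i) → Prop)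
    (p : Y → ℝ) (lam : ℝ) (k : ℕ) (hp : ∀ y ∈ Ys, 0 ≤ p y)
    (hsum : ∑ y ∈ Ys, p y ≤ lam) (hc : ∀ y ∈ Ys, CondLe (S y) (ind (E y)) (p y))
    (hdep : ∀ y ∈ Ys, ∀ y' ∈ Ys, y ≠ y' → DependsOn (E y') ((S y : Set ι)ᶜ)) :
    prob (fun ω => k ≤ (Ys.filter (fun y => E y ω)).card) ≤ lam ^ k / k.factorial := by
  set C := Ys.powersetCard k
  have h1 : prob (fun ω => k ≤ (Ys.filter (fun y => E y ω)).card)
      ≤ avg (fun ω => ∑ T ∈ C, ∏ y ∈ T, ind (E y) ω) := by
    refine avg_mono fun ω => ?_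
    have hnn : ∀ T ∈ C, 0 ≤ ∏ y ∈ T, ind (E y) ω := fun T _ =>
      Finset.prod_nonneg fun y _ => ind_nonneg _ _
    by_cases h : k ≤ (Ys.filter (fun y => E y ω)).card
    · obtain ⟨T, hT, hTk⟩ := Finset.exists_subset_card_eq h
      have hTC : T ∈ C := Finset.mem_powersetCard.2 ⟨hT.trans (Finset.filter_subset _ _), hTk⟩
      refine le_trans ?_ (Finset.single_le_sum hnn hTC)
      simp only [ind, h, if_true]
      rw [Finset.prod_eq_one fun y hy => if_pos (Finset.mem_filter.1 (hT hy)).2]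
    · simp only [ind, h, if_false]
      exact Finset.sum_nonneg hnn
  rw [avg_finsum] at h1
  refine h1.trans ((Finset.sum_le_sum fun T hT => ?_).trans ?_ (b := ∑ T ∈ C, ∏ y ∈ T, p y))
  · have hsub := (Finset.mem_powersetCard.1 hT).1
    exact avg_prod_le T S (fun y => ind (E y)) p (fun y _ ω => ind_nonneg _ _)
      (fun y hy => hc y (hsub hy))
      fun y hy y' hy' hne => dependsOn_ind (hdep y (hsub hy) y' (hsub hy') hne)
  · rw [le_div_iff₀ (by positivity), mul_comm]
    exact (sum_powersetCard_prod_le p Ys hp k).trans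
      (pow_le_pow_left₀ (Finset.sum_nonneg hp) hsum k)

open Classical in
/-- Upper tail with a multiplicative slack `4/3`. -/
theorem prob_count_ge_exp (Ys : Finset Y) (S : Y → Finset ι) (E : Y → (∀ i, α i) → Prop)
    (p : ℝ) (k : ℕ) (hp : 0 ≤ p) (hc : ∀ y ∈ Ys, CondLe (S y) (ind (E y)) p)
    (hdep : ∀ y ∈ Ys, ∀ y' ∈ Ys, y ≠ y' → DependsOn (E y') ((S y : Set ι)ᶜ)) :
    prob (fun ω => k ≤ (Ys.filter (fun y => E y ω)).card)
      ≤ (3 / 4 : ℝ) ^ k * Real.exp (p * Ys.card / 3) := by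
  set φ : Y → (∀ i, α i) → ℝ := fun y ω => 1 + ind (E y) ω / 3
  have hpos : ∀ y ∈ Ys, ∀ ω, 0 ≤ φ y ω := fun y _ ω => by
    have := ind_nonneg (E y) ω
    simp only [φ]; linarith
  have hcφ : ∀ y ∈ Ys, CondLe (S y) (φ y) (1 + p / 3) := by
    intro y hy G hG hdepG
    have e : (fun ω => φ y ω * G ω) = fun ω => G ω + (1 / 3) * (ind (E y) ω * G ω) := by
      funext ω; simp only [φ]; ring
    rw [e, avg_add, avg_const_mul]
    have := hc y hy G hG hdepG
    linarith
  have h1 : prob (fun ω => k ≤ (Ys.filter (fun y => E y ω)).card)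
      ≤ avg (fun ω => (3 / 4 : ℝ) ^ k * ∏ y ∈ Ys, φ y ω) := by
    refine avg_mono fun ω => ?_
    have e : ∏ y ∈ Ys, φ y ω = (4 / 3 : ℝ) ^ (Ys.filter (fun y => E y ω)).card := by
      rw [← Finset.prod_const, Finset.prod_filter]
      refine Finset.prod_congr rfl fun y _ => ?_
      by_cases h : E y ω <;> simp [φ, ind, h] <;> norm_num
    rw [e]
    by_cases h : k ≤ (Ys.filter (fun y => E y ω)).card
    · simp only [ind, h, if_true]
      calc (1 : ℝ) = (3 / 4 : ℝ) ^ k * (4 / 3 : ℝ) ^ k := by rw [← mul_pow]; norm_num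
        _ ≤ _ := mul_le_mul_of_nonneg_left (pow_le_pow_right₀ (by norm_num) h) (by positivity)
    · simp only [ind, h, if_false]
      positivity
  rw [avg_const_mul] at h1
  refine h1.trans (mul_le_mul_of_nonneg_left ?_ (by positivity))
  refine (avg_prod_le Ys S φ (fun _ => 1 + p / 3) hpos hcφ fun y hy y' hy' hne x z hxz => ?_).trans ?_
  · simp [φ, dependsOn_ind (hdep y hy y' hy' hne) hxz]
  · rw [Finset.prod_const, show p * Ys.card / 3 = Ys.card * (p / 3) by ring, Real.exp_nat_mul]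
    exact pow_le_pow_left₀ (by positivity) (by linarith [Real.add_one_le_exp (p / 3)]) _

open Classical in
/-- Lower tail. -/
theorem prob_count_le (Ys : Finset Y) (S : Y → Finset ι) (E : Y → (∀ i, α i) → Prop)
    (p : ℝ) (k : ℕ) (hp : 0 ≤ p) (hc : ∀ y ∈ Ys, CondGe (S y) (E y) p)
    (hdep : ∀ y ∈ Ys, ∀ y' ∈ Ys, y ≠ y' → DependsOn (E y') ((S y : Set ι)ᶜ)) :
    prob (fun ω => (Ys.filter (fun y => E y ω)).card ≤ k)
      ≤ 2 ^ k * Real.exp (-(p * Ys.card / 2)) := by
  set φ : Y → (∀ i, α i) → ℝ := fun y ω => 1 - ind (E y) ω / 2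
  have hpos : ∀ y ∈ Ys, ∀ ω, 0 ≤ φ y ω := fun y _ ω => by
    simp only [φ, ind]; split <;> norm_num
  have hcφ : ∀ y ∈ Ys, CondLe (S y) (φ y) (1 - p / 2) := by
    intro y hy G hG hdepG
    have e : (fun ω => φ y ω * G ω) = fun ω => G ω - (1 / 2) * (ind (E y) ω * G ω) := by
      funext ω; simp only [φ]; ring
    rw [e, avg_sub, avg_const_mul]
    have := hc y hy G hG hdepG
    linarith
  have h1 : prob (fun ω => (Ys.filter (fun y => E y ω)).card ≤ k)
      ≤ avg (fun ω => (2 : ℝ) ^ k * ∏ y ∈ Ys, φ y ω) := by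
    refine avg_mono fun ω => ?_
    have e : ∏ y ∈ Ys, φ y ω = (1 / 2 : ℝ) ^ (Ys.filter (fun y => E y ω)).card := by
      rw [← Finset.prod_const, Finset.prod_filter]
      refine Finset.prod_congr rfl fun y _ => ?_
      by_cases h : E y ω <;> simp [φ, ind, h] <;> norm_num
    rw [e]
    by_cases h : (Ys.filter (fun y => E y ω)).card ≤ k
    · simp only [ind, h, if_true]
      calc (1 : ℝ) = (2 : ℝ) ^ k * (1 / 2 : ℝ) ^ k := by rw [← mul_pow]; norm_num
        _ ≤ _ := mul_le_mul_of_nonneg_left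
          (pow_le_pow_of_le_one (by norm_num) (by norm_num) h) (by positivity)
    · simp only [ind, h, if_false]
      positivity
  rw [avg_const_mul] at h1
  refine h1.trans (mul_le_mul_of_nonneg_left ?_ (by positivity))
  refine (avg_prod_le Ys S φ (fun _ => 1 - p / 2) hpos hcφ fun y hy y' hy' hne x z hxz => ?_).trans ?_
  · simp [φ, dependsOn_ind (hdep y hy y' hy' hne) hxz]
  · rw [Finset.prod_const, show -(p * Ys.card / 2) = Ys.card * (-(p / 2)) by ring, Real.exp_nat_mul]
    rcases Ys.eq_empty_or_nonempty with rfl | ⟨y, hy⟩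
    · simp
    · exact pow_le_pow_left₀ ((hcφ y hy).nonneg (hpos y hy))
        (by linarith [Real.add_one_le_exp (-(p / 2))]) _

/-- Union bound: a point avoiding all bad events. -/
theorem exists_forall_not {J : Type*} (Js : Finset J) (E : J → (∀ i, α i) → Prop)
    (h : ∑ j ∈ Js, prob (E j) < 1) : ∃ ω, ∀ j ∈ Js, ¬ E j ω := by
  by_contra hne
  push Not at hne
  have h1 : (1 : ℝ) ≤ avg (fun ω => ∑ j ∈ Js, ind (E j) ω) := by
    refine (avg_const (1 : ℝ)).symm.le.trans (avg_mono fun ω => ?_)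
    obtain ⟨j, hj, hE⟩ := hne ω
    refine le_trans ?_ (Finset.single_le_sum (fun j _ => ind_nonneg (E j) ω) hj)
    simp [ind, hE]
  rw [avg_finsum] at h1
  exact absurd h (not_lt.2 h1)

/-- Probability of the union of finitely many events. -/
theorem prob_exists_le {J : Type*} (Js : Finset J) (E : J → (∀ i, α i) → Prop) :
    prob (fun ω => ∃ j ∈ Js, E j ω) ≤ ∑ j ∈ Js, prob (E j) := by
  unfold prob
  rw [← avg_finsum]
  refine avg_mono fun ω => ?_
  by_cases h : ∃ j ∈ Js, E j ω
  · obtain ⟨j, hj, hE⟩ := h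
    refine le_trans ?_ (Finset.single_le_sum (fun j _ => ind_nonneg (E j) ω) hj)
    simp only [ind, hE, if_true]
    split <;> norm_num
  · simp only [ind, h, if_false]
    exact Finset.sum_nonneg fun j _ => ind_nonneg (E j) ω

theorem prob_mono {E F : (∀ i, α i) → Prop} (h : ∀ ω, E ω → F ω) : prob E ≤ prob F := by
  refine avg_mono fun ω => ?_
  by_cases hE : E ω
  · simp [ind, hE, h ω hE]
  · simp only [ind, hE, if_false]
    split <;> norm_num

theorem prob_le_of_condLe {S : Finset ι} {E : (∀ i, α i) → Prop} {c : ℝ}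
    (h : CondLe S (ind E) c) : prob E ≤ c := by
  have h1 := h (fun _ => 1) (fun _ => zero_le_one) fun _ _ _ => rfl
  simpa [prob, avg_const] using h1

end Vale.Agent.P045
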