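import Mathlib
import Vale.Agent.P045.Prob

/-!
# P045: tail bounds in the form used by the random stages, and small colourings
-/

namespace Vale.Agent.P045

open Finset

/-- `exp (-x) ≤ 2 ^ (-n)` for `n ≤ x`. -/
theorem exp_neg_le_half_pow {x : ℝ} {n : ℕ} (h : (n : ℝ) ≤ x) :
    Real.exp (-x) ≤ (1 / 2 : ℝ) ^ n := by
  refine le_trans (Real.exp_le_exp.2 (neg_le_neg h)) ?_
  rw [show -(n : ℝ) = n * (-1) by ring, Real.exp_nat_mul]
  refine pow_le_pow_left₀ (Real.exp_pos _).le ?_ n
  rw [Real.exp_neg, one_div]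
  exact inv_anti₀ (by norm_num) (by linarith [Real.add_one_le_exp (1 : ℝ)])

variable {ι : Type*} [Fintype ι] [DecidableEq ι] {α : ι → Type*}
  [∀ i, Fintype (α i)] [∀ i, Nonempty (α i)] {Y : Type*} [DecidableEq Y]

open Classical in
/-- Upper tail. -/
theorem tail_upper (Ys : Finset Y) (S : Y → Finset ι) (E : Y → (∀ i, α i) → Prop)
    (p : ℝ) (k n : ℕ) (hp : 0 ≤ p) (hc : ∀ y ∈ Ys, CondLe (S y) (ind (E y)) p)
    (hdep : ∀ y ∈ Ys, ∀ y' ∈ Ys, y ≠ y' → DependsOn (E y') ((S y : Set ι)ᶜ))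
    (hk : 3 / 2 * p * Ys.card + 4 * n ≤ k) :
    prob (fun ω => k ≤ (Ys.filter (fun y => E y ω)).card) ≤ (1 / 2 : ℝ) ^ n := by
  refine (prob_count_ge_exp Ys S E p k hp hc hdep).trans ?_
  have h34 : (3 / 4 : ℝ) ^ k ≤ Real.exp ((k : ℝ) * (-(1 / 4))) := by
    rw [Real.exp_nat_mul]
    exact pow_le_pow_left₀ (by norm_num) (by linarith [Real.add_one_le_exp (-(1 / 4) : ℝ)]) k
  refine (mul_le_mul_of_nonneg_right h34 (Real.exp_pos _).le).trans ?_
  rw [← Real.exp_add]
  refine le_trans ?_ (exp_neg_le_half_pow (le_refl (n : ℝ)))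
  refine Real.exp_le_exp.2 ?_
  have : 0 ≤ p * Ys.card := by positivity
  linarith

open Classical in
/-- Lower tail. -/
theorem tail_lower (Ys : Finset Y) (S : Y → Finset ι) (E : Y → (∀ i, α i) → Prop)
    (p : ℝ) (k n : ℕ) (hp : 0 ≤ p) (hc : ∀ y ∈ Ys, CondGe (S y) (E y) p)
    (hdep : ∀ y ∈ Ys, ∀ y' ∈ Ys, y ≠ y' → DependsOn (E y') ((S y : Set ι)ᶜ))
    (hk : (k : ℝ) + n ≤ p * Ys.card / 2) :
    prob (fun ω => (Ys.filter (fun y => E y ω)).card ≤ k) ≤ (1 / 2 : ℝ) ^ n := by
  refine (prob_count_le Ys S E p k hp hc hdep).trans ?_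
  have h2 : (2 : ℝ) ^ k ≤ Real.exp ((k : ℝ) * 1) := by
    rw [Real.exp_nat_mul]
    exact pow_le_pow_left₀ (by norm_num) (by linarith [Real.add_one_le_exp (1 : ℝ)]) k
  refine (mul_le_mul_of_nonneg_right h2 (Real.exp_pos _).le).trans ?_
  rw [← Real.exp_add]
  refine le_trans ?_ (exp_neg_le_half_pow (le_refl (n : ℝ)))
  refine Real.exp_le_exp.2 ?_
  linarith

open Classical in
/-- Upper tail when privacy only holds inside the classes of a colouring. -/
theorem tail_classes {C : Type*} [Fintype C] (col : Y → C) (Ys : Finset Y) (S : Y → Finset ι)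
    (E : Y → (∀ i, α i) → Prop) (p : ℝ) (k n : ℕ) (hp : 0 ≤ p)
    (hc : ∀ y ∈ Ys, CondLe (S y) (ind (E y)) p)
    (hdep : ∀ y ∈ Ys, ∀ y' ∈ Ys, y ≠ y' → col y = col y' →
      DependsOn (E y') ((S y : Set ι)ᶜ))
    (hk : 3 / 2 * p * Ys.card + Fintype.card C * (4 * n + 1 : ℝ) ≤ k) :
    prob (fun ω => k < (Ys.filter (fun y => E y ω)).card)
      ≤ Fintype.card C * (1 / 2 : ℝ) ^ n := by
  set Yc : C → Finset Y := fun c => Ys.filter fun y => col y = c
  set kc : C → ℕ := fun c => ⌈3 / 2 * p * (Yc c).card⌉₊ + 4 * n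
  have hsum : ∑ c, ((Yc c).card : ℝ) = Ys.card := by
    rw [← Nat.cast_sum, ← card_eq_sum_card_fiberwise (f := col) (t := univ) fun y _ => mem_univ _]
  have hk' : ∑ c, kc c ≤ k := by
    have h1 : ∀ c, (kc c : ℝ) ≤ 3 / 2 * p * (Yc c).card + (4 * n + 1 : ℝ) := fun c => by
      have := Nat.ceil_lt_add_one (a := 3 / 2 * p * (Yc c).card) (by positivity)
      simp only [kc]
      push_cast
      linarith
    have h2 : ((∑ c, kc c : ℕ) : ℝ) ≤ k := by
      rw [Nat.cast_sum]
      refine (sum_le_sum fun c _ => h1 c).trans (le_trans (le_of_eq ?_) hk)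
      rw [sum_add_distrib, ← mul_sum, hsum, sum_const, card_univ, nsmul_eq_mul]
    exact_mod_cast h2
  have himp : ∀ ω, k < (Ys.filter (fun y => E y ω)).card →
      ∃ c ∈ (univ : Finset C), kc c ≤ ((Yc c).filter (fun y => E y ω)).card := by
    intro ω hω
    by_contra hne
    push Not at hne
    have : (Ys.filter (fun y => E y ω)).card ≤ k := by
      rw [card_eq_sum_card_fiberwise (f := col) (t := univ) fun y _ => mem_univ _]
      refine le_trans (sum_le_sum fun c _ => ?_) hk'
      rw [filter_comm]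
      exact (hne c (mem_univ c)).le
    omega
  refine (prob_mono himp).trans ((prob_exists_le univ _).trans ?_)
  refine le_trans (sum_le_sum fun c _ => ?_) (le_of_eq (b := ∑ _c : C, (1 / 2 : ℝ) ^ n) rfl)
    |>.trans (le_of_eq (by simp))
  refine tail_upper (Yc c) S E p (kc c) n hp (fun y hy => hc y (mem_filter.1 hy).1)
    (fun y hy y' hy' hne => hdep y (mem_filter.1 hy).1 y' (mem_filter.1 hy').1 hne
      ((mem_filter.1 hy).2.trans (mem_filter.1 hy').2.symm)) ?_
  simp only [kc]
  push_cast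
  linarith [Nat.le_ceil (3 / 2 * p * (Yc c).card)]

/-- A union of events with small index set is unlikely. -/
theorem prob_exists_le_mul {J : Type*} (Js : Finset J) (E : J → (∀ i, α i) → Prop) (e : ℝ)
    (h : ∀ j ∈ Js, prob (E j) ≤ e) : prob (fun ω => ∃ j ∈ Js, E j ω) ≤ Js.card * e := by
  refine (prob_exists_le Js E).trans ((sum_le_sum h).trans (le_of_eq ?_))
  rw [sum_const, nsmul_eq_mul]

theorem prob_or_le (E F : (∀ i, α i) → Prop) :
    prob (fun ω => E ω ∨ F ω) ≤ prob E + prob F := by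
  unfold prob
  rw [← avg_add]
  refine avg_mono fun ω => ?_
  by_cases h1 : E ω <;> by_cases h2 : F ω <;> simp [ind, h1, h2]

theorem prob_eq_zero {E : (∀ i, α i) → Prop} (h : ∀ ω, ¬ E ω) : prob E = 0 := by
  simp [prob, ind, h, avg]

theorem prob_nonneg (E : (∀ i, α i) → Prop) : 0 ≤ prob E :=
  avg_nonneg fun ω => ind_nonneg E ω

/-- A colouring with `N` colours injective on the fibres of `f`. -/
theorem exists_fibre_colour {T V : Type*} [Fintype T] [DecidableEq T] [DecidableEq V] (f : T → V)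
    {N : ℕ} (h : ∀ v, (univ.filter fun t => f t = v).card ≤ N) :
    ∃ c : T → Fin N, ∀ t t', f t = f t' → c t = c t' → t = t' := by
  refine ⟨fun t => ⟨((univ.filter fun u => f u = f t).equivFin ⟨t, by simp⟩ : ℕ),
    lt_of_lt_of_le (Fin.isLt _) (h _)⟩, fun t t' hf hc => ?_⟩
  have key : ∀ (A B : Finset T) (hA : t ∈ A) (hB : t' ∈ B), A = B →
      (A.equivFin ⟨t, hA⟩ : ℕ) = B.equivFin ⟨t', hB⟩ → t = t' := by
    intro A B hA hB hAB
    subst hAB
    intro h
    exact congrArg Subtype.val (A.equivFin.injective (Fin.ext h))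
  exact key (univ.filter fun u => f u = f t) (univ.filter fun u => f u = f t') (by simp) (by simp)
    (by rw [hf]) (congrArg Fin.val hc)

/-- Two injective maps have a colouring with three colours separating their conflicts. -/
theorem exists_colour3 {X : Type*} [DecidableEq X] (u v : Y → X) (Ys : Finset Y)
    (hu : Set.InjOn u Ys) (hv : Set.InjOn v Ys) :
    ∃ c : Y → Fin 3, ∀ y ∈ Ys, ∀ y' ∈ Ys, y ≠ y' → c y = c y' → u y ≠ v y' := by
  induction Ys using Finset.induction_on with
  | empty => exact ⟨fun _ => 0, by simp⟩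
  | insert a s ha ih =>
    have hsub : (s : Set Y) ⊆ (insert a s : Finset Y) := by simp
    obtain ⟨c, hc⟩ := ih (hu.mono hsub) (hv.mono hsub)
    set A := s.filter fun y => v y = u a
    set B := s.filter fun y => u y = v a
    have hA : A.card ≤ 1 := card_le_one.2 fun y hy y' hy' =>
      hv (hsub (mem_filter.1 hy).1) (hsub (mem_filter.1 hy').1)
        ((mem_filter.1 hy).2.trans (mem_filter.1 hy').2.symm)
    have hB : B.card ≤ 1 := card_le_one.2 fun y hy y' hy' =>
      hu (hsub (mem_filter.1 hy).1) (hsub (mem_filter.1 hy').1)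
        ((mem_filter.1 hy).2.trans (mem_filter.1 hy').2.symm)
    have hlt : ((A ∪ B).image c).card < Fintype.card (Fin 3) := by
      have h1 := card_union_le A B
      have h2 : ((A ∪ B).image c).card ≤ (A ∪ B).card := card_image_le
      simp only [Fintype.card_fin]
      omega
    obtain ⟨x, -, hx⟩ := exists_mem_notMem_of_card_lt_card (t := (univ : Finset (Fin 3))) hlt
    refine ⟨Function.update c a x, fun y hy y' hy' hne hcy huv => ?_⟩
    rcases mem_insert.1 hy with e | hy <;> rcases mem_insert.1 hy' with e' | hy'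
    · exact hne (e.trans e'.symm)
    · have hya' : y' ≠ a := fun h => hne (e.trans h.symm)
      rw [e, Function.update_self, Function.update_of_ne hya'] at hcy
      exact hx (mem_image.2 ⟨y', mem_union_left _ (mem_filter.2 ⟨hy', (e ▸ huv).symm⟩), hcy.symm⟩)
    · have hya : y ≠ a := fun h => hne (h.trans e'.symm)
      rw [e', Function.update_self, Function.update_of_ne hya] at hcy
      exact hx (mem_image.2 ⟨y, mem_union_right _ (mem_filter.2 ⟨hy, e' ▸ huv⟩), hcy⟩)
    · have hya : y ≠ a := fun e => ha (e ▸ hy)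
      have hya' : y' ≠ a := fun e => ha (e ▸ hy')
      rw [Function.update_of_ne hya, Function.update_of_ne hya'] at hcy
      exact hc y hy y' hy' hne hcy huv

end Vale.Agent.P045
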