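import Mathlib
import Vale.Agent.P045.Layout
import Vale.Agent.P045.RandTools

/-!
# P045: single hits of random labels
-/

namespace Vale.Agent.P045

open Finset

variable {q : ℕ} [Fact q.Prime] {K : Type*} [Field K] [Fintype K] [DecidableEq K]

/-- The label lies on `ξ`. -/
def Hit (Λ : Layout q K) (a : Fin 4) (t : Slope q) (ξ : Option K × K) (ω : Coord q → K) : Prop :=
  Data.InVLine ξ (Λ.labels ω a t)

/-- The coordinate deciding a hit. -/
def hitCoord (a : Fin 4) (t : Slope q) (ξ : Option K × K) : Coord q :=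
  if ξ.1.isSome then yCoord a t else xCoord a t

/-- The coordinates read by a hit. -/
def hitReads (a : Fin 4) (t : Slope q) (ξ : Option K × K) : Set (Coord q) :=
  if ξ.1.isSome then {xCoord a t, yCoord a t} else {xCoord a t}

/-- The value required of `hitCoord` by a hit. -/
def hitVal (Λ : Layout q K) (a : Fin 4) (t : Slope q) (ξ : Option K × K) (ω : Coord q → K) : K :=
  match ξ.1 with
  | some d => ξ.2 + d * (Λ.labels ω a t).1
  | none => ξ.2

omit [Fact q.Prime] [Fintype K] [DecidableEq K] in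
theorem coset_eq_iff (d c : K) (v : K × K) : coset d v = c ↔ v.2 = c + d * v.1 := by
  simp [coset, sub_eq_iff_eq_add]

theorem xCoord_ne_yCoord (a b : Fin 4) (t u : Slope q) : xCoord a t ≠ yCoord b u := by
  simp [xCoord, yCoord]

theorem yCoord_inj {a b : Fin 4} {t u : Slope q} (h : yCoord a t = yCoord b u) :
    a = b ∧ t = u := by
  simpa [yCoord] using h

theorem xCoord_inj {a b : Fin 4} {t u : Slope q} (h : xCoord a t = xCoord b u) :
    grpOf a = grpOf b ∧ key a t = key b u := by
  simpa [xCoord] using h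

variable (Λ : Layout q K)

theorem labels_congr {ω ω' : Coord q → K} {a : Fin 4} {t : Slope q}
    (hx : ω (xCoord a t) = ω' (xCoord a t)) (hy : ω (yCoord a t) = ω' (yCoord a t)) :
    Λ.labels ω a t = Λ.labels ω' a t := by
  simp [Layout.labels, hx, hy]

theorem hit_dependsOn (a : Fin 4) (t : Slope q) (ξ : Option K × K) :
    DependsOn (Hit Λ a t ξ) (hitReads a t ξ) := by
  intro ω ω' h
  rcases ξ with ⟨_ | d, c⟩
  · have hx := h (xCoord a t) (by simp [hitReads])
    simp [Hit, Data.InVLine, Layout.labels, hx]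
  · have hx := h (xCoord a t) (by simp [hitReads])
    have hy := h (yCoord a t) (by simp [hitReads])
    simp [Hit, labels_congr Λ hx hy]

theorem hit_iff (a : Fin 4) (t : Slope q) (ξ : Option K × K) (ω : Coord q → K) :
    Hit Λ a t ξ ω ↔
      Λ.val (hitCoord a t ξ) (ω (hitCoord a t ξ)) = hitVal Λ a t ξ ω := by
  rcases ξ with ⟨_ | d, c⟩
  · simp [Hit, Data.InVLine, hitCoord, hitVal, Layout.labels]
  · simp [Hit, Data.InVLine, hitCoord, hitVal, Layout.labels, coset_eq_iff]

theorem hitVal_update (a : Fin 4) (t : Slope q) (ξ : Option K × K) (ω : Coord q → K) (v : K) :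
    hitVal Λ a t ξ (Function.update ω (hitCoord a t ξ) v) = hitVal Λ a t ξ ω := by
  rcases ξ with ⟨_ | d, c⟩
  · rfl
  · have h : xCoord a t ≠ hitCoord a t (some d, c) := by
      simpa [hitCoord] using xCoord_ne_yCoord a a t t
    simp [hitVal, Layout.labels, Function.update_of_ne h]

variable {Λ}

theorem LayoutOK.yfree (hΛ : LayoutOK Λ) {a : Fin 4} {t : Slope q}
    (h : xCoord a t ∉ Λ.fixed) : yCoord a t ∉ Λ.fixed :=
  (hΛ.val_free_x a t h).2.1

/-- A free hit coordinate is sent by the identity. -/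
theorem LayoutOK.val_hit_free (hΛ : LayoutOK Λ) {a : Fin 4} {t : Slope q}
    (h : xCoord a t ∉ Λ.fixed) (ξ : Option K × K) (v : K) :
    Λ.val (hitCoord a t ξ) v = v := by
  unfold hitCoord
  split
  · exact (hΛ.val_free_x a t h).2.2 v
  · exact (hΛ.val_free_x a t h).1 v

theorem LayoutOK.hitCoord_free (hΛ : LayoutOK Λ) {a : Fin 4} {t : Slope q}
    (h : xCoord a t ∉ Λ.fixed) (ξ : Option K × K) : hitCoord a t ξ ∉ Λ.fixed := by
  unfold hitCoord
  split
  · exact hΛ.yfree h
  · exact h

/-- If the hit coordinate is fixed, then so is the abscissa. -/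
theorem LayoutOK.x_fixed_of_hit (hΛ : LayoutOK Λ) {a : Fin 4} {t : Slope q} {ξ : Option K × K}
    (h : hitCoord a t ξ ∈ Λ.fixed) : xCoord a t ∈ Λ.fixed :=
  by_contra fun h' => hΛ.hitCoord_free h' ξ h

open Classical in
theorem card_update_le {i : Coord q} {r : ℕ}
    (hr : ∀ v, (univ.filter fun w => Λ.val i w = v).card ≤ r) (ω : Coord q → K) (v : K) :
    {a : K | Λ.val i (Function.update ω i a i) = v}.ncard ≤ r := by
  refine le_trans (le_of_eq ?_) (hr v)
  rw [← Set.ncard_coe_finset]
  congr 1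
  ext w
  simp

/-- An event forcing the value of a coordinate. -/
theorem condLe_val {i : Coord q} {r : ℕ}
    (hr : ∀ v, (univ.filter fun w => Λ.val i w = v).card ≤ r)
    (E : (Coord q → K) → Prop) (v : (Coord q → K) → K)
    (hv : ∀ ω a, v (Function.update ω i a) = v ω)
    (hE : ∀ ω, E ω → Λ.val i (ω i) = v ω) :
    CondLe {i} (ind E) ((r : ℝ) / Fintype.card K) := by
  refine condLe_coord i E r fun ω => ?_
  refine le_trans (Set.ncard_le_ncard (fun a ha => ?_) (Set.toFinite _))
    (card_update_le hr ω (v ω))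
  have h := hE _ ha
  rw [hv] at h
  exact h

theorem LayoutOK.condLe_soft (hΛ : LayoutOK Λ) {i : Coord q} (hi : i ∉ Λ.fixed)
    (E : (Coord q → K) → Prop) (v : (Coord q → K) → K)
    (hv : ∀ ω a, v (Function.update ω i a) = v ω)
    (hE : ∀ ω, E ω → Λ.val i (ω i) = v ω) :
    CondLe {i} (ind E) (2 / Fintype.card K) := by
  simpa using condLe_val (r := 2) (fun v => by convert hΛ.val_fibre i hi v) E v hv hE

theorem LayoutOK.condLe_hit (hΛ : LayoutOK Λ) {a : Fin 4} {t : Slope q} {ξ : Option K × K}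
    (h : hitCoord a t ξ ∉ Λ.fixed) :
    CondLe {hitCoord a t ξ} (ind (Hit Λ a t ξ)) (2 / Fintype.card K) :=
  hΛ.condLe_soft h _ (hitVal Λ a t ξ) (hitVal_update Λ a t ξ) fun ω => (hit_iff Λ a t ξ ω).1

theorem LayoutOK.condLe_hit_free (hΛ : LayoutOK Λ) {a : Fin 4} {t : Slope q} {ξ : Option K × K}
    (h : xCoord a t ∉ Λ.fixed) :
    CondLe {hitCoord a t ξ} (ind (Hit Λ a t ξ)) (1 / Fintype.card K) := by
  have hr : ∀ v, (univ.filter fun w => Λ.val (hitCoord a t ξ) w = v).card ≤ 1 := fun v =>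
    card_le_one.2 fun w hw w' hw' => by
      simp only [mem_filter, hΛ.val_hit_free h] at hw hw'
      exact hw.2.trans hw'.2.symm
  simpa using condLe_val hr _ (hitVal Λ a t ξ) (hitVal_update Λ a t ξ)
    fun ω => (hit_iff Λ a t ξ ω).1

theorem LayoutOK.condGe_hit_free (hΛ : LayoutOK Λ) {a : Fin 4} {t : Slope q} {ξ : Option K × K}
    (h : xCoord a t ∉ Λ.fixed) :
    CondGe {hitCoord a t ξ} (Hit Λ a t ξ) (1 / Fintype.card K) := by
  have hg : CondGe {hitCoord a t ξ} (Hit Λ a t ξ) (((1 : ℕ) : ℝ) / Fintype.card K) := by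
    refine condGe_coord (hitCoord a t ξ) _ 1 fun ω => (Set.ncard_pos (Set.toFinite _)).2 ?_
    refine ⟨hitVal Λ a t ξ ω, ?_⟩
    rw [Set.mem_setOf_eq, hit_iff, hitVal_update, hΛ.val_hit_free h, Function.update_self]
  simpa using hg

/-- Labels with both coordinates fixed do not depend on the random choice. -/
theorem LayoutOK.hit_fixed (hΛ : LayoutOK Λ) {a : Fin 4} {t : Slope q} {ξ : Option K × K}
    (h : hitCoord a t ξ ∈ Λ.fixed) (ω ω' : Coord q → K) (hω : Hit Λ a t ξ ω) :
    Hit Λ a t ξ ω' := by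
  have hx := hΛ.x_fixed_of_hit h
  rw [hit_iff] at hω ⊢
  rw [hΛ.val_fixed _ h (ω' _) (ω _), hω]
  rcases ξ with ⟨_ | d, c⟩
  · rfl
  · simp only [hitVal, Layout.labels]
    rw [hΛ.val_fixed _ hx (ω' _) (ω _)]

open Classical in
/-- At most `3000` hits come from fixed coordinates. -/
theorem LayoutOK.hit_fixed_count (hΛ : LayoutOK Λ) (a : Fin 4) (ξ : Option K × K)
    (ω : Coord q → K) :
    (univ.filter fun t : Slope q => hitCoord a t ξ ∈ Λ.fixed ∧ Hit Λ a t ξ ω).card ≤ 3000 := by
  rcases ξ with ⟨_ | d, c⟩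
  · refine le_trans (card_le_card fun t ht => ?_) (hΛ.fixed_load_x a c)
    simp only [mem_filter, mem_univ, true_and] at ht ⊢
    exact ⟨by simpa [hitCoord] using ht.1, fun ω' => hΛ.hit_fixed ht.1 ω ω' ht.2⟩
  · refine le_trans (card_le_card fun t ht => ?_) (hΛ.fixed_load a (some d, c))
    simp only [mem_filter, mem_univ, true_and] at ht ⊢
    exact ⟨by simpa [hitCoord] using ht.1, fun ω' => hΛ.hit_fixed ht.1 ω ω' ht.2⟩

/-- A colouring of slopes separating equal keys. -/
theorem LayoutOK.exists_keyColour (hΛ : LayoutOK Λ) (a : Fin 4) :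
    ∃ c : Slope q → Fin 6, ∀ t t', key a t = key a t' → c t = c t' → t = t' :=
  exists_fibre_colour (key a) fun k => by convert hΛ.key_fibre a k

/-- Hits in one pencil separated by a key colouring are private. -/
theorem hit_private {a : Fin 4} {c : Slope q → Fin 6}
    (hc : ∀ t t', key a t = key a t' → c t = c t' → t = t') {t t' : Slope q}
    (hne : t ≠ t') (hcol : c t = c t') (ξ ξ' : Option K × K) :
    hitCoord a t ξ ∉ hitReads a t' ξ' := by
  have h1 : xCoord a t ≠ xCoord a t' := fun h => hne (hc t t' (xCoord_inj h).2 hcol)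
  have h2 : yCoord a t ≠ yCoord a t' := fun h => hne (yCoord_inj h).2
  have h3 := xCoord_ne_yCoord a a t t'
  have h4 := (xCoord_ne_yCoord a a t' t).symm
  unfold hitCoord hitReads
  split <;> split <;> simp_all

end Vale.Agent.P045
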