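import Mathlib
import Vale.Agent.P045.Good
import Vale.Agent.P045.Layout

/-!
# P045: interface between the three random stages

Stage A chooses the labels, stage B the tag directions and stage C the tagged columns.
-/

namespace Vale.Agent.P045

open Finset

/-- The bound on the small counts of stage A. -/
def kap : ℕ := 2 ^ 24

/-- The number of tries for the tagged columns of a slope. -/
def tries : ℕ := 2 ^ 27

/-- The bound on the loads. -/
def loadMax (q : ℕ) (K : Type*) [Fintype K] : ℕ := 3 * q / (2 * Fintype.card K) + kap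

/-- The sizes of the construction. -/
structure Big (q : ℕ) (K : Type*) [Fintype K] : Prop where
  card_eq : Fintype.card K = 2 ^ 1024
  lo : Fintype.card K ^ 2 ≤ 1024 * q
  hi : 512 * q ≤ Fintype.card K ^ 2

variable {q : ℕ} [Fact q.Prime] {K : Type*} [Field K] [Fintype K] [DecidableEq K]

open Classical in
/-- The points of a line on no special line. -/
noncomputable def plainPts (l : Line q) : Finset (Pt q) :=
  univ.filter fun p => Plain p ∧ OnLine p l

open Classical in
/-- The plain points of a line through centre `a` whose partner label lies on `ξ`. -/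
noncomputable def bandPts (L : Fin 4 → Slope q → K × K) (a : Fin 4) (l : Line q)
    (ξ : Option K × K) : Finset (Pt q) :=
  (plainPts l).filter fun p =>
    Data.InVLine ξ (L (partner a) (slopeTo (cen (partner a)) p))

/-- The point is in the tag coset of its row. -/
def InTag (L : Fin 4 → Slope q → K × K) (dir : Slope q → K) (p : Pt q) : Prop :=
  ¬ IsSideSlope (row p) ∧
    coset (dir (row p)) (L 0 (col p)) = coset (dir (row p)) (L 0 (row p))

open Classical in
/-- What stages B and C use about the labels. -/
structure StageA (L : Fin 4 → Slope q → K × K) : Prop where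
  load : ∀ a ξ, (univ.filter fun t : Slope q => Data.InVLine ξ (L a t)).card ≤ loadMax q K
  mult : ∀ a v, (univ.filter fun t : Slope q => L a t = v).card ≤ kap
  band_low : ∀ a l ξ, Role a l → q ≤ 64 * Fintype.card K * (bandPts L a l ξ).card
  same_band : ∀ a l ξ, Role a l → a ≠ 1 →
    ((bandPts L a l ξ).filter fun p => L 0 (col p) = L 0 (row p)).card ≤ kap
  same_line : ∀ l : Line q, ¬ OnLine (cen 1) l →
    ((plainPts l).filter fun p => L 0 (col p) = L 0 (row p)).card ≤ 2 ^ 15 * Fintype.card K
  pair01 : ∀ d c c', (univ.filter fun s : Slope q => ¬ IsSideSlope s ∧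
    coset d (L 0 s) = c ∧ coset d (L 1 s) = c').card ≤ kap
  star01 : ∀ u v, (univ.filter fun s : Slope q => ¬ IsSideSlope s ∧
    ∃ d, coset d (L 0 s) = coset d u ∧ coset d (L 1 s) = coset d v).card
      ≤ 2 ^ 16 * Fintype.card K
  ne01 : ∀ s : Slope q, ¬ IsSideSlope s → L 0 s ≠ L 1 s

open Classical in
/-- What stage C and the assembly use about the directions. -/
structure StageB (L : Fin 4 → Slope q → K × K) (dir : Slope q → K) : Prop where
  ok : ∀ s : Slope q, ¬ IsSideSlope s → coset (dir s) (L 0 s) ≠ coset (dir s) (L 1 s)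
  tag_band : ∀ a l ξ, Role a l → a ≠ 1 →
    ((bandPts L a l ξ).filter (InTag L dir)).card ≤ 2 * kap
  tag_line : ∀ l : Line q, ((plainPts l).filter (InTag L dir)).card ≤ 2 ^ 16 * Fintype.card K
  rel : ∀ u v, (univ.filter fun s : Slope q => ¬ IsSideSlope s ∧
    coset (dir s) (L 0 s) = coset (dir s) u ∧
    coset (dir s) (L 1 s) = coset (dir s) v).card ≤ 2 * kap
  cand : ∀ t : Slope q, (univ.filter fun s : Slope q => ¬ IsSideSlope s ∧
    coset (dir s) (L 0 t) = coset (dir s) (L 0 s) ∧ L 0 t ≠ L 0 s).card ≤ Fintype.card K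

namespace Data

variable (D : Data q K)

open Classical in
/-- The columns that may carry tagged points of a slope. -/
noncomputable def tagCand (s : Slope q) : Finset (Slope q) :=
  univ.filter fun t =>
    coset (D.dir s) (D.L 0 t) = coset (D.dir s) (D.L 0 s) ∧ D.L 0 t ≠ D.L 0 s ∧
    coset (D.dir s) (D.L 1 t) ≠ coset (D.dir s) (D.L 1 s) ∧
    (∃ p, Plain p ∧ row p = s ∧ col p = t) ∧
    ∀ p, (D.IsOm 1 p ∨ D.IsW p) → col p = t →
      coset (D.dir s) (D.lab 1 p) ≠ coset (D.dir s) (D.L 1 s)

/-- The data with other tagged columns. -/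
def withZ (Z : Slope q → Finset (Slope q)) : Data q K := { D with Z := Z }

end Data

open Classical in
/-- What the assembly uses about the tagged columns. -/
structure StageC (D : Data q K) : Prop where
  sub : ∀ s : Slope q, ¬ IsSideSlope s → ∀ t ∈ D.Z s, t ∈ D.tagCand s
  Z_card : ∀ s : Slope q, (D.Z s).card ≤ tries
  kill_band : ∀ a l ξ, Role a l → ¬ D.Killed a l.1 ξ →
    ((bandPts D.L a l ξ).filter D.Kill₂).card ≤ 2 ^ 72
  kill_line : ∀ l : Line q,
    ((plainPts l).filter D.Kill₂).card ≤ 2 ^ 63 * Fintype.card K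
  witness : ∀ s : Slope q, ¬ IsSideSlope s →
    4 * kap ≤ (univ.filter fun p : Pt q =>
      Plain p ∧ row p = s ∧ col p ∈ D.Z s ∧ ¬ D.Kill₂ p).card

end Vale.Agent.P045
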