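import Mathlib
import Vale.Agent.P045.RandDefs
import Vale.Agent.P045.LabelHits

/-!
# P045: upper tails for counts of label events
-/

namespace Vale.Agent.P045

open Finset

/-- The exponent of all tail bounds of stage A. -/
def nTail : ℕ := 13000

/-- The unit of all tail bounds of stage A. -/
noncomputable def eps : ℝ := (1 / 2 : ℝ) ^ nTail

theorem eps_nonneg : 0 ≤ eps := pow_nonneg (by norm_num) _

variable {q : ℕ} [Fact q.Prime] {K : Type*} [Field K] [Fintype K] [DecidableEq K]

section Big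

omit [Fact q.Prime] [Field K] [DecidableEq K]

theorem Big.m_pos (h : Big q K) : (0 : ℝ) < Fintype.card K := by
  rw [h.card_eq]
  positivity

theorem Big.m_large (h : Big q K) : 2 ^ 60 ≤ Fintype.card K := by
  rw [h.card_eq]
  exact Nat.pow_le_pow_right (by norm_num) (by norm_num)

theorem Big.q_large (h : Big q K) : 2 ^ 50 * Fintype.card K ≤ q := by
  have h1 : Fintype.card K * (2 ^ 60 : ℕ) ≤ 1024 * q :=
    (Nat.mul_le_mul le_rfl h.m_large).trans ((sq _).symm.le.trans h.lo)
  omega

theorem Big.q_succ (h : Big q K) : 256 * (q + 1) ≤ Fintype.card K ^ 2 := by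
  have := h.hi
  have := h.q_large
  have := h.m_large
  omega

/-- The squares absorb the pencils. -/
theorem Big.slope_real (h : Big q K) :
    256 * ((q : ℝ) + 1) ≤ (Fintype.card K : ℝ) ^ 2 := by
  exact_mod_cast h.q_succ

end Big

variable {Λ : Layout q K} {Y : Type*} [DecidableEq Y]

open Classical in
theorem LayoutOK.card_fixed (hΛ : LayoutOK Λ) (Ys : Finset Y) {a : Fin 4} {τ : Y → Slope q}
    (hτ : Set.InjOn τ Ys) :
    (Ys.filter fun y => xCoord a (τ y) ∈ Λ.fixed).card ≤ 5000 * Fintype.card K := by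
  refine le_trans ?_ (hΛ.fixed_count a)
  refine card_le_card_of_injOn τ (fun y hy => ?_) (hτ.mono (Finset.coe_subset.2 (filter_subset _ _)))
  simp only [coe_filter, Set.mem_setOf_eq] at hy ⊢
  exact ⟨mem_univ _, hy.2⟩

open Classical in
theorem LayoutOK.card_hit_fixed (hΛ : LayoutOK Λ) (Ys : Finset Y) {a : Fin 4} {τ : Y → Slope q}
    (hτ : Set.InjOn τ Ys) (ξ : Option K × K) (ω : Coord q → K) :
    (Ys.filter fun y => hitCoord a (τ y) ξ ∈ Λ.fixed ∧ Hit Λ a (τ y) ξ ω).card ≤ 3000 := by
  refine le_trans ?_ (hΛ.hit_fixed_count a ξ ω)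
  refine card_le_card_of_injOn τ (fun y hy => ?_) (hτ.mono (Finset.coe_subset.2 (filter_subset _ _)))
  simp only [coe_filter, Set.mem_setOf_eq] at hy ⊢
  exact ⟨mem_univ _, hy.2⟩

open Classical in
/-- Hits in a small set of free hit coordinates. -/
theorem LayoutOK.hit_small (hΛ : LayoutOK Λ) (hB : Big q K) (Ys : Finset Y) (a : Fin 4)
    (τ : Y → Slope q) (hτ : Set.InjOn τ Ys) (ξ : Option K × K)
    (hfree : ∀ y ∈ Ys, hitCoord a (τ y) ξ ∉ Λ.fixed)
    (hcard : Ys.card ≤ 10000 * Fintype.card K) :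
    prob (fun ω => 2 ^ 21 < (Ys.filter fun y => Hit Λ a (τ y) ξ ω).card) ≤ 6 * eps := by
  obtain ⟨c, hc⟩ := hΛ.exists_keyColour a
  have h := tail_classes (fun y => c (τ y)) Ys (fun y => {hitCoord a (τ y) ξ})
    (fun y => Hit Λ a (τ y) ξ) (2 / Fintype.card K) (2 ^ 21) nTail (by positivity)
    (fun y hy => hΛ.condLe_hit (hfree y hy))
    (fun y hy y' hy' hne hcol => (hit_dependsOn Λ a (τ y') ξ).mono fun i hi => by
      have := hit_private hc (fun e => hne (hτ hy hy' e)) hcol ξ ξ
      simp only [coe_singleton, Set.mem_compl_iff, Set.mem_singleton_iff]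
      rintro rfl
      exact this hi) ?_
  · simpa [eps] using h
  · have hm := hB.m_pos
    have h1 : (Ys.card : ℝ) / Fintype.card K ≤ 10000 := by
      rw [div_le_iff₀ hm]
      exact_mod_cast hcard
    rw [show 3 / 2 * (2 / (Fintype.card K : ℝ)) * Ys.card = 3 * (Ys.card / Fintype.card K) by ring,
      Fintype.card_fin]
    norm_num [nTail]
    linarith

open Classical in
/-- All loads are small. -/
theorem LayoutOK.hit_load (hΛ : LayoutOK Λ) (hB : Big q K) (a : Fin 4) (ξ : Option K × K) :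
    prob (fun ω => loadMax q K < (univ.filter fun t : Slope q => Hit Λ a t ξ ω).card)
      ≤ 12 * eps := by
  obtain ⟨c, hc⟩ := hΛ.exists_keyColour a
  set X := univ.filter fun t : Slope q => xCoord a t ∈ Λ.fixed ∧ hitCoord a t ξ ∉ Λ.fixed
  set F := univ.filter fun t : Slope q => xCoord a t ∉ Λ.fixed
  set k := 3 * q / (2 * Fintype.card K) + 2 ^ 21
  have himp : ∀ ω, loadMax q K < (univ.filter fun t : Slope q => Hit Λ a t ξ ω).card →
      k < (F.filter fun t => Hit Λ a t ξ ω).card ∨
        2 ^ 21 < (X.filter fun t => Hit Λ a t ξ ω).card := by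
    intro ω hω
    by_contra hne
    push Not at hne
    have hsub : (univ.filter fun t : Slope q => Hit Λ a t ξ ω) ⊆
        (univ.filter fun t : Slope q => hitCoord a t ξ ∈ Λ.fixed ∧ Hit Λ a t ξ ω) ∪
          ((F.filter fun t => Hit Λ a t ξ ω) ∪ (X.filter fun t => Hit Λ a t ξ ω)) := by
      intro t ht
      simp only [X, F, mem_union, mem_filter, mem_univ, true_and] at ht ⊢
      tauto
    have h1 := (card_le_card hsub).trans ((card_union_le _ _).trans
      (add_le_add le_rfl (card_union_le _ _)))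
    have h2 := hΛ.hit_fixed_count a ξ ω
    simp only [loadMax, kap, k] at hω hne
    omega
  refine (prob_mono himp).trans ((prob_or_le _ _).trans ?_)
  have hX := hΛ.hit_small hB X a id (Set.injOn_id _) ξ
    (fun t ht => (mem_filter.1 ht).2.2) <| by
      refine le_trans (card_le_card fun t ht => ?_)
        ((hΛ.fixed_count a).trans (Nat.mul_le_mul_right _ (by norm_num)))
      simp only [X, mem_filter, mem_univ, true_and] at ht ⊢
      exact ht.1
  have hF := tail_classes c F (fun t => {hitCoord a t ξ}) (fun t => Hit Λ a t ξ)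
    (1 / Fintype.card K) k nTail (by positivity)
    (fun t ht => hΛ.condLe_hit_free (mem_filter.1 ht).2)
    (fun t _ t' _ hne hcol => (hit_dependsOn Λ a t' ξ).mono fun i hi => by
      have := hit_private hc hne hcol ξ ξ
      simp only [coe_singleton, Set.mem_compl_iff, Set.mem_singleton_iff]
      rintro rfl
      exact this hi) ?_
  · have e6 : ((Fintype.card (Fin 6) : ℕ) : ℝ) * (1 / 2 : ℝ) ^ nTail = 6 * eps := by simp [eps]
    rw [e6] at hF
    simp only [id] at hX
    linarith
  · have hm := hB.m_pos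
    have hF' : (F.card : ℝ) ≤ q + 1 := by
      have := card_le_univ F
      rw [Fintype.card_option, ZMod.card] at this
      exact_mod_cast this
    have hq : (3 * q : ℝ) / (2 * Fintype.card K) ≤ (3 * q / (2 * Fintype.card K) : ℕ) + 1 := by
      rw [div_le_iff₀ (by positivity)]
      have h2 : 3 * q ≤ (3 * q / (2 * Fintype.card K) + 1) * (2 * Fintype.card K) := by
        have hpos : 0 < 2 * Fintype.card K := by
          have := Fintype.card_pos (α := K)
          omega
        have h5 := Nat.div_add_mod (3 * q) (2 * Fintype.card K)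
        have h6 := Nat.mod_lt (3 * q) hpos
        rw [Nat.add_mul, one_mul, Nat.mul_comm (3 * q / _)]
        omega
      exact_mod_cast h2
    have h3 : 3 / 2 * (1 / (Fintype.card K : ℝ)) * F.card ≤
        (3 * q : ℝ) / (2 * Fintype.card K) + 2 := by
      have h4 : 3 / 2 * (1 / (Fintype.card K : ℝ)) * F.card ≤
          3 / 2 * (1 / (Fintype.card K : ℝ)) * (q + 1) :=
        mul_le_mul_of_nonneg_left hF' (by positivity)
      refine h4.trans ?_
      have h1m : (1 : ℝ) / Fintype.card K ≤ 1 := by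
        rw [div_le_iff₀ hm]
        have := hB.m_large
        exact_mod_cast (show 1 ≤ 1 * Fintype.card K by omega)
      calc 3 / 2 * (1 / (Fintype.card K : ℝ)) * (q + 1)
          = (3 * q : ℝ) / (2 * Fintype.card K) + 3 / 2 * (1 / Fintype.card K) := by ring
        _ ≤ _ := by linarith
    simp only [k, Nat.cast_add, Fintype.card_fin, one_div] at h3 ⊢
    norm_num [nTail]
    linarith

open Classical in
/-- Two hits in one point. -/
theorem LayoutOK.two_hits (hΛ : LayoutOK Λ) (hB : Big q K) (Ys : Finset Y)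
    (hYs : Ys.card ≤ Fintype.card K ^ 2) (b c : Fin 4) (τb τc : Y → Slope q)
    (hτb : Set.InjOn τb Ys) (hτc : Set.InjOn τc Ys) (ξ ξ' : Option K × K)
    (sepA : ∀ y ∈ Ys, ∀ y' ∈ Ys, hitCoord b (τb y) ξ ∉ hitReads c (τc y') ξ')
    (sepB : ∀ cb : Slope q → Fin 6, (∀ t t', key b t = key b t' → cb t = cb t' → t = t') →
      ∀ y ∈ Ys, ∀ y' ∈ Ys, y ≠ y' → cb (τb y) = cb (τb y') →
        hitCoord c (τc y) ξ' ∉ hitReads b (τb y') ξ) :
    prob (fun ω => 2 ^ 23 <
      (Ys.filter fun y => Hit Λ b (τb y) ξ ω ∧ Hit Λ c (τc y) ξ' ω).card) ≤ 48 * eps := by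
  obtain ⟨cb, hcb⟩ := hΛ.exists_keyColour b
  obtain ⟨cc, hcc⟩ := hΛ.exists_keyColour c
  set hb := fun y => hitCoord b (τb y) ξ
  set hc := fun y => hitCoord c (τc y) ξ'
  set Z := Ys.filter fun y => hb y ∉ Λ.fixed ∧ hc y ∉ Λ.fixed
  set B' := Ys.filter fun y => hb y ∈ Λ.fixed ∧ hc y ∉ Λ.fixed
  set C' := Ys.filter fun y => hb y ∉ Λ.fixed ∧ hc y ∈ Λ.fixed
  set E := fun y ω => Hit Λ b (τb y) ξ ω ∧ Hit Λ c (τc y) ξ' ω
  have himp : ∀ ω, 2 ^ 23 < (Ys.filter fun y => E y ω).card →
      2 ^ 21 < (Z.filter fun y => E y ω).card ∨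
      (2 ^ 21 < (B'.filter fun y => Hit Λ c (τc y) ξ' ω).card ∨
        2 ^ 21 < (C'.filter fun y => Hit Λ b (τb y) ξ ω).card) := by
    intro ω hω
    by_contra hne
    push Not at hne
    have hsub : (Ys.filter fun y => E y ω) ⊆
        ((Ys.filter fun y => hb y ∈ Λ.fixed ∧ Hit Λ b (τb y) ξ ω ∧ hc y ∈ Λ.fixed) ∪
          (Z.filter fun y => E y ω)) ∪
        ((B'.filter fun y => Hit Λ c (τc y) ξ' ω) ∪ (C'.filter fun y => Hit Λ b (τb y) ξ ω)) := by
      intro y hy
      simp only [Z, B', C', E, mem_union, mem_filter] at hy ⊢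
      tauto
    have h1 := (card_le_card hsub).trans ((card_union_le _ _).trans
      (add_le_add (card_union_le _ _) (card_union_le _ _)))
    have h2 : (Ys.filter fun y => hb y ∈ Λ.fixed ∧ Hit Λ b (τb y) ξ ω ∧ hc y ∈ Λ.fixed).card
        ≤ 3000 := by
      refine le_trans (card_le_card fun y hy => ?_) (hΛ.card_hit_fixed (a := b) Ys hτb ξ ω)
      simp only [hb, mem_filter] at hy ⊢
      exact ⟨hy.1, hy.2.1, hy.2.2.1⟩
    omega
  refine (prob_mono himp).trans ((prob_or_le _ _).trans
    ((add_le_add le_rfl (prob_or_le _ _)).trans ?_))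
  have hm2 : 5000 * Fintype.card K ≤ 10000 * Fintype.card K :=
    Nat.mul_le_mul_right _ (by norm_num)
  have hBs := hΛ.hit_small hB B' c τc (hτc.mono (Finset.coe_subset.2 (filter_subset _ _))) ξ'
    (fun y hy => (mem_filter.1 hy).2.2) <| by
      refine le_trans (card_le_card fun y hy => ?_) ((hΛ.card_fixed Ys hτb (a := b)).trans hm2)
      simp only [B', hb, mem_filter] at hy ⊢
      exact ⟨hy.1, hΛ.x_fixed_of_hit hy.2.1⟩
  have hCs := hΛ.hit_small hB C' b τb (hτb.mono (Finset.coe_subset.2 (filter_subset _ _))) ξ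
    (fun y hy => (mem_filter.1 hy).2.1) <| by
      refine le_trans (card_le_card fun y hy => ?_) ((hΛ.card_fixed Ys hτc (a := c)).trans hm2)
      simp only [C', hc, mem_filter] at hy ⊢
      exact ⟨hy.1, hΛ.x_fixed_of_hit hy.2.2⟩
  have hZ := tail_classes (fun y => (cb (τb y), cc (τc y))) Z (fun y => {hb y} ∪ {hc y}) E
    (2 / Fintype.card K * (2 / Fintype.card K)) (2 ^ 21) nTail (by positivity) ?_ ?_ ?_
  · have e36 : ((Fintype.card (Fin 6 × Fin 6) : ℕ) : ℝ) * (1 / 2 : ℝ) ^ nTail = 36 * eps := by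
      norm_num [eps]
    rw [e36] at hZ
    refine le_trans (add_le_add ?_ (add_le_add ?_ ?_))
      (le_of_eq (show 36 * eps + (6 * eps + 6 * eps) = 48 * eps by ring))
    · refine le_of_eq_of_le (congrArg prob (funext fun ω => ?_)) hZ
      congr!
    · exact hBs
    · exact hCs
  · intro y hy
    obtain ⟨hyY, hfb, hfc⟩ := mem_filter.1 hy
    have hne : hb y ≠ hc y := fun e => sepA y hyY y hyY (by
      have : hc y ∈ hitReads c (τc y) ξ' := by
        simp only [hc, hitCoord, hitReads]
        split <;> simp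
      rwa [← e] at this)
    refine CondLe.and (hΛ.condLe_hit hfb) (hΛ.condLe_hit hfc) (by positivity)
      ((hit_dependsOn Λ c (τc y) ξ').mono fun i hi => ?_) (by simpa using hne)
    simp only [coe_singleton, Set.mem_compl_iff, Set.mem_singleton_iff]
    rintro rfl
    exact sepA y hyY y hyY hi
  · intro y hy y' hy' hne hcol
    have hyY := (mem_filter.1 hy).1
    have hy'Y := (mem_filter.1 hy').1
    simp only [Prod.mk.injEq] at hcol
    have h1 := hit_private hcb (fun e => hne (hτb hyY hy'Y e)) hcol.1 ξ ξ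
    have h2 := sepB cb hcb y hyY y' hy'Y hne hcol.1
    have h3 := sepA y hyY y' hy'Y
    have h4 := hit_private hcc (fun e => hne (hτc hyY hy'Y e)) hcol.2 ξ' ξ'
    intro ω ω' hω
    have e1 := hit_dependsOn Λ b (τb y') ξ fun i hi => hω i (by
      simp only [hb, hc, coe_union, coe_singleton, Set.mem_compl_iff, Set.mem_union,
        Set.mem_singleton_iff]
      rintro (rfl | rfl) <;> contradiction)
    have e2 := hit_dependsOn Λ c (τc y') ξ' fun i hi => hω i (by
      simp only [hb, hc, coe_union, coe_singleton, Set.mem_compl_iff, Set.mem_union,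
        Set.mem_singleton_iff]
      rintro (rfl | rfl) <;> contradiction)
    simp only [E]
    rw [e1, e2]
  · have hm := hB.m_pos
    have h1 : (Z.card : ℝ) / (Fintype.card K : ℝ) ^ 2 ≤ 1 := by
      rw [div_le_one (by positivity)]
      exact_mod_cast (card_filter_le _ _).trans hYs
    rw [show 3 / 2 * (2 / (Fintype.card K : ℝ) * (2 / Fintype.card K)) * Z.card
      = 6 * (Z.card / (Fintype.card K : ℝ) ^ 2) by ring]
    norm_num [nTail]
    linarith

end Vale.Agent.P045
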