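import Mathlib
import Vale.Agent.P045.LabelCounts

/-!
# P045: lower tails for labels, and separation of the first two pencils
-/

namespace Vale.Agent.P045

open Finset

variable {q : ℕ} [Fact q.Prime] {K : Type*} [Field K] [Fintype K] [DecidableEq K]
  {Λ : Layout q K} {Y : Type*} [DecidableEq Y]

open Classical in
/-- Among almost `q` points, a sixth of those with free labels has distinct keys. -/
theorem LayoutOK.exists_free_class (hΛ : LayoutOK Λ) (hB : Big q K) (Ys : Finset Y) (a : Fin 4)
    (τ : Y → Slope q) (hτ : Set.InjOn τ Ys) (hlarge : q ≤ Ys.card + 20) :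
    ∃ Z : Finset Y, Z ⊆ Ys ∧ q ≤ 7 * Z.card ∧ (∀ y ∈ Z, xCoord a (τ y) ∉ Λ.fixed) ∧
      ∀ y ∈ Z, ∀ y' ∈ Z, y ≠ y' → ∀ ξ ξ' : Option K × K,
        hitCoord a (τ y) ξ ∉ hitReads a (τ y') ξ' := by
  obtain ⟨c, hc⟩ := hΛ.exists_keyColour a
  set F := Ys.filter fun y => xCoord a (τ y) ∉ Λ.fixed
  obtain ⟨r, -, hr⟩ := exists_max_image (univ : Finset (Fin 6))
    (fun r => (F.filter fun y => c (τ y) = r).card) univ_nonempty
  refine ⟨F.filter fun y => c (τ y) = r, (filter_subset _ _).trans (filter_subset _ _), ?_, ?_, ?_⟩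
  · have h1 : F.card ≤ 6 * (F.filter fun y => c (τ y) = r).card := by
      rw [card_eq_sum_card_fiberwise (f := fun y => c (τ y)) (t := univ) fun y _ => mem_univ _]
      refine (sum_le_card_nsmul _ _ _ fun r' hr' => hr r' hr').trans (le_of_eq ?_)
      simp
    have h2 : Ys.card ≤ F.card + 5000 * Fintype.card K := by
      have := card_filter_add_card_filter_not (s := Ys) fun y => xCoord a (τ y) ∈ Λ.fixed
      have := hΛ.card_fixed Ys hτ (a := a)
      simp only [F] at *
      omega
    have := hB.q_large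
    have := hB.m_large
    omega
  · exact fun y hy => (mem_filter.1 (mem_filter.1 hy).1).2
  · intro y hy y' hy' hne ξ ξ'
    obtain ⟨hyF, hyc⟩ := mem_filter.1 hy
    obtain ⟨hy'F, hy'c⟩ := mem_filter.1 hy'
    exact hit_private hc (fun e => hne (hτ (mem_filter.1 hyF).1 (mem_filter.1 hy'F).1 e))
      (hyc.trans hy'c.symm) ξ ξ'

open Classical in
/-- Every band holds many points. -/
theorem LayoutOK.hit_lower (hΛ : LayoutOK Λ) (hB : Big q K) (Ys : Finset Y) (a : Fin 4)
    (τ : Y → Slope q) (hτ : Set.InjOn τ Ys) (hlarge : q ≤ Ys.card + 20) (ξ : Option K × K) :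
    prob (fun ω => 64 * Fintype.card K * (Ys.filter fun y => Hit Λ a (τ y) ξ ω).card < q)
      ≤ eps := by
  obtain ⟨Z, hZsub, hZ, hfree, hsep⟩ := hΛ.exists_free_class hB Ys a τ hτ hlarge
  set k := q / (64 * Fintype.card K)
  have himp : ∀ ω, 64 * Fintype.card K * (Ys.filter fun y => Hit Λ a (τ y) ξ ω).card < q →
      (Z.filter fun y => Hit Λ a (τ y) ξ ω).card ≤ k := by
    intro ω hω
    rw [Nat.le_div_iff_mul_le (by have := hB.m_large; omega)]
    have := card_le_card (filter_subset_filter (fun y => Hit Λ a (τ y) ξ ω) hZsub)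
    calc (Z.filter fun y => Hit Λ a (τ y) ξ ω).card * (64 * Fintype.card K)
        ≤ (Ys.filter fun y => Hit Λ a (τ y) ξ ω).card * (64 * Fintype.card K) :=
          Nat.mul_le_mul_right _ this
      _ = 64 * Fintype.card K * (Ys.filter fun y => Hit Λ a (τ y) ξ ω).card := Nat.mul_comm _ _
      _ ≤ q := hω.le
  refine (prob_mono himp).trans ?_
  refine tail_lower Z (fun y => {hitCoord a (τ y) ξ}) _ (1 / Fintype.card K) k nTail
    (by positivity) (fun y hy => hΛ.condGe_hit_free (hfree y hy))
    (fun y hy y' hy' hne => (hit_dependsOn Λ a (τ y') ξ).mono fun i hi => ?_) ?_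
  · simp only [coe_singleton, Set.mem_compl_iff, Set.mem_singleton_iff]
    rintro rfl
    exact hsep y hy y' hy' hne ξ ξ hi
  · have hm := hB.m_pos
    have h1 : (k : ℝ) * (64 * Fintype.card K) ≤ q := by
      exact_mod_cast Nat.div_mul_le_self q (64 * Fintype.card K)
    have h2 : (q : ℝ) ≤ 7 * Z.card := by exact_mod_cast hZ
    have h3 : ((28 * nTail : ℕ) : ℝ) * Fintype.card K ≤ q := by
      have h := Nat.mul_le_mul_right (Fintype.card K) (show 28 * nTail ≤ 2 ^ 50 by norm_num [nTail])
      exact_mod_cast h.trans hB.q_large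
    rw [show 1 / (Fintype.card K : ℝ) * Z.card / 2 = Z.card / (2 * Fintype.card K) by
      field_simp, le_div_iff₀ (by positivity)]
    push_cast at h3
    linarith

/-- A free label hits a set of labels with the expected probability. -/
theorem LayoutOK.condGe_pair (hΛ : LayoutOK Λ) (hB : Big q K) {a : Fin 4} {t : Slope q}
    (h : xCoord a t ∉ Λ.fixed) (R : Finset (K × K)) :
    CondGe ({yCoord a t} ∪ {xCoord a t}) (fun ω => Λ.labels ω a t ∈ R)
      ((R.card : ℝ) / Fintype.card K ^ 2) := by
  have hm := hB.m_pos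
  intro G hG hdep
  have hpt : ∀ ω, ind (fun ω => Λ.labels ω a t ∈ R) ω * G ω =
      ∑ v ∈ R, ind (fun ω => Hit Λ a t (some 0, v.2) ω ∧ Hit Λ a t (none, v.1) ω) ω
        * G ω := by
    intro ω
    have he : ∀ v : K × K,
        (Hit Λ a t (some 0, v.2) ω ∧ Hit Λ a t (none, v.1) ω) ↔
          Λ.labels ω a t = v := by
      intro v
      simp [Hit, Data.InVLine, coset, Prod.ext_iff, and_comm]
    rw [← sum_mul]
    congr 1
    simp only [ind, he]
    rw [sum_ite_eq]
    congr
  rw [funext hpt, avg_finsum]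
  refine le_trans ?_ (sum_le_sum (f := fun _ => 1 / (Fintype.card K : ℝ) * (1 / Fintype.card K)
    * avg G) fun v _ => ?_)
  · rw [sum_const, nsmul_eq_mul]
    exact le_of_eq (by field_simp)
  refine CondGe.and (hΛ.condGe_hit_free (ξ := (some (0 : K), v.2)) h)
    (hΛ.condGe_hit_free (ξ := (none, v.1)) h) (by positivity)
    ((hit_dependsOn Λ a t _).mono fun i hi => ?_) ?_ G hG (hdep.mono ?_)
  · simp only [coe_singleton, Set.mem_compl_iff, Set.mem_singleton_iff]
    rintro rfl
    simp [hitCoord, hitReads, xCoord, yCoord] at hi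
  · simp [hitCoord, xCoord, yCoord]
  · simp [hitCoord]

open Classical in
/-- The labels of a free pencil fill every set of labels evenly. -/
theorem LayoutOK.pair_lower (hΛ : LayoutOK Λ) (hB : Big q K) (Ys : Finset Y) (a : Fin 4)
    (τ : Y → Slope q) (hτ : Set.InjOn τ Ys) (hlarge : q ≤ Ys.card + 20) (R : Finset (K × K))
    (n : ℕ) :
    prob (fun ω => 28 * Fintype.card K ^ 2 *
      ((Ys.filter fun y => Λ.labels ω a (τ y) ∈ R).card + n) < q * R.card)
      ≤ (1 / 2 : ℝ) ^ n := by
  obtain ⟨Z, hZsub, hZ, hfree, hsep⟩ := hΛ.exists_free_class hB Ys a τ hτ hlarge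
  set k := q * R.card / (28 * Fintype.card K ^ 2)
  have hm := hB.m_pos
  by_cases hn : 28 * Fintype.card K ^ 2 * n < q * R.card
  swap
  · refine le_trans (le_of_eq (prob_eq_zero fun ω h => hn (lt_of_le_of_lt ?_ h))) (by positivity)
    exact Nat.mul_le_mul_left _ (Nat.le_add_left _ _)
  have himp : ∀ ω, 28 * Fintype.card K ^ 2 *
      ((Ys.filter fun y => Λ.labels ω a (τ y) ∈ R).card + n) < q * R.card →
      (Z.filter fun y => Λ.labels ω a (τ y) ∈ R).card ≤ k := by
    intro ω hω
    rw [Nat.le_div_iff_mul_le (by have := hB.m_large; positivity)]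
    refine le_trans ?_ hω.le
    rw [Nat.mul_comm]
    refine Nat.mul_le_mul_left _ (le_trans ?_ (Nat.le_add_right _ _))
    exact card_le_card (filter_subset_filter (fun y => Λ.labels ω a (τ y) ∈ R) hZsub)
  have htail := tail_lower Z (fun y => {yCoord a (τ y)} ∪ {xCoord a (τ y)})
    (fun y ω => Λ.labels ω a (τ y) ∈ R) ((R.card : ℝ) / Fintype.card K ^ 2) k n (by positivity)
    (fun y hy => ?_) (fun y hy y' hy' hne => ?_) ?_
  · refine le_trans (prob_mono fun ω hω => ?_) htail
    refine le_trans (le_of_eq ?_) (himp ω hω)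
    congr!
  · exact hΛ.condGe_pair hB (hfree y hy) R
  · intro ω ω' hω
    have h1 := hsep y hy y' hy' hne (some 0, 0) (some 0, 0)
    have h2 := hsep y hy y' hy' hne (none, 0) (some 0, 0)
    simp only [hitCoord, hitReads, Option.isSome_some, Option.isSome_none, if_true] at h1 h2
    simp only [Set.mem_insert_iff, Set.mem_singleton_iff, not_or] at h1 h2
    simp at h2
    have e : Λ.labels ω a (τ y') = Λ.labels ω' a (τ y') := by
      refine labels_congr Λ (hω _ ?_) (hω _ ?_) <;>
        simp only [coe_union, coe_singleton, Set.mem_compl_iff, Set.mem_union,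
          Set.mem_singleton_iff, not_or]
      · exact ⟨xCoord_ne_yCoord _ _ _ _, Ne.symm h2.1⟩
      · exact ⟨Ne.symm h1.2, (xCoord_ne_yCoord _ _ _ _).symm⟩
    simp only [e]
  · have h1 : (k : ℝ) * (28 * Fintype.card K ^ 2) ≤ q * R.card := by
      exact_mod_cast Nat.div_mul_le_self (q * R.card) (28 * Fintype.card K ^ 2)
    have h2 : (q : ℝ) * R.card ≤ 7 * Z.card * R.card := by
      exact_mod_cast Nat.mul_le_mul_right R.card hZ
    have h3 : (28 : ℝ) * Fintype.card K ^ 2 * n ≤ q * R.card := by exact_mod_cast hn.le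
    rw [show (R.card : ℝ) / Fintype.card K ^ 2 * Z.card / 2 =
      R.card * Z.card / (2 * Fintype.card K ^ 2) by field_simp, le_div_iff₀ (by positivity)]
    linarith

/-- The labels of the first two pencils differ at a slope with a free abscissa. -/
theorem LayoutOK.condLe_ne01 (hΛ : LayoutOK Λ) {a b : Fin 4} (hab : a ≠ b) {s : Slope q}
    (hfree : xCoord a s ∉ Λ.fixed) :
    prob (fun ω => Λ.labels ω a s = Λ.labels ω b s) ≤
      if xCoord a s = xCoord b s then 1 / (Fintype.card K : ℝ)
      else 1 / (Fintype.card K : ℝ) * (1 / Fintype.card K) := by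
  have hy : yCoord a s ≠ yCoord b s := fun h => hab (yCoord_inj h).1
  have hxy := xCoord_ne_yCoord b a s s
  have ryy : ∀ v, (univ.filter fun w => Λ.val (yCoord a s) w = v).card ≤ 1 := fun v =>
    card_le_one.2 fun w hw w' hw' => by
      simp only [mem_filter, (hΛ.val_free_x a s hfree).2.2] at hw hw'
      exact hw.2.trans hw'.2.symm
  have hY : CondLe {yCoord a s} (ind fun ω => (Λ.labels ω a s).2 = (Λ.labels ω b s).2)
      ((1 : ℕ) / (Fintype.card K : ℝ)) :=
    condLe_val ryy _ (fun ω => (Λ.labels ω b s).2)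
      (fun ω v => by simp [Layout.labels, Function.update_of_ne hy.symm]) fun ω h => h
  split_ifs with hx
  · refine (prob_le_of_condLe (hY.of_imp fun ω h => ?_)).trans (by simp)
    rw [h]
  · have rxx : ∀ v, (univ.filter fun w => Λ.val (xCoord a s) w = v).card ≤ 1 := fun v =>
      card_le_one.2 fun w hw w' hw' => by
        simp only [mem_filter, (hΛ.val_free_x a s hfree).1] at hw hw'
        exact hw.2.trans hw'.2.symm
    have hX : CondLe {xCoord a s} (ind fun ω => (Λ.labels ω a s).1 = (Λ.labels ω b s).1)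
        ((1 : ℕ) / (Fintype.card K : ℝ)) :=
      condLe_val rxx _ (fun ω => (Λ.labels ω b s).1)
        (fun ω v => by simp [Layout.labels, Function.update_of_ne (Ne.symm hx)]) fun ω h => h
    have h := CondLe.and hY hX (by positivity) (fun ω ω' h => ?_)
      (by simpa using (xCoord_ne_yCoord a a s s).symm)
    · refine (prob_le_of_condLe (h.of_imp fun ω h => ?_)).trans (by simp)
      exact ⟨congrArg Prod.snd h, congrArg Prod.fst h⟩
    · have e1 := h (xCoord a s) (by simpa using xCoord_ne_yCoord a a s s)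
      have e2 := h (xCoord b s) (by simpa using hxy)
      simp [Layout.labels, e1, e2]

/-- The labels of the first two pencils differ at every slope off the sides. -/
theorem LayoutOK.prob_ne01 (hΛ : LayoutOK Λ) (hB : Big q K) :
    prob (fun ω => ∃ s : Slope q, ¬ IsSideSlope s ∧ Λ.labels ω 0 s = Λ.labels ω 1 s)
      ≤ 1 / 16 := by
  classical
  set Z := univ.filter fun s : Slope q =>
    ¬ IsSideSlope s ∧ (xCoord 0 s ∉ Λ.fixed ∨ xCoord 1 s ∉ Λ.fixed)
  set c := fun s : Slope q => if key 0 s = key 1 s then 1 / (Fintype.card K : ℝ)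
    else 1 / (Fintype.card K : ℝ) * (1 / Fintype.card K)
  have himp : ∀ ω, (∃ s : Slope q, ¬ IsSideSlope s ∧ Λ.labels ω 0 s = Λ.labels ω 1 s) →
      ∃ s ∈ Z, Λ.labels ω 0 s = Λ.labels ω 1 s := by
    rintro ω ⟨s, hs, he⟩
    refine ⟨s, mem_filter.2 ⟨mem_univ _, hs, ?_⟩, he⟩
    by_contra h
    push Not at h
    exact hΛ.fixed01 ω s hs h.1 h.2 he
  refine (prob_mono himp).trans ((prob_exists_le Z _).trans ?_)
  have hone : ∀ s ∈ Z, prob (fun ω => Λ.labels ω 0 s = Λ.labels ω 1 s) ≤ c s := by
    intro s hs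
    have e : (xCoord (0 : Fin 4) s = xCoord 1 s) ↔ key 0 s = key 1 s := by simp [xCoord, grpOf]
    rcases (mem_filter.1 hs).2.2 with h | h
    · refine (hΛ.condLe_ne01 (b := 1) (by decide) h).trans (le_of_eq ?_)
      simp only [c, e]
    · refine le_trans ?_ (le_trans (hΛ.condLe_ne01 (a := 1) (b := 0) (by decide) h) (le_of_eq ?_))
      · exact prob_mono fun ω h => h.symm
      · simp only [c, eq_comm (a := xCoord (q := q) 1 s), e]
  have hm := hB.m_pos
  refine (sum_le_sum hone).trans ?_
  calc ∑ s ∈ Z, c s ≤ ∑ s : Slope q, ((if key 0 s = key 1 s then 1 / (Fintype.card K : ℝ) else 0)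
        + 1 / (Fintype.card K : ℝ) * (1 / Fintype.card K)) := by
        refine le_trans (sum_le_univ_sum_of_nonneg fun s => ?_) (sum_le_sum fun s _ => ?_)
        · simp only [c]
          split <;> positivity
        · simp only [c]
          split
          · simp; positivity
          · simp
    _ ≤ 12 * (1 / (Fintype.card K : ℝ)) + ((q : ℝ) + 1) / Fintype.card K ^ 2 := by
        rw [sum_add_distrib, ← sum_filter, sum_const, sum_const, card_univ, Fintype.card_option,
          ZMod.card, nsmul_eq_mul, nsmul_eq_mul]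
        refine add_le_add (mul_le_mul_of_nonneg_right (by exact_mod_cast hΛ.key01) (by positivity))
          (le_of_eq ?_)
        push_cast
        field_simp
    _ ≤ 1 / 16 := by
        have h1 : (1 : ℝ) / Fintype.card K ≤ 1 / 1000 := by
          refine one_div_le_one_div_of_le (by norm_num) ?_
          have := hB.m_large
          exact_mod_cast (show 1000 ≤ Fintype.card K by omega)
        have h2 : ((q : ℝ) + 1) / Fintype.card K ^ 2 ≤ 1 / 256 := by
          rw [div_le_iff₀ (by positivity)]
          linarith [hB.slope_real]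
        linarith

end Vale.Agent.P045
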