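import Mathlib
import Vale.Agent.P045.LabelCounts

/-!
# P045: cells through given labels, and equal ordinates of the first pencil
-/

namespace Vale.Agent.P045

open Finset

variable {q : ℕ} [Fact q.Prime] {K : Type*} [Field K] [Fintype K] [DecidableEq K]
  {Λ : Layout q K} {Y : Type*} [DecidableEq Y]

/-- A cell of two pencils contains both a given pair of labels and the labels at two slopes. -/
def StarEv (Λ : Layout q K) (c e : Fin 4) (t t' : Slope q) (u v : K × K) (ω : Coord q → K) :
    Prop :=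
  ∃ d, coset d (Λ.labels ω c t) = coset d u ∧ coset d (Λ.labels ω e t') = coset d v

theorem star_dependsOn (c e : Fin 4) (t t' : Slope q) (u v : K × K) :
    DependsOn (StarEv Λ c e t t' u v)
      {xCoord c t, yCoord c t, xCoord e t', yCoord e t'} := by
  intro ω ω' h
  have h1 : Λ.labels ω c t = Λ.labels ω' c t :=
    labels_congr Λ (h _ (by simp)) (h _ (by simp))
  have h2 : Λ.labels ω e t' = Λ.labels ω' e t' :=
    labels_congr Λ (h _ (by simp)) (h _ (by simp))
  simp [StarEv, h1, h2]

/-- A star event costs `4 / m`. -/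
theorem LayoutOK.condLe_star (hΛ : LayoutOK Λ) {c e : Fin 4} {t t' : Slope q}
    (hce : c ≠ e) (hc : yCoord c t ∉ Λ.fixed) (he : yCoord e t' ∉ Λ.fixed) (u v : K × K) :
    CondLe ({yCoord c t} ∪ {yCoord e t'}) (ind (StarEv Λ c e t t' u v))
      (2 / Fintype.card K + 2 / Fintype.card K) := by
  have hy : yCoord c t ≠ yCoord e t' := fun h => hce (yCoord_inj h).1
  have hx1 := xCoord_ne_yCoord c c t t
  have hx2 := xCoord_ne_yCoord c e t t'
  have hx3 := xCoord_ne_yCoord e e t' t'
  set E1 : (Coord q → K) → Prop := fun ω =>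
    (Λ.labels ω c t).1 = u.1 ∧ (Λ.labels ω c t).2 = u.2
  set E2 : (Coord q → K) → Prop := fun ω =>
    (Λ.labels ω c t).1 ≠ u.1 ∧ StarEv Λ c e t t' u v ω
  have h1 : CondLe {yCoord c t} (ind E1) (2 / Fintype.card K) :=
    hΛ.condLe_soft hc E1 (fun _ => u.2) (fun _ _ => rfl) fun ω h => h.2
  have h2 : CondLe {yCoord e t'} (ind E2) (2 / Fintype.card K) := by
    refine hΛ.condLe_soft he E2 (fun ω => v.2 +
      ((Λ.labels ω c t).2 - u.2) / ((Λ.labels ω c t).1 - u.1) *
        ((Λ.labels ω e t').1 - v.1)) ?_ ?_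
    · intro ω a
      simp [Layout.labels, Function.update_of_ne hy, Function.update_of_ne hx2,
        Function.update_of_ne hx3]
    · rintro ω ⟨hne, d, hd1, hd2⟩
      have hd : d = ((Λ.labels ω c t).2 - u.2) / ((Λ.labels ω c t).1 - u.1) := by
        rw [eq_div_iff (sub_ne_zero.2 hne)]
        simp only [coset] at hd1
        linear_combination -hd1
      rw [← hd]
      simp only [coset, Layout.labels] at hd2 ⊢
      linear_combination hd2
  refine ((h1.mono (by simp) le_rfl).or (h2.mono (by simp) le_rfl)).of_imp fun ω hω => ?_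
  by_cases hne : (Λ.labels ω c t).1 = u.1
  · obtain ⟨d, hd, -⟩ := hω
    refine Or.inl ⟨hne, ?_⟩
    simp only [coset, hne] at hd
    linear_combination hd
  · exact Or.inr ⟨hne, hω⟩

open Classical in
/-- Stars of two pencils seen on a band of a third one. -/
theorem LayoutOK.star_hit (hΛ : LayoutOK Λ) (hB : Big q K) (Ys : Finset Y)
    (hYs : Ys.card ≤ Fintype.card K ^ 2) (b c e : Fin 4) (τb τc τe : Y → Slope q)
    (hτb : Set.InjOn τb Ys) (hτc : Set.InjOn τc Ys) (hτe : Set.InjOn τe Ys)
    (hce : c ≠ e) (hbc : grpOf b ≠ grpOf c) (hbe : grpOf b ≠ grpOf e)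
    (ξ : Option K × K) (u v : K × K) :
    prob (fun ω => 2 ^ 23 <
      (Ys.filter fun y => Hit Λ b (τb y) ξ ω ∧ StarEv Λ c e (τc y) (τe y) u v ω).card)
      ≤ 18 * eps := by
  obtain ⟨cb, hcb⟩ := hΛ.exists_keyColour b
  set hb := fun y => hitCoord b (τb y) ξ
  set E := fun y ω => StarEv Λ c e (τc y) (τe y) u v ω ∧ Hit Λ b (τb y) ξ ω
  set Z := Ys.filter fun y => hb y ∉ Λ.fixed ∧ yCoord c (τc y) ∉ Λ.fixed ∧ yCoord e (τe y) ∉ Λ.fixed
  set C' := Ys.filter fun y => hb y ∉ Λ.fixed ∧ yCoord c (τc y) ∈ Λ.fixed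
  set E' := Ys.filter fun y => hb y ∉ Λ.fixed ∧ yCoord e (τe y) ∈ Λ.fixed
  have himp : ∀ ω, 2 ^ 23 <
      (Ys.filter fun y => Hit Λ b (τb y) ξ ω ∧ StarEv Λ c e (τc y) (τe y) u v ω).card →
      2 ^ 21 < (Z.filter fun y => E y ω).card ∨
      (2 ^ 21 < (C'.filter fun y => Hit Λ b (τb y) ξ ω).card ∨
        2 ^ 21 < (E'.filter fun y => Hit Λ b (τb y) ξ ω).card) := by
    intro ω hω
    by_contra hne
    push Not at hne
    have hsub : (Ys.filter fun y => Hit Λ b (τb y) ξ ω ∧ StarEv Λ c e (τc y) (τe y) u v ω) ⊆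
        ((Ys.filter fun y => hb y ∈ Λ.fixed ∧ Hit Λ b (τb y) ξ ω) ∪
          (Z.filter fun y => E y ω)) ∪
        ((C'.filter fun y => Hit Λ b (τb y) ξ ω) ∪ (E'.filter fun y => Hit Λ b (τb y) ξ ω)) := by
      intro y hy
      simp only [Z, C', E', E, mem_union, mem_filter] at hy ⊢
      tauto
    have h1 := (card_le_card hsub).trans ((card_union_le _ _).trans
      (add_le_add (card_union_le _ _) (card_union_le _ _)))
    have h2 : (Ys.filter fun y => hb y ∈ Λ.fixed ∧ Hit Λ b (τb y) ξ ω).card ≤ 3000 :=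
      hΛ.card_hit_fixed (a := b) Ys hτb ξ ω
    omega
  refine (prob_mono himp).trans ((prob_or_le _ _).trans
    ((add_le_add le_rfl (prob_or_le _ _)).trans ?_))
  have hsmall : ∀ (a : Fin 4) (τ : Y → Slope q), Set.InjOn τ Ys →
      prob (fun ω => 2 ^ 21 < ((Ys.filter fun y => hb y ∉ Λ.fixed ∧
        yCoord a (τ y) ∈ Λ.fixed).filter fun y => Hit Λ b (τb y) ξ ω).card) ≤ 6 * eps := by
    intro a τ hτ
    refine hΛ.hit_small hB _ b τb (hτb.mono (Finset.coe_subset.2 (filter_subset _ _))) ξ
      (fun y hy => (mem_filter.1 hy).2.1) ?_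
    refine le_trans (card_le_card fun y hy => ?_)
      ((hΛ.card_fixed Ys hτ (a := a)).trans (Nat.mul_le_mul_right _ (by norm_num)))
    simp only [mem_filter] at hy ⊢
    exact ⟨hy.1, by_contra fun h => hΛ.yfree h hy.2.2⟩
  have hZ := tail_classes (fun y => cb (τb y)) Z
    (fun y => ({yCoord c (τc y)} ∪ {yCoord e (τe y)}) ∪ {hb y}) E
    ((2 / Fintype.card K + 2 / Fintype.card K) * (2 / Fintype.card K)) (2 ^ 21) nTail
    (by positivity) ?_ ?_ ?_
  · have e6 : ((Fintype.card (Fin 6) : ℕ) : ℝ) * (1 / 2 : ℝ) ^ nTail = 6 * eps := by simp [eps]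
    rw [e6] at hZ
    refine le_trans (add_le_add ?_ (add_le_add (hsmall c τc hτc) (hsmall e τe hτe)))
      (le_of_eq (show 6 * eps + (6 * eps + 6 * eps) = 18 * eps by ring))
    refine le_of_eq_of_le (congrArg prob (funext fun ω => ?_)) hZ
    congr!
  · intro y hy
    obtain ⟨-, hfb, hfc, hfe⟩ := mem_filter.1 hy
    have hcb' : c ≠ b := fun h => hbc (h ▸ rfl)
    have heb : e ≠ b := fun h => hbe (h ▸ rfl)
    refine CondLe.and (hΛ.condLe_star hce hfc hfe u v) (hΛ.condLe_hit hfb) (by positivity)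
      ((hit_dependsOn Λ b (τb y) ξ).mono fun i hi => ?_) ?_
    · simp only [coe_union, coe_singleton, Set.mem_compl_iff, Set.mem_union, Set.mem_singleton_iff]
      unfold hitReads at hi
      rintro (rfl | rfl) <;> split at hi <;> simp_all [xCoord, yCoord]
    · simp only [hb, hitCoord]
      split <;> simp [xCoord, yCoord, hcb'.symm, heb.symm]
  · intro y hy y' hy' hne hcol
    have hyY := (mem_filter.1 hy).1
    have hy'Y := (mem_filter.1 hy').1
    have hcb' : c ≠ b := fun h => hbc (h ▸ rfl)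
    have heb : e ≠ b := fun h => hbe (h ▸ rfl)
    have h1 := hit_private hcb (fun h => hne (hτb hyY hy'Y h)) hcol ξ ξ
    have hc1 : τc y ≠ τc y' := fun h => hne (hτc hyY hy'Y h)
    have he1 : τe y ≠ τe y' := fun h => hne (hτe hyY hy'Y h)
    intro ω ω' hω
    have e1 := hit_dependsOn Λ b (τb y') ξ fun i hi => hω i (by
      simp only [coe_union, coe_singleton, Set.mem_compl_iff, Set.mem_union,
        Set.mem_singleton_iff]
      rintro ((rfl | rfl) | rfl)
      · unfold hitReads at hi
        split at hi <;> simp_all [xCoord, yCoord]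
      · unfold hitReads at hi
        split at hi <;> simp_all [xCoord, yCoord]
      · exact h1 hi)
    have e2 := star_dependsOn (Λ := Λ) c e (τc y') (τe y') u v fun i hi => hω i (by
      simp only [coe_union, coe_singleton, Set.mem_compl_iff, Set.mem_union,
        Set.mem_singleton_iff]
      simp only [Set.mem_insert_iff, Set.mem_singleton_iff] at hi
      rintro ((rfl | rfl) | rfl)
      · simp [xCoord, yCoord, hce, hc1] at hi
      · simp [xCoord, yCoord, hce.symm, he1] at hi
      · simp only [hb, hitCoord] at hi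
        split at hi <;> simp [xCoord, yCoord, hcb'.symm, heb.symm, hbc, hbe] at hi)
    simp only [E]
    rw [e1, e2]
  · have hm := hB.m_pos
    have h1 : (Z.card : ℝ) / (Fintype.card K : ℝ) ^ 2 ≤ 1 := by
      rw [div_le_one (by positivity)]
      exact_mod_cast (card_filter_le _ _).trans hYs
    rw [show 3 / 2 * ((2 / (Fintype.card K : ℝ) + 2 / Fintype.card K) *
      (2 / Fintype.card K)) * Z.card = 12 * (Z.card / (Fintype.card K : ℝ) ^ 2) by ring]
    norm_num [nTail]
    linarith

open Classical in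
/-- Few slopes have both labels of the first group in a cell with given labels. -/
theorem LayoutOK.star_slopes (hΛ : LayoutOK Λ) (hB : Big q K) (u v : K × K) :
    prob (fun ω => 2 ^ 16 * Fintype.card K <
      (univ.filter fun s : Slope q => StarEv Λ 0 1 s s u v ω).card) ≤ eps := by
  set Z := univ.filter fun s : Slope q => yCoord 0 s ∉ Λ.fixed ∧ yCoord 1 s ∉ Λ.fixed
  set k := 2 ^ 15 * Fintype.card K
  have himp : ∀ ω, 2 ^ 16 * Fintype.card K <
      (univ.filter fun s : Slope q => StarEv Λ 0 1 s s u v ω).card →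
      k ≤ (Z.filter fun s => StarEv Λ 0 1 s s u v ω).card := by
    intro ω hω
    have hsub : (univ.filter fun s : Slope q => StarEv Λ 0 1 s s u v ω) ⊆
        ((univ.filter fun s : Slope q => xCoord 0 s ∈ Λ.fixed) ∪
          (univ.filter fun s : Slope q => xCoord 1 s ∈ Λ.fixed)) ∪
        (Z.filter fun s => StarEv Λ 0 1 s s u v ω) := by
      intro s hs
      simp only [Z, mem_union, mem_filter, mem_univ, true_and] at hs ⊢
      by_cases h0 : xCoord 0 s ∈ Λ.fixed
      · tauto
      · by_cases h1 : xCoord 1 s ∈ Λ.fixed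
        · tauto
        · exact Or.inr ⟨⟨hΛ.yfree h0, hΛ.yfree h1⟩, hs⟩
    have h1 := (card_le_card hsub).trans ((card_union_le _ _).trans
      (add_le_add (card_union_le _ _) le_rfl))
    have h2 := hΛ.fixed_count 0
    have h3 := hΛ.fixed_count 1
    simp only [k]
    omega
  refine (prob_mono himp).trans ?_
  refine tail_upper Z (fun s => {yCoord 0 s} ∪ {yCoord 1 s}) _
    (2 / Fintype.card K + 2 / Fintype.card K) k nTail (by positivity)
    (fun s hs => hΛ.condLe_star (by decide) (mem_filter.1 hs).2.1 (mem_filter.1 hs).2.2 u v)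
    (fun s _ s' _ hne => (star_dependsOn 0 1 s' s' u v).mono fun i hi => ?_) ?_
  · simp only [coe_union, coe_singleton, Set.mem_compl_iff, Set.mem_union, Set.mem_singleton_iff]
    simp only [Set.mem_insert_iff, Set.mem_singleton_iff] at hi
    rintro (rfl | rfl) <;> simp [xCoord, yCoord, hne] at hi
  · have hm := hB.m_pos
    have h1 : (Z.card : ℝ) ≤ q + 1 := by
      have := card_le_univ Z
      rw [Fintype.card_option, ZMod.card] at this
      exact_mod_cast this
    have h2 := hB.slope_real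
    have h3 : (2 / (Fintype.card K : ℝ) + 2 / Fintype.card K) * Z.card ≤ Fintype.card K := by
      rw [show (2 / (Fintype.card K : ℝ) + 2 / Fintype.card K) * Z.card
        = 4 * Z.card / Fintype.card K by ring, div_le_iff₀ hm, ← sq]
      linarith
    have h4 : ((4 * nTail : ℕ) : ℝ) ≤ Fintype.card K := by
      have := hB.m_large
      exact_mod_cast (show 4 * nTail ≤ Fintype.card K by simp only [nTail]; omega)
    simp only [k]
    push_cast at h4 ⊢
    linarith

/-- The ordinates of the first pencil at two slopes agree. -/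
def SameY (Λ : Layout q K) (t s : Slope q) (ω : Coord q → K) : Prop :=
  (Λ.labels ω 0 t).2 = (Λ.labels ω 0 s).2

theorem sameY_dependsOn (t s : Slope q) :
    DependsOn (SameY Λ t s) {yCoord 0 t, yCoord 0 s} := by
  intro ω ω' h
  simp [SameY, Layout.labels, h (yCoord 0 t) (by simp), h (yCoord 0 s) (by simp)]

theorem LayoutOK.condLe_sameY (hΛ : LayoutOK Λ) {t s : Slope q} (hne : t ≠ s)
    (hs : yCoord 0 s ∉ Λ.fixed) :
    CondLe {yCoord 0 s} (ind (SameY Λ t s)) (2 / Fintype.card K) := by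
  refine hΛ.condLe_soft hs _ (fun ω => (Λ.labels ω 0 t).2) (fun ω a => ?_) fun ω h => h.symm
  have h : yCoord 0 t ≠ yCoord 0 s := fun h => hne (yCoord_inj h).2
  simp [Layout.labels, Function.update_of_ne h]

open Classical in
/-- Equal ordinates of the first pencil on a band of another pencil. -/
theorem LayoutOK.same_hit (hΛ : LayoutOK Λ) (hB : Big q K) (Ys : Finset Y)
    (hYs : Ys.card ≤ Fintype.card K ^ 2) (b : Fin 4) (hb0 : b ≠ 0) (τb τt τs : Y → Slope q)
    (hτb : Set.InjOn τb Ys) (hτt : Set.InjOn τt Ys) (hτs : Set.InjOn τs Ys)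
    (hts : ∀ y ∈ Ys, τt y ≠ τs y) (ξ : Option K × K) :
    prob (fun ω => 2 ^ 23 <
      (Ys.filter fun y => Hit Λ b (τb y) ξ ω ∧ SameY Λ (τt y) (τs y) ω).card)
      ≤ 30 * eps := by
  obtain ⟨cb, hcb⟩ := hΛ.exists_keyColour b
  obtain ⟨c3, hc3⟩ := exists_colour3 τt τs Ys hτt hτs
  set hb := fun y => hitCoord b (τb y) ξ
  set E := fun y ω => SameY Λ (τt y) (τs y) ω ∧ Hit Λ b (τb y) ξ ω
  set Z := Ys.filter fun y => hb y ∉ Λ.fixed ∧ yCoord 0 (τt y) ∉ Λ.fixed ∧ yCoord 0 (τs y) ∉ Λ.fixed
  have himp : ∀ ω, 2 ^ 23 <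
      (Ys.filter fun y => Hit Λ b (τb y) ξ ω ∧ SameY Λ (τt y) (τs y) ω).card →
      2 ^ 21 < (Z.filter fun y => E y ω).card ∨
      (2 ^ 21 < ((Ys.filter fun y => hb y ∉ Λ.fixed ∧ yCoord 0 (τt y) ∈ Λ.fixed).filter
          fun y => Hit Λ b (τb y) ξ ω).card ∨
        2 ^ 21 < ((Ys.filter fun y => hb y ∉ Λ.fixed ∧ yCoord 0 (τs y) ∈ Λ.fixed).filter
          fun y => Hit Λ b (τb y) ξ ω).card) := by
    intro ω hω
    by_contra hne
    push Not at hne
    have hsub : (Ys.filter fun y => Hit Λ b (τb y) ξ ω ∧ SameY Λ (τt y) (τs y) ω) ⊆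
        ((Ys.filter fun y => hb y ∈ Λ.fixed ∧ Hit Λ b (τb y) ξ ω) ∪
          (Z.filter fun y => E y ω)) ∪
        (((Ys.filter fun y => hb y ∉ Λ.fixed ∧ yCoord 0 (τt y) ∈ Λ.fixed).filter
            fun y => Hit Λ b (τb y) ξ ω) ∪
          ((Ys.filter fun y => hb y ∉ Λ.fixed ∧ yCoord 0 (τs y) ∈ Λ.fixed).filter
            fun y => Hit Λ b (τb y) ξ ω)) := by
      intro y hy
      simp only [Z, E, mem_union, mem_filter] at hy ⊢
      tauto
    have h1 := (card_le_card hsub).trans ((card_union_le _ _).trans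
      (add_le_add (card_union_le _ _) (card_union_le _ _)))
    have h2 : (Ys.filter fun y => hb y ∈ Λ.fixed ∧ Hit Λ b (τb y) ξ ω).card ≤ 3000 :=
      hΛ.card_hit_fixed (a := b) Ys hτb ξ ω
    omega
  refine (prob_mono himp).trans ((prob_or_le _ _).trans
    ((add_le_add le_rfl (prob_or_le _ _)).trans ?_))
  have hsmall : ∀ (τ : Y → Slope q), Set.InjOn τ Ys →
      prob (fun ω => 2 ^ 21 < ((Ys.filter fun y => hb y ∉ Λ.fixed ∧
        yCoord 0 (τ y) ∈ Λ.fixed).filter fun y => Hit Λ b (τb y) ξ ω).card) ≤ 6 * eps := by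
    intro τ hτ
    refine hΛ.hit_small hB _ b τb (hτb.mono (Finset.coe_subset.2 (filter_subset _ _))) ξ
      (fun y hy => (mem_filter.1 hy).2.1) ?_
    refine le_trans (card_le_card fun y hy => ?_)
      ((hΛ.card_fixed Ys hτ (a := 0)).trans (Nat.mul_le_mul_right _ (by norm_num)))
    simp only [mem_filter] at hy ⊢
    exact ⟨hy.1, by_contra fun h => hΛ.yfree h hy.2.2⟩
  have hZ := tail_classes (fun y => (cb (τb y), c3 y)) Z
    (fun y => {yCoord 0 (τs y)} ∪ {hb y}) E
    (2 / Fintype.card K * (2 / Fintype.card K)) (2 ^ 21) nTail (by positivity) ?_ ?_ ?_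
  · have e18 : ((Fintype.card (Fin 6 × Fin 3) : ℕ) : ℝ) * (1 / 2 : ℝ) ^ nTail = 18 * eps := by
      norm_num [eps]
    rw [e18] at hZ
    refine le_trans (add_le_add ?_ (add_le_add (hsmall τt hτt) (hsmall τs hτs)))
      (le_of_eq (show 18 * eps + (6 * eps + 6 * eps) = 30 * eps by ring))
    refine le_of_eq_of_le (congrArg prob (funext fun ω => ?_)) hZ
    congr!
  · intro y hy
    obtain ⟨hyY, hfb, hft, hfs⟩ := mem_filter.1 hy
    refine CondLe.and (hΛ.condLe_sameY (hts y hyY) hfs) (hΛ.condLe_hit hfb) (by positivity)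
      ((hit_dependsOn Λ b (τb y) ξ).mono fun i hi => ?_) ?_
    · simp only [coe_singleton, Set.mem_compl_iff, Set.mem_singleton_iff]
      unfold hitReads at hi
      rintro rfl
      split at hi <;> simp [xCoord, yCoord, hb0.symm] at hi
    · simp only [hb, hitCoord]
      split <;> simp [xCoord, yCoord, hb0.symm]
  · intro y hy y' hy' hne hcol
    have hyY := (mem_filter.1 hy).1
    have hy'Y := (mem_filter.1 hy').1
    simp only [Prod.mk.injEq] at hcol
    have h1 := hit_private hcb (fun h => hne (hτb hyY hy'Y h)) hcol.1 ξ ξ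
    have hs1 : τs y ≠ τs y' := fun h => hne (hτs hyY hy'Y h)
    have hs2 : τs y ≠ τt y' := (hc3 y' hy'Y y hyY (Ne.symm hne) hcol.2.symm).symm
    intro ω ω' hω
    have e1 := hit_dependsOn Λ b (τb y') ξ fun i hi => hω i (by
      simp only [coe_union, coe_singleton, Set.mem_compl_iff, Set.mem_union,
        Set.mem_singleton_iff]
      rintro (rfl | rfl)
      · unfold hitReads at hi
        split at hi <;> simp [xCoord, yCoord, hb0.symm] at hi
      · exact h1 hi)
    have e2 := sameY_dependsOn (Λ := Λ) (τt y') (τs y') fun i hi => hω i (by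
      simp only [coe_union, coe_singleton, Set.mem_compl_iff, Set.mem_union,
        Set.mem_singleton_iff]
      simp only [Set.mem_insert_iff, Set.mem_singleton_iff] at hi
      rintro (rfl | rfl)
      · simp [yCoord, hs1, hs2] at hi
      · simp only [hb, hitCoord] at hi
        split at hi <;> simp [xCoord, yCoord, hb0] at hi)
    simp only [E]
    rw [e1, e2]
  · have hm := hB.m_pos
    have h1 : (Z.card : ℝ) / (Fintype.card K : ℝ) ^ 2 ≤ 1 := by
      rw [div_le_one (by positivity)]
      exact_mod_cast (card_filter_le _ _).trans hYs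
    rw [show 3 / 2 * (2 / (Fintype.card K : ℝ) *
      (2 / Fintype.card K)) * Z.card = 6 * (Z.card / (Fintype.card K : ℝ) ^ 2) by ring]
    norm_num [nTail]
    linarith

open Classical in
/-- Equal ordinates of the first pencil along a line. -/
theorem LayoutOK.same_points (hΛ : LayoutOK Λ) (hB : Big q K) (Ys : Finset Y)
    (τt τs : Y → Slope q) (hτt : Set.InjOn τt Ys) (hτs : Set.InjOn τs Ys)
    (hts : ∀ y ∈ Ys, τt y ≠ τs y) :
    prob (fun ω => 2 ^ 15 * Fintype.card K <
      (Ys.filter fun y => SameY Λ (τt y) (τs y) ω).card) ≤ 3 * eps := by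
  obtain ⟨c3, hc3⟩ := exists_colour3 τt τs Ys hτt hτs
  set Z := Ys.filter fun y => yCoord 0 (τs y) ∉ Λ.fixed
  set k := 2 ^ 14 * Fintype.card K
  have himp : ∀ ω, 2 ^ 15 * Fintype.card K <
      (Ys.filter fun y => SameY Λ (τt y) (τs y) ω).card →
      k < (Z.filter fun y => SameY Λ (τt y) (τs y) ω).card := by
    intro ω hω
    have hsub : (Ys.filter fun y => SameY Λ (τt y) (τs y) ω) ⊆
        (Ys.filter fun y => xCoord 0 (τs y) ∈ Λ.fixed) ∪
        (Z.filter fun y => SameY Λ (τt y) (τs y) ω) := by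
      intro y hy
      simp only [Z, mem_union, mem_filter] at hy ⊢
      by_cases h0 : xCoord 0 (τs y) ∈ Λ.fixed
      · exact Or.inl ⟨hy.1, h0⟩
      · exact Or.inr ⟨⟨hy.1, hΛ.yfree h0⟩, hy.2⟩
    have h1 := (card_le_card hsub).trans (card_union_le _ _)
    have h2 := hΛ.card_fixed Ys hτs (a := 0)
    simp only [k]
    omega
  refine (prob_mono himp).trans ?_
  refine le_trans (tail_classes c3 Z (fun y => {yCoord 0 (τs y)}) _
    (2 / Fintype.card K) k nTail (by positivity)
    (fun y hy => hΛ.condLe_sameY (hts y (mem_filter.1 hy).1) (mem_filter.1 hy).2)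
    (fun y hy y' hy' hne hcol => (sameY_dependsOn (τt y') (τs y')).mono fun i hi => ?_) ?_)
    (le_of_eq (by simp [eps]))
  · have hyY := (mem_filter.1 hy).1
    have hy'Y := (mem_filter.1 hy').1
    have hs1 : τs y ≠ τs y' := fun h => hne (hτs hyY hy'Y h)
    have hs2 : τs y ≠ τt y' := (hc3 y' hy'Y y hyY (Ne.symm hne) hcol.symm).symm
    simp only [coe_singleton, Set.mem_compl_iff, Set.mem_singleton_iff]
    simp only [Set.mem_insert_iff, Set.mem_singleton_iff] at hi
    rintro rfl
    simp [yCoord, hs1, hs2] at hi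
  · have hm := hB.m_pos
    have h1 : (Z.card : ℝ) ≤ q + 1 := by
      have := card_le_card_of_injOn (t := (univ : Finset (Slope q))) τs
        (fun y _ => mem_coe.2 (mem_univ _)) (hτs.mono (Finset.coe_subset.2 (filter_subset _ _)) :
          Set.InjOn τs Z)
      rw [card_univ, Fintype.card_option, ZMod.card] at this
      exact_mod_cast this
    have h2 := hB.slope_real
    have h3 : 2 / (Fintype.card K : ℝ) * Z.card ≤ Fintype.card K := by
      rw [div_mul_eq_mul_div, div_le_iff₀ hm, ← sq]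
      linarith
    have h4 : ((3 * (4 * nTail + 1) : ℕ) : ℝ) ≤ Fintype.card K := by
      have := hB.m_large
      exact_mod_cast (show 3 * (4 * nTail + 1) ≤ Fintype.card K by simp only [nTail]; omega)
    simp only [k, Fintype.card_fin]
    push_cast at h4 ⊢
    linarith

end Vale.Agent.P045
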