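import Mathlib
import Vale.Agent.P045.Good

/-!
# P045: elementary facts on lines, and on the fixed lines of the construction
-/

namespace Vale.Agent.P045

open Finset

variable {q : ℕ} [Fact q.Prime]

lemma onLine_lineThru (p : Pt q) (s : Slope q) : OnLine p (lineThru p s) := by
  cases s <;> simp [lineThru, OnLine]

lemma lineThru_fst (p : Pt q) (s : Slope q) : (lineThru p s).1 = s := by
  cases s <;> simp [lineThru]

lemma onLine_iff_lineThru {p : Pt q} {l : Line q} : OnLine p l ↔ lineThru p l.1 = l := by
  rcases l with ⟨_ | a, b⟩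
  · simp [lineThru, OnLine]
  · simp only [lineThru, OnLine, Prod.mk.injEq, true_and]
    exact ⟨fun h => by rw [h]; ring, fun h => by rw [← h]; ring⟩

lemma lineThru_eq {p : Pt q} {l : Line q} (h : OnLine p l) : lineThru p l.1 = l :=
  onLine_iff_lineThru.1 h

lemma slopeTo_eq {O p : Pt q} {l : Line q} (hne : p ≠ O) (hO : OnLine O l) (hp : OnLine p l) :
    slopeTo O p = l.1 := by
  rcases l with ⟨_ | a, b⟩
  · simp only [OnLine] at hO hp
    simp [slopeTo, hp, hO]
  · simp only [OnLine] at hO hp
    have hx : p.1 ≠ O.1 := fun h => hne (Prod.ext h (by rw [hp, hO, h]))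
    simp only [slopeTo, if_neg hx, Option.some.injEq]
    rw [div_eq_iff (sub_ne_zero.2 hx), hp, hO]; ring

lemma onLine_slopeTo (O p : Pt q) : OnLine p (lineThru O (slopeTo O p)) := by
  unfold slopeTo
  split
  · next h => simpa [lineThru, OnLine] using h
  · next h =>
      simp only [lineThru, OnLine]
      have := div_mul_cancel₀ (p.2 - O.2) (sub_ne_zero.2 h)
      linear_combination -this

lemma lineThru_slopeTo {O p : Pt q} {s : Slope q} (hne : p ≠ O)
    (h : OnLine O (lineThru p s)) : slopeTo O p = s := by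
  rw [slopeTo_eq hne h (onLine_lineThru p s), lineThru_fst]

/-- Two points are joined by only one line. -/
lemma line_eq_of_two {O p : Pt q} {l l' : Line q} (hne : p ≠ O) (hO : OnLine O l)
    (hp : OnLine p l) (hO' : OnLine O l') (hp' : OnLine p l') : l = l' := by
  rw [← lineThru_eq hO, ← lineThru_eq hO', ← slopeTo_eq hne hO hp, ← slopeTo_eq hne hO' hp']

/-- Two lines have at most one common point. -/
lemma pt_eq_of_two {O p : Pt q} {l l' : Line q} (hll : l ≠ l') (hO : OnLine O l)
    (hp : OnLine p l) (hO' : OnLine O l') (hp' : OnLine p l') : p = O := by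
  by_contra h
  exact hll (line_eq_of_two h hO hp hO' hp')

lemma not_onLine_of_parallel {p : Pt q} {l l' : Line q} (hll : l ≠ l') (hs : l.1 = l'.1)
    (h : OnLine p l) : ¬ OnLine p l' := fun h' => hll <| by
  rw [← lineThru_eq h, ← lineThru_eq h', hs]

lemma card_onLine (l : Line q) :
    ((univ : Finset (Pt q)).filter fun p => OnLine p l).card = q := by
  classical
  conv_rhs => rw [← ZMod.card q, ← card_univ]
  rcases l with ⟨_ | a, b⟩
  · have h : ((univ : Finset (Pt q)).filter fun p => OnLine p (none, b)) =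
        (univ : Finset (ZMod q)).image fun y => (b, y) := by
      ext p; rw [mem_filter]; simp [OnLine, Prod.ext_iff, eq_comm]
    rw [h, card_image_of_injective _ fun x y hxy => congrArg Prod.snd hxy]
  · have h : ((univ : Finset (Pt q)).filter fun p => OnLine p (some a, b)) =
        (univ : Finset (ZMod q)).image fun x => (x, a * x + b) := by
      ext p; rw [mem_filter]; simp [OnLine, Prod.ext_iff, eq_comm]
    rw [h, card_image_of_injective _ fun x y hxy => congrArg Prod.fst hxy]

lemma card_slope : Fintype.card (Slope q) = q + 1 := by simp [ZMod.card]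

lemma card_pt : Fintype.card (Pt q) = q ^ 2 := by simp [ZMod.card, sq]

/-- Seen from a point off a line, its points have different slopes. -/
lemma slopeTo_injOn {O : Pt q} {l : Line q} (hO : ¬ OnLine O l) :
    Set.InjOn (slopeTo O) {p | OnLine p l} := by
  intro p hp p' hp' h
  have h1 := onLine_slopeTo O p
  have h2 := onLine_slopeTo O p'
  rw [← h] at h2
  have hne : lineThru O (slopeTo O p) ≠ l := fun e => hO (e ▸ onLine_lineThru _ _)
  exact pt_eq_of_two hne h2 h1 hp' hp

/-- Every slope but that of the line is taken. -/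
lemma exists_slopeTo {O : Pt q} {l : Line q} (hO : ¬ OnLine O l) {t : Slope q} (ht : t ≠ l.1) :
    ∃ p, OnLine p l ∧ slopeTo O p = t := by
  have key : ∃ p : Pt q, OnLine p l ∧ OnLine p (lineThru O t) := by
    rcases l with ⟨_ | a, b⟩ <;> rcases t with _ | c
    · exact absurd rfl ht
    · exact ⟨(b, c * b + (O.2 - c * O.1)), by simp [OnLine], by simp [OnLine, lineThru]⟩
    · exact ⟨(O.1, a * O.1 + b), by simp [OnLine], by simp [OnLine, lineThru]⟩
    · have hac : a - c ≠ 0 := sub_ne_zero.2 fun h => ht (by simp [h])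
      refine ⟨((O.2 - c * O.1 - b) / (a - c), a * ((O.2 - c * O.1 - b) / (a - c)) + b),
        by simp [OnLine], ?_⟩
      simp only [OnLine, lineThru]
      have h := div_mul_cancel₀ (O.2 - c * O.1 - b) hac
      linear_combination h
  obtain ⟨p, hp, hp'⟩ := key
  have hne : p ≠ O := fun h => hO (h ▸ hp)
  exact ⟨p, hp, by rw [slopeTo_eq hne (onLine_lineThru O t) hp', lineThru_fst]⟩

lemma pt_eq_of_slopes {O O' p p' : Pt q} (h : slopeTo O p = slopeTo O p')
    (h' : slopeTo O' p = slopeTo O' p') (hp : ¬ OnLine O' (lineThru O (slopeTo O p))) :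
    p = p' :=
  slopeTo_injOn hp (onLine_slopeTo O p) (h ▸ onLine_slopeTo O p') h'

section Fixed

/-- The integers that must not vanish in `ZMod q` are small. -/
lemma intCast_ne_zero (hq : 1000 ≤ q) {z : ℤ} (h0 : z ≠ 0) (h : z.natAbs < 1000) :
    (z : ZMod q) ≠ 0 := by
  intro hz
  have hd := Int.natCast_dvd.1 ((ZMod.intCast_zmod_eq_zero_iff_dvd z q).1 hz)
  have := Nat.le_of_dvd (Int.natAbs_pos.2 h0) hd
  omega

end Fixed

end Vale.Agent.P045
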