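import Mathlib
import Vale.Agent.P045.Geom

/-!
# P045: facts on the four centres, their sides and the auxiliary lines

The twelve fixed lines have integer equations `A x + B y = C`, so every fact is the non-vanishing
of a small integer.
-/

namespace Vale.Agent.P045

open Finset

variable {q : ℕ} [Fact q.Prime]

/-- Integer equations `(A, B, C)` of the two same sides, the four cross sides and the six
auxiliary lines. -/
def fixedEq : Fin 12 → ℤ × ℤ × ℤ :=
  ![(0, 1, 0), (-1, 3, -4), (-1, 1, 0), (1, 1, 0), (-2, 1, 2), (1, 2, -1),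
    (-3, 9, -2), (3, 3, -2), (-6, 3, 1), (0, 3, 2), (-3, 3, 4), (3, 6, 2)]

/-- The fixed lines, in the same order. -/
def fixedLine (k : Fin 12) : Line q :=
  ![sameSide 0, sameSide 1, crossSide (0, 0), crossSide (0, 1), crossSide (1, 0), crossSide (1, 1),
    wLine 0, wLine 1, wLine 2, wLine 3, wLine 4, wLine 5] k

/-- Positions of the same sides. -/
def idxS : Fin 2 → Fin 12 := ![0, 1]

/-- Positions of the cross sides. -/
def idxC (j : Fin 2 × Fin 2) : Fin 12 := (![![2, 3], ![4, 5]] : Fin 2 → Fin 2 → Fin 12) j.1 j.2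

/-- Positions of the auxiliary lines. -/
def idxW : Fin 6 → Fin 12 := ![6, 7, 8, 9, 10, 11]

/-- The centres as integer points. -/
def cenInt : Fin 4 → ℤ × ℤ := ![(0, 0), (-1, 0), (-2, -2), (1, -1)]

/-- The determinant of the slopes of two fixed lines. -/
def crossEq (k k' : Fin 12) : ℤ :=
  (fixedEq k).1 * (fixedEq k').2.1 - (fixedEq k').1 * (fixedEq k).2.1

/-- The determinant of three fixed lines. -/
def det3Eq (k k' k'' : Fin 12) : ℤ :=
  (fixedEq k'').1 * ((fixedEq k).2.2 * (fixedEq k').2.1 - (fixedEq k').2.2 * (fixedEq k).2.1) +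
    (fixedEq k'').2.1 * ((fixedEq k).1 * (fixedEq k').2.2 - (fixedEq k').1 * (fixedEq k).2.2) -
    (fixedEq k'').2.2 * crossEq k k'

/-- The value of the equation of a fixed line at a centre. -/
def cenVal (a : Fin 4) (k : Fin 12) : ℤ :=
  (fixedEq k).1 * (cenInt a).1 + (fixedEq k).2.1 * (cenInt a).2 - (fixedEq k).2.2

theorem sameSide_eq_idx (i : Fin 2) : sameSide (q := q) i = fixedLine (idxS i) := by
  fin_cases i <;> rfl

theorem crossSide_eq_idx (j : Fin 2 × Fin 2) : crossSide (q := q) j = fixedLine (idxC j) := by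
  obtain ⟨j₁, j₂⟩ := j
  fin_cases j₁ <;> fin_cases j₂ <;> rfl

theorem wLine_eq_idx (l : Fin 6) : wLine (q := q) l = fixedLine (idxW l) := by
  fin_cases l <;> rfl

theorem cen_eq_int (a : Fin 4) :
    cen (q := q) a = (((cenInt a).1 : ZMod q), ((cenInt a).2 : ZMod q)) := by
  fin_cases a <;> simp [cen, cenInt]

theorem small_cast_eq_zero (hq : 1000 ≤ q) {z : ℤ} (hz : z.natAbs < 1000) :
    (z : ZMod q) = 0 ↔ z = 0 :=
  ⟨fun h => by_contra fun h0 => intCast_ne_zero hq h0 hz h, fun h => by simp [h]⟩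

/-- Every fixed line is `y = a x + b` with `B a = -A` and `B b = C`. -/
theorem fixedLine_spec (hq : 1000 ≤ q) (k : Fin 12) :
    ∃ a b : ZMod q, fixedLine k = (some a, b) ∧ ((fixedEq k).2.1 : ZMod q) ≠ 0 ∧
      ((fixedEq k).2.1 : ZMod q) * a = -((fixedEq k).1 : ZMod q) ∧
      ((fixedEq k).2.1 : ZMod q) * b = ((fixedEq k).2.2 : ZMod q) := by
  have hB : ((fixedEq k).2.1 : ZMod q) ≠ 0 := by
    refine intCast_ne_zero hq ?_ ?_ <;> revert k <;> decide
  have h2 : (2 : ZMod q) ≠ 0 := by simpa using intCast_ne_zero (z := 2) hq (by decide) (by decide)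
  have h3 : (3 : ZMod q) ≠ 0 := by simpa using intCast_ne_zero (z := 3) hq (by decide) (by decide)
  have h6 : (6 : ZMod q) ≠ 0 := by simpa using intCast_ne_zero (z := 6) hq (by decide) (by decide)
  have h9 : (9 : ZMod q) ≠ 0 := by simpa using intCast_ne_zero (z := 9) hq (by decide) (by decide)
  have hm1 : ((2 : ZMod q) = 1) = False :=
    eq_false fun h => one_ne_zero (α := ZMod q) (by linear_combination h)
  have hm2 : ((1 : ZMod q) = -1) = False := eq_false fun h => h2 (by linear_combination h)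
  have hm3 : ((1 : ZMod q) = -2) = False := eq_false fun h => h3 (by linear_combination h)
  refine ⟨-((fixedEq k).1 : ZMod q) / ((fixedEq k).2.1 : ZMod q),
    ((fixedEq k).2.2 : ZMod q) / ((fixedEq k).2.1 : ZMod q), ?_, hB, mul_div_cancel₀ _ hB,
    mul_div_cancel₀ _ hB⟩
  fin_cases k <;>
    simp [fixedLine, fixedEq, sameSide, crossSide, wLine, fstC, sndC, lineThru, slopeTo, cen,
      hm1, hm2, hm3, h2, h3] <;>
    (try constructor) <;> (field_simp; norm_num [h2, h3] <;> (field_simp; ring))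

theorem onLine_fixed (hq : 1000 ≤ q) (p : Pt q) (k : Fin 12) :
    OnLine p (fixedLine k) ↔
      ((fixedEq k).1 : ZMod q) * p.1 + ((fixedEq k).2.1 : ZMod q) * p.2 = (fixedEq k).2.2 := by
  obtain ⟨a, b, e, hB, ha, hb⟩ := fixedLine_spec hq k
  rw [e]
  simp only [OnLine]
  constructor
  · intro h
    linear_combination ((fixedEq k).2.1 : ZMod q) * h + p.1 * ha + hb
  · intro h
    refine mul_left_cancel₀ hB ?_
    linear_combination h - p.1 * ha - hb

theorem crossEq_small : ∀ k k' : Fin 12, (crossEq k k').natAbs < 1000 := by decide +kernel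

theorem det3Eq_small : ∀ k k' k'' : Fin 12, (det3Eq k k' k'').natAbs < 1000 := by decide +kernel

theorem slope_fixed_eq_iff (hq : 1000 ≤ q) (k k' : Fin 12) :
    (fixedLine (q := q) k).1 = (fixedLine k').1 ↔ crossEq k k' = 0 := by
  obtain ⟨a, b, e, hB, ha, -⟩ := fixedLine_spec hq k
  obtain ⟨a', b', e', hB', ha', -⟩ := fixedLine_spec hq k'
  rw [e, e', Option.some.injEq, ← small_cast_eq_zero hq (z := crossEq k k')
    (crossEq_small k k')]
  simp only [crossEq, Int.cast_sub, Int.cast_mul]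
  constructor
  · rintro rfl
    linear_combination ((fixedEq k').2.1 : ZMod q) * ha - ((fixedEq k).2.1 : ZMod q) * ha'
  · intro h
    refine mul_left_cancel₀ (mul_ne_zero hB hB') ?_
    linear_combination ((fixedEq k').2.1 : ZMod q) * ha - ((fixedEq k).2.1 : ZMod q) * ha' - h

theorem cen_on_fixed (hq : 1000 ≤ q) (a : Fin 4) (k : Fin 12) :
    OnLine (cen (q := q) a) (fixedLine k) ↔ cenVal a k = 0 := by
  rw [onLine_fixed hq, cen_eq_int, ← small_cast_eq_zero hq (z := cenVal a k)
    (by revert a k; decide), ← sub_eq_zero]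
  simp only [cenVal, Int.cast_sub, Int.cast_add, Int.cast_mul]

theorem det3_eq_zero_iff (hq : 1000 ≤ q) {P : Pt q} {k k' : Fin 12} (hkk : crossEq k k' ≠ 0)
    (h : OnLine P (fixedLine k)) (h' : OnLine P (fixedLine k')) (k'' : Fin 12) :
    OnLine P (fixedLine k'') ↔ det3Eq k k' k'' = 0 := by
  rw [onLine_fixed hq] at h h' ⊢
  have hD : ((crossEq k k' : ℤ) : ZMod q) ≠ 0 :=
    intCast_ne_zero hq hkk (crossEq_small k k')
  rw [← small_cast_eq_zero hq (z := det3Eq k k' k'')
    (det3Eq_small k k' k'')]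
  simp only [det3Eq, crossEq, Int.cast_sub, Int.cast_add, Int.cast_mul] at hD ⊢
  constructor
  · intro h''
    linear_combination
      (-((fixedEq k'').1 : ZMod q) * (fixedEq k').2.1 +
        ((fixedEq k'').2.1 : ZMod q) * (fixedEq k').1) * h +
      (((fixedEq k'').1 : ZMod q) * (fixedEq k).2.1 -
        ((fixedEq k'').2.1 : ZMod q) * (fixedEq k).1) * h' +
      (((fixedEq k).1 : ZMod q) * (fixedEq k').2.1 -
        ((fixedEq k').1 : ZMod q) * (fixedEq k).2.1) * h''
  · intro h0
    refine mul_left_cancel₀ hD ?_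
    linear_combination h0 -
      (-((fixedEq k'').1 : ZMod q) * (fixedEq k').2.1 +
        ((fixedEq k'').2.1 : ZMod q) * (fixedEq k').1) * h -
      (((fixedEq k'').1 : ZMod q) * (fixedEq k).2.1 -
        ((fixedEq k'').2.1 : ZMod q) * (fixedEq k).1) * h'

theorem cen_injective (hq : 1000 ≤ q) : Function.Injective (cen (q := q)) := by
  intro a b h
  rw [cen_eq_int, cen_eq_int, Prod.ext_iff, ← sub_eq_zero, ← Int.cast_sub,
    small_cast_eq_zero hq (by clear h; revert a b; decide), ← sub_eq_zero (a := ((cenInt a).2 : ZMod q)),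
    ← Int.cast_sub, small_cast_eq_zero hq (by clear h; revert a b; decide)] at h
  revert a b; decide

theorem cen_on_sameSide (hq : 1000 ≤ q) (a : Fin 4) (i : Fin 2) :
    OnLine (cen (q := q) a) (sameSide i) ↔ a = fstC i ∨ a = sndC i := by
  rw [sameSide_eq_idx, cen_on_fixed hq]
  revert a i; decide

theorem cen_on_crossSide (hq : 1000 ≤ q) (a : Fin 4) (j : Fin 2 × Fin 2) :
    OnLine (cen (q := q) a) (crossSide j) ↔ a = crossA j ∨ a = crossC j := by
  rw [crossSide_eq_idx, cen_on_fixed hq]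
  revert a j; decide

/-- A line through two centres is a side. -/
theorem two_cen (hq : 1000 ≤ q) {a b : Fin 4} (hab : a ≠ b) {l : Line q}
    (ha : OnLine (cen a) l) (hb : OnLine (cen b) l) :
    (∃ i, l = sameSide i) ∨ ∃ j, l = crossSide j := by
  have hne : cen (q := q) b ≠ cen a := fun h => hab (cen_injective hq h).symm
  have T : ∀ a b : Fin 4, a ≠ b → (∃ i, cenVal a (idxS i) = 0 ∧ cenVal b (idxS i) = 0) ∨
      ∃ j, cenVal a (idxC j) = 0 ∧ cenVal b (idxC j) = 0 := by decide
  rcases T a b hab with ⟨i, h1, h2⟩ | ⟨j, h1, h2⟩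
  · rw [← cen_on_fixed hq, ← sameSide_eq_idx] at h1 h2
    exact .inl ⟨i, line_eq_of_two hne ha hb h1 h2⟩
  · rw [← cen_on_fixed hq, ← crossSide_eq_idx] at h1 h2
    exact .inr ⟨j, line_eq_of_two hne ha hb h1 h2⟩

theorem cen_not_on_wLine (hq : 1000 ≤ q) (a : Fin 4) (i : Fin 6) :
    ¬ OnLine (cen (q := q) a) (wLine i) := by
  rw [wLine_eq_idx, cen_on_fixed hq]
  revert a i; decide

/-- The six sides have six different slopes. -/
theorem slope_sameSide_injective (hq : 1000 ≤ q) :
    Function.Injective fun i => (sameSide (q := q) i).1 := by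
  intro i i' h
  simp only [sameSide_eq_idx, slope_fixed_eq_iff hq] at h
  revert i i'; decide

theorem slope_crossSide_injective (hq : 1000 ≤ q) :
    Function.Injective fun j => (crossSide (q := q) j).1 := by
  intro j j' h
  simp only [crossSide_eq_idx, slope_fixed_eq_iff hq] at h
  revert j j'; decide

theorem slope_sameSide_ne_crossSide (hq : 1000 ≤ q) (i : Fin 2) (j : Fin 2 × Fin 2) :
    (sameSide (q := q) i).1 ≠ (crossSide j).1 := by
  rw [Ne, sameSide_eq_idx, crossSide_eq_idx, slope_fixed_eq_iff hq]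
  revert i j; decide

/-- The auxiliary lines have exactly the six slopes of the sides, one each. -/
theorem slope_wLine_injective (hq : 1000 ≤ q) :
    Function.Injective fun l => (wLine (q := q) l).1 := by
  intro l l' h
  simp only [wLine_eq_idx, slope_fixed_eq_iff hq] at h
  revert l l'; decide

theorem sameSide_injective (hq : 1000 ≤ q) : Function.Injective (sameSide (q := q)) :=
  fun _ _ h => slope_sameSide_injective hq (congrArg Prod.fst h)

theorem crossSide_injective (hq : 1000 ≤ q) : Function.Injective (crossSide (q := q)) :=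
  fun _ _ h => slope_crossSide_injective hq (congrArg Prod.fst h)

theorem wLine_injective (hq : 1000 ≤ q) : Function.Injective (wLine (q := q)) :=
  fun _ _ h => slope_wLine_injective hq (congrArg Prod.fst h)

theorem sameSide_ne_crossSide (hq : 1000 ≤ q) (i : Fin 2) (j : Fin 2 × Fin 2) :
    sameSide (q := q) i ≠ crossSide j :=
  fun h => slope_sameSide_ne_crossSide hq i j (congrArg Prod.fst h)

theorem isSideSlope_iff_wLine (hq : 1000 ≤ q) (s : Slope q) :
    IsSideSlope s ↔ ∃ l, (wLine (q := q) l).1 = s := by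
  have TS : ∀ i, ∃ l, crossEq (idxW l) (idxS i) = 0 := by decide
  have TC : ∀ j, ∃ l, crossEq (idxW l) (idxC j) = 0 := by decide
  have TW : ∀ l, (∃ i, crossEq (idxS i) (idxW l) = 0) ∨ ∃ j, crossEq (idxC j) (idxW l) = 0 := by
    decide
  constructor
  · rintro (⟨i, rfl⟩ | ⟨j, rfl⟩)
    · obtain ⟨l, hl⟩ := TS i
      exact ⟨l, by rwa [wLine_eq_idx, sameSide_eq_idx, slope_fixed_eq_iff hq]⟩
    · obtain ⟨l, hl⟩ := TC j
      exact ⟨l, by rwa [wLine_eq_idx, crossSide_eq_idx, slope_fixed_eq_iff hq]⟩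
  · rintro ⟨l, rfl⟩
    rcases TW l with ⟨i, hi⟩ | ⟨j, hj⟩
    · exact .inl ⟨i, by rwa [wLine_eq_idx, sameSide_eq_idx, slope_fixed_eq_iff hq]⟩
    · exact .inr ⟨j, by rwa [wLine_eq_idx, crossSide_eq_idx, slope_fixed_eq_iff hq]⟩

/-- The point on both same sides is on no auxiliary line and on no cross side. -/
theorem sameSide_meet (hq : 1000 ≤ q) {P : Pt q} (h0 : OnLine P (sameSide 0))
    (h1 : OnLine P (sameSide 1)) : ¬ OnW P ∧ ¬ OnCross P ∧ ¬ IsCen P := by
  refine ⟨?_, ?_, ?_⟩
  · rintro ⟨l, hl⟩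
    rw [wLine_eq_idx, det3_eq_zero_iff hq (k := 0) (k' := 1) (by decide)
      (by rwa [← show idxS 0 = 0 from rfl, ← sameSide_eq_idx])
      (by rwa [← show idxS 1 = 1 from rfl, ← sameSide_eq_idx])] at hl
    revert l; decide
  · rintro ⟨j, hj⟩
    rw [crossSide_eq_idx, det3_eq_zero_iff hq (k := 0) (k' := 1) (by decide)
      (by rwa [← show idxS 0 = 0 from rfl, ← sameSide_eq_idx])
      (by rwa [← show idxS 1 = 1 from rfl, ← sameSide_eq_idx])] at hj
    revert j; decide
  · rintro ⟨a, rfl⟩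
    rw [cen_on_sameSide hq] at h0 h1
    revert a; decide

/-- A point other than a centre is on both same sides, or on at most one of them and no cross
side together with it. -/
theorem sameSide_cross (hq : 1000 ≤ q) {P : Pt q} (hP : ¬ IsCen P) {i : Fin 2}
    (hi : OnLine P (sameSide i)) : ¬ OnCross P := by
  rintro ⟨j, hj⟩
  have T : ∀ i j, ∃ a, cenVal a (idxS i) = 0 ∧ cenVal a (idxC j) = 0 := by decide
  obtain ⟨a, h1, h2⟩ := T i j
  rw [← cen_on_fixed hq, ← sameSide_eq_idx] at h1
  rw [← cen_on_fixed hq, ← crossSide_eq_idx] at h2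
  exact hP ⟨a, (pt_eq_of_two (sameSide_ne_crossSide hq i j) h1 hi h2 hj).symm⟩

/-- Two cross sides meet in a centre or in one of two diagonal points; a diagonal point is on
exactly two cross sides, on exactly three auxiliary lines and on no same side. -/
theorem crossSide_meet (hq : 1000 ≤ q) {P : Pt q} (hP : ¬ IsCen P) {j j' : Fin 2 × Fin 2}
    (hjj : j ≠ j') (hj : OnLine P (crossSide j)) (hj' : OnLine P (crossSide j')) :
    OnW P ∧ (∀ j'', OnLine P (crossSide j'') → j'' = j ∨ j'' = j') ∧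
      (∀ i, ¬ OnLine P (sameSide i)) ∧
      crossA j ≠ crossA j' ∧
      crossC j ≠ crossC j' ∧
      (univ.filter fun l => OnLine P (wLine l)).card = 3 := by
  have hsh : ¬ ∃ a, cenVal a (idxC j) = 0 ∧ cenVal a (idxC j') = 0 := by
    rintro ⟨a, h1, h2⟩
    rw [← cen_on_fixed hq, ← crossSide_eq_idx] at h1 h2
    exact hP ⟨a, (pt_eq_of_two ((crossSide_injective hq).ne hjj) h1 hj h2 hj').symm⟩
  have T : ∀ j j' : Fin 2 × Fin 2, ¬ (∃ a, cenVal a (idxC j) = 0 ∧ cenVal a (idxC j') = 0) →
      crossEq (idxC j) (idxC j') ≠ 0 ∧ (∃ l, det3Eq (idxC j) (idxC j') (idxW l) = 0) ∧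
      (∀ j'', det3Eq (idxC j) (idxC j') (idxC j'') = 0 → j'' = j ∨ j'' = j') ∧
      (∀ i, det3Eq (idxC j) (idxC j') (idxS i) ≠ 0) ∧
      crossA j ≠ crossA j' ∧
      crossC j ≠ crossC j' ∧
      (univ.filter fun l => det3Eq (idxC j) (idxC j') (idxW l) = 0).card = 3 := by
    decide +kernel
  obtain ⟨hne, ⟨l, hl⟩, h2, h3, h4, h5, h6⟩ := T j j' hsh
  have K := det3_eq_zero_iff hq hne (by rwa [← crossSide_eq_idx]) (by rwa [← crossSide_eq_idx])
    (P := P)
  refine ⟨⟨l, by rw [wLine_eq_idx, K]; exact hl⟩, fun j'' h => h2 j'' ?_, fun i h => h3 i ?_, h4, h5,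
    ?_⟩
  · rwa [← K, ← crossSide_eq_idx]
  · rwa [← K, ← sameSide_eq_idx]
  · simp only [wLine_eq_idx, K]
    exact h6

end Vale.Agent.P045
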