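import Mathlib
import Vale.Agent.P045.RandDefs
import Vale.Agent.P045.Fixed

/-!
# P045: points on lines, as used by the random stages
-/

namespace Vale.Agent.P045

open Finset

variable {q : ℕ} [Fact q.Prime] {K : Type*} [Field K] [Fintype K] [DecidableEq K]

theorem mem_plain {l : Line q} {p : Pt q} : p ∈ plainPts l ↔ Plain p ∧ OnLine p l := by
  simp [plainPts]

theorem partner_ne (a : Fin 4) : partner a ≠ a := by
  revert a; decide

/-- A line other than the twelve fixed ones. -/
def Loose (l : Line q) : Prop :=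
  (∀ i, l ≠ sameSide i) ∧ (∀ j, l ≠ crossSide j) ∧ ∀ i, l ≠ wLine i

theorem Role.loose (hq : 1000 ≤ q) {a : Fin 4} {l : Line q} (h : Role a l) : Loose l := by
  have hS : ∀ (a : Fin 4) (i : Fin 2), ∃ b, b ≠ a ∧ (b = fstC i ∨ b = sndC i) := by decide
  have hC : ∀ (a : Fin 4) (j : Fin 2 × Fin 2), ∃ b, b ≠ a ∧ (b = crossA j ∨ b = crossC j) := by
    decide
  refine ⟨fun i e => ?_, fun j e => ?_, fun i e => ?_⟩
  · obtain ⟨b, hb, hb'⟩ := hS a i
    exact h.2 b hb (e ▸ (cen_on_sameSide hq b i).2 hb')
  · obtain ⟨b, hb, hb'⟩ := hC a j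
    exact h.2 b hb (e ▸ (cen_on_crossSide hq b j).2 hb')
  · exact cen_not_on_wLine hq a i (e ▸ h.1)

theorem Ordinary.loose (hq : 1000 ≤ q) {l : Line q} (h : Ordinary l) : Loose l := by
  refine ⟨fun i e => ?_, fun j e => ?_, h.2⟩
  · exact h.1 (fstC i) (e ▸ (cen_on_sameSide hq _ i).2 (Or.inl rfl))
  · exact h.1 (crossA j) (e ▸ (cen_on_crossSide hq _ j).2 (Or.inl rfl))

theorem loose_of_slope (hq : 1000 ≤ q) {l : Line q} (h : ¬ IsSideSlope l.1) : Loose l :=
  ⟨fun i e => h (Or.inl ⟨i, e ▸ rfl⟩), fun j e => h (Or.inr ⟨j, e ▸ rfl⟩),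
    fun i e => h ((isSideSlope_iff_wLine hq _).2 ⟨i, e ▸ rfl⟩)⟩

open Classical in
theorem card_meet_le {l l' : Line q} (h : l ≠ l') :
    (univ.filter fun p : Pt q => OnLine p l ∧ OnLine p l').card ≤ 1 :=
  card_le_one.2 fun p hp p' hp' => by
    simp only [mem_filter, mem_univ, true_and] at hp hp'
    exact pt_eq_of_two h hp'.1 hp.1 hp'.2 hp.2

open Classical in
/-- A loose line has at most twelve points off the plain ones. -/
theorem Loose.card_special {l : Line q} (h : Loose l) :
    (univ.filter fun p : Pt q => OnLine p l ∧ ¬ Plain p).card ≤ 12 := by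
  have hsub : (univ.filter fun p : Pt q => OnLine p l ∧ ¬ Plain p) ⊆
      ((univ : Finset (Fin 2)).biUnion fun i =>
        univ.filter fun p : Pt q => OnLine p l ∧ OnLine p (sameSide i)) ∪
      (((univ : Finset (Fin 2 × Fin 2)).biUnion fun j =>
        univ.filter fun p : Pt q => OnLine p l ∧ OnLine p (crossSide j)) ∪
      ((univ : Finset (Fin 6)).biUnion fun i =>
        univ.filter fun p : Pt q => OnLine p l ∧ OnLine p (wLine i))) := by
    intro p hp
    simp only [Plain, OnSide, OnCross, OnW, mem_filter, mem_univ, true_and, mem_union,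
      mem_biUnion, not_and, not_not] at hp ⊢
    obtain ⟨hl, hn⟩ := hp
    by_cases hs : (∃ i, OnLine p (sameSide i)) ∨ ∃ j, OnLine p (crossSide j)
    · rcases hs with ⟨i, hi⟩ | ⟨j, hj⟩
      · exact Or.inl ⟨i, hl, hi⟩
      · exact Or.inr (Or.inl ⟨j, hl, hj⟩)
    · obtain ⟨i, hi⟩ := hn hs
      exact Or.inr (Or.inr ⟨i, hl, hi⟩)
  refine (card_le_card hsub).trans ((card_union_le _ _).trans ?_)
  refine (add_le_add le_rfl (card_union_le _ _)).trans ?_
  have h1 := card_biUnion_le_card_mul (univ : Finset (Fin 2))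
    (fun i => univ.filter fun p : Pt q => OnLine p l ∧ OnLine p (sameSide i)) 1
    fun i _ => card_meet_le (h.1 i)
  have h2 := card_biUnion_le_card_mul (univ : Finset (Fin 2 × Fin 2))
    (fun j => univ.filter fun p : Pt q => OnLine p l ∧ OnLine p (crossSide j)) 1
    fun j _ => card_meet_le (h.2.1 j)
  have h3 := card_biUnion_le_card_mul (univ : Finset (Fin 6))
    (fun i => univ.filter fun p : Pt q => OnLine p l ∧ OnLine p (wLine i)) 1
    fun i _ => card_meet_le (h.2.2 i)
  simp only [card_univ, Fintype.card_prod, Fintype.card_fin] at h1 h2 h3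
  omega

open Classical in
theorem Loose.card_plain {l : Line q} (h : Loose l) : q ≤ (plainPts l).card + 12 := by
  have h1 := h.card_special
  have h2 : (univ.filter fun p : Pt q => OnLine p l).card ≤
      (plainPts l).card + (univ.filter fun p : Pt q => OnLine p l ∧ ¬ Plain p).card := by
    refine le_trans (card_le_card fun p hp => ?_) (card_union_le _ _)
    simp only [mem_filter, mem_union, mem_plain, mem_univ, true_and] at hp ⊢
    tauto
  rw [show (univ.filter fun p : Pt q => OnLine p l).card = q by convert card_onLine l] at h2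
  omega

omit [Fintype K] [DecidableEq K] in
theorem effPencil_plain (a : Fin 4) {p : Pt q} (h : Plain p) : effPencil a p = a := by
  unfold effPencil
  rw [if_neg]
  rintro ⟨j, -, hj⟩
  exact h.1 (Or.inr ⟨j, hj⟩)

theorem Data.lab_plain (D : Data q K) (a : Fin 4) {p : Pt q} (h : Plain p) :
    D.lab a p = D.L a (slopeTo (cen a) p) := by
  rw [Data.lab, effPencil_plain a h]

theorem Data.lab_cross (D : Data q K) (hq : 1000 ≤ q) {a : Fin 4} {j : Fin 2 × Fin 2} {p : Pt q}
    (ha : a = crossA j ∨ a = crossC j) (hp : OnLine p (crossSide j)) :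
    D.lab a p = D.L (partner a) (slopeTo (cen (partner a)) p) := by
  have : effPencil a p = partner a := by
    unfold effPencil
    rw [if_pos]
    exact ⟨j, (cen_on_crossSide hq a j).2 ha, hp⟩
  rw [Data.lab, this]

theorem partner_not_on_cross (hq : 1000 ≤ q) {a : Fin 4} {j : Fin 2 × Fin 2}
    (ha : a = crossA j ∨ a = crossC j) : ¬ OnLine (cen (q := q) (partner a)) (crossSide j) := by
  rw [cen_on_crossSide hq]
  revert a j; decide

/-- An auxiliary point is on no side. -/
theorem wp_not_side {Λ : Layout q K} (h : LayoutOK Λ) {ω : Coord q → K} {dir : Slope q → K}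
    {Z : Slope q → Finset (Slope q)} {p : Pt q} (hp : (Λ.toData ω dir Z).IsW p) :
    ¬ OnSide p := by
  obtain ⟨l, i, x, rfl⟩ := hp
  exact (h.wp_line l i x).2.1

open Classical in
/-- The points of the construction on a cross side. -/
noncomputable def crossBase (j : Fin 2 × Fin 2) : Finset (Pt q) :=
  univ.filter fun p => OnLine p (crossSide j) ∧ ¬ IsCen p ∧ ¬ OnW p

theorem mem_crossBase {j : Fin 2 × Fin 2} {p : Pt q} :
    p ∈ crossBase j ↔ OnLine p (crossSide j) ∧ ¬ IsCen p ∧ ¬ OnW p := by
  simp [crossBase]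

open Classical in
theorem crossPts_eq {Λ : Layout q K} (h : LayoutOK Λ) (ω : Coord q → K) (dir : Slope q → K)
    (Z : Slope q → Finset (Slope q)) (j : Fin 2 × Fin 2) :
    (Λ.toData ω dir Z).crossPts j = crossBase j := by
  ext p
  simp only [Data.crossPts, crossBase, Data.pts, mem_filter, mem_univ, true_and]
  constructor
  · rintro ⟨hk, hj⟩
    have hcr : OnCross p := ⟨j, hj⟩
    rcases hk with ⟨hpl, -⟩ | ⟨i, g, z, rfl⟩ | hw | ⟨-, hc, hw⟩
    · exact absurd (Or.inr hcr) hpl.1
    · exact absurd hcr (h.om_off i g z).2.1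
    · exact absurd (Or.inr hcr) (wp_not_side h hw)
    · exact ⟨hj, hc, hw⟩
  · rintro ⟨hj, hc, hw⟩
    exact ⟨Or.inr (Or.inr (Or.inr ⟨⟨j, hj⟩, hc, hw⟩)), hj⟩

open Classical in
theorem card_crossBase (hq : 1000 ≤ q) (j : Fin 2 × Fin 2) :
    q ≤ (crossBase (q := q) j).card + 8 := by
  have hsub : (univ.filter fun p : Pt q => OnLine p (crossSide j)) ⊆
      crossBase j ∪ (({cen (crossA j), cen (crossC j)} : Finset (Pt q)) ∪
        ((univ : Finset (Fin 6)).biUnion fun i =>
          univ.filter fun p : Pt q => OnLine p (crossSide j) ∧ OnLine p (wLine i))) := by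
    intro p hp
    simp only [mem_filter, mem_univ, true_and, mem_union, mem_biUnion,
      mem_insert, mem_singleton, mem_crossBase] at hp ⊢
    by_cases hc : IsCen p
    · obtain ⟨a, rfl⟩ := hc
      rcases (cen_on_crossSide hq a j).1 hp with rfl | rfl <;> simp
    · by_cases hw : OnW p
      · obtain ⟨i, hi⟩ := hw
        exact Or.inr (Or.inr ⟨i, hp, hi⟩)
      · exact Or.inl ⟨hp, hc, hw⟩
  have h1 := (card_le_card hsub).trans ((card_union_le _ _).trans
    (add_le_add le_rfl (card_union_le _ _)))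
  have h2 := card_biUnion_le_card_mul (univ : Finset (Fin 6))
    (fun i => univ.filter fun p : Pt q => OnLine p (crossSide j) ∧ OnLine p (wLine i)) 1
    fun i _ => card_meet_le fun e =>
      cen_not_on_wLine hq (crossA j) i (e ▸ (cen_on_crossSide hq _ j).2 (Or.inl rfl))
  have h3 := card_le_two (a := (cen (crossA j) : Pt q)) (b := cen (crossC j))
  rw [show (univ.filter fun p : Pt q => OnLine p (crossSide j)).card = q by
    convert card_onLine (crossSide (q := q) j)] at h1
  simp only [card_univ, Fintype.card_fin] at h2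
  omega

open Classical in
/-- The auxiliary points of a line other than an auxiliary one are at most six. -/
theorem card_wPts_le {Λ : Layout q K} (h : LayoutOK Λ) (ω : Coord q → K) (dir : Slope q → K)
    (Z : Slope q → Finset (Slope q)) {l : Line q} (hl : ∀ i, l ≠ wLine i) :
    (univ.filter fun p : Pt q => (Λ.toData ω dir Z).IsW p ∧ OnLine p l).card ≤ 6 := by
  refine le_trans (card_le_card (t := (univ : Finset (Fin 6)).biUnion fun i =>
    univ.filter fun p : Pt q => OnLine p l ∧ OnLine p (wLine i)) fun p hp => ?_) ?_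
  · simp only [mem_filter, mem_univ, true_and, mem_biUnion] at hp ⊢
    obtain ⟨⟨l', i, x, rfl⟩, hpl⟩ := hp
    exact ⟨l', hpl, (h.wp_line l' i x).1⟩
  · refine (card_biUnion_le_card_mul _ _ 1 fun i _ => card_meet_le (hl i)).trans ?_
    simp

open Classical in
/-- Points of the construction on a line, off the sides. -/
theorem linePts_subset {Λ : Layout q K} (h : LayoutOK Λ) (ω : Coord q → K) (dir : Slope q → K)
    (Z : Slope q → Finset (Slope q)) (l : Line q) :
    (Λ.toData ω dir Z).linePts l ⊆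
      plainPts l ∪ univ.filter fun p : Pt q => (Λ.toData ω dir Z).IsW p ∧ OnLine p l := by
  intro p hp
  simp only [Data.linePts, Data.pts, mem_filter, mem_univ, true_and] at hp
  obtain ⟨hk, hpl, hs⟩ := hp
  simp only [mem_union, mem_plain, mem_filter, mem_univ, true_and]
  rcases hk with ⟨hp', -⟩ | ⟨i, g, z, rfl⟩ | hw | ⟨hc, -⟩
  · exact Or.inl ⟨hp', hpl⟩
  · exact absurd (Or.inl ⟨i, h.om_side i g z⟩) hs
  · exact Or.inr ⟨hw, hpl⟩
  · exact absurd (Or.inr hc) hs

theorem col_ne_row (hq : 1000 ≤ q) {p : Pt q} (h : Plain p) : col p ≠ row p := by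
  intro e
  have h0 := onLine_slopeTo (cen (q := q) 0) p
  have h1 := onLine_slopeTo (cen (q := q) 1) p
  have hl : lineThru (cen (q := q) 0) (col p) = lineThru (cen 1) (row p) := by
    refine Eq.trans ?_ (lineThru_eq (l := lineThru (cen 1) (row p)) h1)
    rw [lineThru_fst, ← e]
    exact (lineThru_eq (l := lineThru (cen 0) (col p)) h0).symm.trans (by rw [lineThru_fst])
  have hc : OnLine (cen (q := q) 1) (lineThru (cen 0) (col p)) :=
    hl ▸ onLine_lineThru _ _
  rcases two_cen hq (a := 0) (b := 1) (by decide) (onLine_lineThru _ _) hc with ⟨i, hi⟩ | ⟨j, hj⟩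
  · exact h.1 (Or.inl ⟨i, hi ▸ h0⟩)
  · exact h.1 (Or.inr ⟨j, hj ▸ h0⟩)

omit [Fact q.Prime] in
/-- Two different lines of labels share at most one label. -/
theorem vline_unique {ξ ξ' : Option K × K} (h : ξ ≠ ξ') {v v' : K × K}
    (h1 : Data.InVLine ξ v) (h2 : Data.InVLine ξ' v) (h3 : Data.InVLine ξ v')
    (h4 : Data.InVLine ξ' v') : v = v' := by
  rcases ξ with ⟨_ | d, c⟩ <;> rcases ξ' with ⟨_ | d', c'⟩ <;>
    simp only [Data.InVLine, coset] at h1 h2 h3 h4
  · exact absurd (by rw [← h1, ← h2]) h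
  · refine Prod.ext (h1.trans h3.symm) ?_
    rw [h1] at h2; rw [h3] at h4
    linear_combination h2 - h4
  · refine Prod.ext (h2.trans h4.symm) ?_
    rw [h2] at h1; rw [h4] at h3
    linear_combination h1 - h3
  · have hd : d ≠ d' := fun e => h (by subst e; rw [← h1, ← h2])
    have e : v.1 = v'.1 := by
      have h5 : (d - d') * (v.1 - v'.1) = 0 := by linear_combination h3 - h1 + h2 - h4
      exact sub_eq_zero.1 ((mul_eq_zero.1 h5).resolve_left (sub_ne_zero.2 hd))
    refine Prod.ext e ?_
    linear_combination h1 - h3 + d * e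

open Classical in
/-- A monic quadratic has at most two roots. -/
theorem card_quad_le (d b : K) : (univ.filter fun x : K => x ^ 2 - d * x + b = 0).card ≤ 2 := by
  by_contra hne
  push Not at hne
  obtain ⟨x, hx, y, hy, z, hz, hxy, hxz, hyz⟩ := two_lt_card.1 hne
  simp only [mem_filter, mem_univ, true_and] at hx hy hz
  have h1 : (x - y) * (x + y - d) = 0 := by linear_combination hx - hy
  have h2 : (x - z) * (x + z - d) = 0 := by linear_combination hx - hz
  have h3 := (mul_eq_zero.1 h1).resolve_left (sub_ne_zero.2 hxy)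
  have h4 := (mul_eq_zero.1 h2).resolve_left (sub_ne_zero.2 hxz)
  exact hyz (by linear_combination h3 - h4)

end Vale.Agent.P045
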