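import Mathlib
import Vale.Agent.P045.LabelPairs
import Vale.Agent.P045.LabelLower
import Vale.Agent.P045.StageGeom

/-!
# P045: the bad events of stage A and their probabilities
-/

namespace Vale.Agent.P045

open Finset

variable {q : ℕ} [Fact q.Prime] {K : Type*} [Field K] [Fintype K] [DecidableEq K]

section Cards

theorem card_prod_le_pow {A B : Type*} [Fintype A] [Fintype B] {a b : ℕ}
    (ha : Fintype.card A ≤ 2 ^ a) (hb : Fintype.card B ≤ 2 ^ b) :
    Fintype.card (A × B) ≤ 2 ^ (a + b) := by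
  rw [Fintype.card_prod, pow_add]
  exact Nat.mul_le_mul ha hb

omit [Fact q.Prime] [Field K] [DecidableEq K] in
theorem Big.q_hi (h : Big q K) : q ≤ 2 ^ 2039 := by
  have h2 := h.hi
  rw [h.card_eq, ← pow_mul, show 1024 * 2 = 9 + 2039 by norm_num, pow_add] at h2
  have e : (512 : ℕ) = 2 ^ 9 := by norm_num
  rw [e] at h2
  exact Nat.le_of_mul_le_mul_left h2 (Nat.two_pow_pos 9)

omit [Field K] [DecidableEq K] in
theorem Big.card_pow (h : Big q K) :
    Fintype.card K ≤ 2 ^ 1024 ∧ Fintype.card (Option K × K) ≤ 2 ^ 2049 ∧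
      Fintype.card (Slope q) ≤ 2 ^ 2040 ∧ Fintype.card (Line q) ≤ 2 ^ 4080 ∧
      Fintype.card (Pt q) ≤ 2 ^ 4078 := by
  have hK : Fintype.card K ≤ 2 ^ 1024 := h.card_eq.le
  have hO : Fintype.card (Option K) ≤ 2 ^ 1025 := by
    have h1 := Nat.one_le_two_pow (n := 1024)
    rw [Fintype.card_option, h.card_eq, pow_succ 2 1024]
    omega
  have hq : Fintype.card (ZMod q) ≤ 2 ^ 2039 := by
    rw [ZMod.card]
    exact h.q_hi
  have hS : Fintype.card (Slope q) ≤ 2 ^ 2040 := by
    have h1 := Nat.one_le_two_pow (n := 2039)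
    rw [Fintype.card_option, pow_succ 2 2039]
    omega
  refine ⟨hK, ?_, hS, ?_, ?_⟩
  · exact (card_prod_le_pow hO hK).trans (le_of_eq (by norm_num))
  · exact (card_prod_le_pow hS hq).trans (Nat.pow_le_pow_right (by norm_num) (by norm_num))
  · exact (card_prod_le_pow hq hq).trans (le_of_eq (by norm_num))

theorem half_pow_mul {a b : ℕ} (h : a ≤ b) :
    (2 : ℝ) ^ a * (1 / 2 : ℝ) ^ b = (1 / 2 : ℝ) ^ (b - a) := by
  obtain ⟨c, rfl⟩ := Nat.exists_eq_add_of_le h
  rw [pow_add, ← mul_assoc, ← mul_pow, Nat.add_sub_cancel_left]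
  norm_num

theorem half_pow_small {n : ℕ} (h : 20 ≤ n) : (1 / 2 : ℝ) ^ n ≤ 1 / 100000 :=
  (pow_le_pow_of_le_one (by norm_num) (by norm_num) h).trans (by norm_num)

theorem prob_exists_card {J : Type*} [Fintype J] (bad : J → (Coord q → K) → Prop) {e : ℝ}
    (h : ∀ j, prob (bad j) ≤ e) : prob (fun ω => ∃ j, bad j ω) ≤ Fintype.card J * e := by
  have h1 : prob (fun ω => ∃ j ∈ (univ : Finset J), bad j ω) ≤
      (univ : Finset J).card * e := prob_exists_le_mul univ bad _ fun j _ => h j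
  simpa using h1

/-- A family of few events, each of probability `O(eps)`, is unlikely. -/
theorem fam_small {J : Type*} [Fintype J] (bad : J → (Coord q → K) → Prop) {C : ℝ} {a : ℕ}
    (hC0 : 0 ≤ C) (hC : C ≤ 100) (hJ : Fintype.card J ≤ 2 ^ a) (ha : a ≤ 12000)
    (h : ∀ j, prob (bad j) ≤ C * eps) : prob (fun ω => ∃ j, bad j ω) ≤ 1 / 100 := by
  have h1 : prob (fun ω => ∃ j ∈ (univ : Finset J), bad j ω) ≤
      (univ : Finset J).card * (C * eps) := prob_exists_le_mul univ bad _ fun j _ => h j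
  have h2 : prob (fun ω => ∃ j, bad j ω) ≤ Fintype.card J * (C * eps) := by
    simpa using h1
  refine h2.trans ?_
  have hb : nTail - a ≥ 20 := by simp only [nTail]; omega
  calc (Fintype.card J : ℝ) * (C * eps) ≤ (2 : ℝ) ^ a * (100 * eps) := by
        refine mul_le_mul (by exact_mod_cast hJ) ?_ (mul_nonneg hC0 eps_nonneg) (by positivity)
        exact mul_le_mul_of_nonneg_right hC eps_nonneg
    _ = 100 * (1 / 2 : ℝ) ^ (nTail - a) := by
        rw [mul_left_comm, eps, half_pow_mul (by simp only [nTail]; omega)]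
    _ ≤ 100 * (1 / 100000) := mul_le_mul_of_nonneg_left (half_pow_small hb) (by norm_num)
    _ ≤ 1 / 100 := by norm_num

theorem prob_guard {P : Prop} {E : (Coord q → K) → Prop} {c : ℝ} (hc : 0 ≤ c)
    (h : P → prob E ≤ c) : prob (fun ω => P ∧ E ω) ≤ c := by
  by_cases hP : P
  · exact (prob_mono fun ω hω => hω.2).trans (h hP)
  · exact (prob_eq_zero fun ω hω => hP hω.1).le.trans hc

end Cards

variable (Λ : Layout q K)

/-- A hit seen from centre `b` at a point. -/
def PHit (b : Fin 4) (ξ : Option K × K) (ω : Coord q → K) (p : Pt q) : Prop :=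
  Hit Λ b (slopeTo (cen b) p) ξ ω

open Classical in
/-- The events wanted in stage A. -/
structure LabelsOK (ω : Coord q → K) : Prop where
  load : ∀ a ξ, (univ.filter fun t : Slope q => Hit Λ a t ξ ω).card ≤ loadMax q K
  mult : ∀ a (v : K × K), (univ.filter fun t : Slope q =>
    Hit Λ a t (some 0, v.2) ω ∧ Hit Λ a t (none, v.1) ω).card ≤ 2 ^ 23
  pair : ∀ d c c', (univ.filter fun t : Slope q =>
    Hit Λ 0 t (some d, c) ω ∧ Hit Λ 1 t (some d, c') ω).card ≤ 2 ^ 23
  star : ∀ u v, (univ.filter fun s : Slope q => StarEv Λ 0 1 s s u v ω).card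
    ≤ 2 ^ 16 * Fintype.card K
  band : ∀ a l ξ, Role a l →
    q ≤ 64 * Fintype.card K * ((plainPts l).filter (PHit Λ (partner a) ξ ω)).card
  sameBand : ∀ a l ξ, Role a l → a ≠ 0 → a ≠ 1 →
    ((plainPts l).filter fun p =>
      PHit Λ (partner a) ξ ω p ∧ SameY Λ (col p) (row p) ω).card ≤ 2 ^ 23
  sameLine : ∀ l : Line q, ¬ OnLine (cen 0) l → ¬ OnLine (cen 1) l →
    ((plainPts l).filter fun p => SameY Λ (col p) (row p) ω).card ≤ 2 ^ 15 * Fintype.card K
  spread : ∀ a l pb A Ξ, Role a l → Ξ.card ≤ 3 * Fintype.card K →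
    q * (region pb A Ξ).card ≤ 28 * Fintype.card K ^ 2 *
      (((plainPts l).filter fun p =>
        Λ.labels ω (partner a) (slopeTo (cen (partner a)) p) ∈ region pb A Ξ).card +
          2 ^ 15 * Fintype.card K)
  starBand : ∀ (a : Fin 4) (γ : Fin 2) l ξ (u v : K × K), Role a l →
    a ≠ fstC γ → a ≠ sndC γ →
    ((plainPts l).filter fun p => PHit Λ (partner a) ξ ω p ∧
      StarEv Λ (fstC γ) (sndC γ) (slopeTo (cen (fstC γ)) p) (slopeTo (cen (sndC γ)) p)
        u v ω).card ≤ 2 ^ 23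
  cell : ∀ (γ : Fin 2) l d c₁ c₂, ¬ OnLine (cen (fstC γ)) l → ¬ OnLine (cen (sndC γ)) l →
    ((plainPts l).filter fun p =>
      PHit Λ (fstC γ) (some d, c₁) ω p ∧ PHit Λ (sndC γ) (some d, c₂) ω p).card ≤ 2 ^ 23
  piece : ∀ j x z, ((crossBase j).filter fun p =>
    PHit Λ (partner (crossA j)) (none, x) ω p ∧
      PHit Λ (partner (crossC j)) (none, z) ω p).card ≤ 2 ^ 23
  bandLine : ∀ j a c x d e, ((a = crossA j ∧ c = crossC j) ∨ (a = crossC j ∧ c = crossA j)) →
    ((crossBase j).filter fun p =>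
      PHit Λ (partner c) (some d, e) ω p ∧ PHit Λ (partner a) (none, x) ω p).card ≤ 2 ^ 23
  crossBand : ∀ j a x, a = crossA j ∨ a = crossC j →
    q ≤ 64 * Fintype.card K * ((crossBase j).filter (PHit Λ (partner a) (none, x) ω)).card
  ne01 : ∀ s : Slope q, ¬ IsSideSlope s → Λ.labels ω 0 s ≠ Λ.labels ω 1 s
  mate : ∀ j P, OnLine P (crossSide j) → ¬ IsCen P →
    (∀ j', OnLine P (crossSide j') → j' = j) →
    ∃ p ∈ crossBase j, p ≠ P ∧ ∀ a, a = crossA j ∨ a = crossC j →
      key (partner a) (slopeTo (cen (partner a)) p) =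
        key (partner a) (slopeTo (cen (partner a)) P) ∧
      (Λ.labels ω (partner a) (slopeTo (cen (partner a)) p)).2 ≠
        (Λ.labels ω (partner a) (slopeTo (cen (partner a)) P)).2

variable {Λ}

theorem card_plain_le (l : Line q) : (plainPts l).card ≤ q := by
  classical
  conv_rhs => rw [← card_onLine l]
  exact card_le_card fun p hp => mem_filter.2 ⟨mem_univ _, (mem_plain.1 hp).2⟩

theorem plain_injOn {l : Line q} {a : Fin 4} (h : ¬ OnLine (cen a) l) :
    Set.InjOn (slopeTo (cen a)) (plainPts l : Set (Pt q)) :=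
  fun _p hp _p' hp' e => slopeTo_injOn h (mem_plain.1 hp).2 (mem_plain.1 hp').2 e

theorem cross_injOn (hq : 1000 ≤ q) {a : Fin 4} {j : Fin 2 × Fin 2}
    (ha : a = crossA j ∨ a = crossC j) :
    Set.InjOn (slopeTo (cen (partner a))) ((crossBase j : Finset (Pt q)) : Set (Pt q)) :=
  fun _p hp _p' hp' e => slopeTo_injOn (partner_not_on_cross hq ha) (mem_crossBase.1 hp).1
    (mem_crossBase.1 hp').1 e

theorem card_crossBase_le (j : Fin 2 × Fin 2) : (crossBase (q := q) j).card ≤ q := by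
  classical
  conv_rhs => rw [← card_onLine (crossSide (q := q) j)]
  exact card_le_card fun p hp => mem_filter.2 ⟨mem_univ _, (mem_crossBase.1 hp).1⟩

omit [Field K] [DecidableEq K] in
theorem Big.small_le_sq (h : Big q K) {n : ℕ} (hn : n ≤ q + 1) : n ≤ Fintype.card K ^ 2 := by
  have := h.q_succ
  omega

omit [Field K] [DecidableEq K] in
theorem Big.q_ge (h : Big q K) : 1000 ≤ q := by
  have := h.q_large
  have := h.m_large
  omega

variable (hΛ : LayoutOK Λ) (hB : Big q K)
include hΛ hB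

open Classical in
theorem prob_load : prob (fun ω => ∃ j : Fin 4 × (Option K × K), loadMax q K <
    (univ.filter fun t : Slope q => Hit Λ j.1 t j.2 ω).card) ≤ 1 / 100 :=
  fam_small _ (C := 12) (a := 2 + 2049) (by norm_num) (by norm_num)
    (card_prod_le_pow (by simp) hB.card_pow.2.1) (by norm_num) fun j => hΛ.hit_load hB j.1 j.2

open Classical in
theorem prob_mult : prob (fun ω => ∃ j : Fin 4 × (K × K), 2 ^ 23 < (univ.filter fun t : Slope q =>
    Hit Λ j.1 t (some 0, j.2.2) ω ∧ Hit Λ j.1 t (none, j.2.1) ω).card) ≤ 1 / 100 := by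
  refine fam_small _ (C := 48) (a := 2 + (1024 + 1024)) (by norm_num) (by norm_num)
    (card_prod_le_pow (by simp) (card_prod_le_pow hB.card_pow.1 hB.card_pow.1)) (by norm_num)
    fun j => ?_
  refine hΛ.two_hits hB univ ?_ j.1 j.1 id id (Set.injOn_id _) (Set.injOn_id _) _ _ ?_ ?_
  · exact hB.small_le_sq (by rw [card_univ, card_slope])
  · intro y _ y' _
    simp [hitCoord, hitReads, xCoord, yCoord]
  · intro cb hcb y _ y' _ hne hcol
    simp only [hitCoord, hitReads, id_eq, Option.isSome_none, Option.isSome_some,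
      Bool.false_eq_true, if_false, if_true, Set.mem_insert_iff, Set.mem_singleton_iff, not_or]
    exact ⟨fun h => hne (hcb y y' (xCoord_inj h).2 hcol), xCoord_ne_yCoord _ _ _ _⟩

open Classical in
theorem prob_pair : prob (fun ω => ∃ j : K × K × K, 2 ^ 23 < (univ.filter fun t : Slope q =>
    Hit Λ 0 t (some j.1, j.2.1) ω ∧ Hit Λ 1 t (some j.1, j.2.2) ω).card) ≤ 1 / 100 := by
  refine fam_small _ (C := 48) (a := 1024 + (1024 + 1024)) (by norm_num) (by norm_num)
    (card_prod_le_pow hB.card_pow.1 (card_prod_le_pow hB.card_pow.1 hB.card_pow.1)) (by norm_num)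
    fun j => ?_
  refine hΛ.two_hits hB univ ?_ 0 1 id id (Set.injOn_id _) (Set.injOn_id _) _ _ ?_ ?_
  · exact hB.small_le_sq (by rw [card_univ, card_slope])
  · intro y _ y' _
    simp [hitCoord, hitReads, xCoord, yCoord]
  · intro cb _ y _ y' _ _ _
    simp [hitCoord, hitReads, xCoord, yCoord]

open Classical in
theorem prob_star : prob (fun ω => ∃ j : (K × K) × (K × K), 2 ^ 16 * Fintype.card K <
    (univ.filter fun s : Slope q => StarEv Λ 0 1 s s j.1 j.2 ω).card) ≤ 1 / 100 :=
  fam_small _ (C := 1) (a := (1024 + 1024) + (1024 + 1024)) (by norm_num) (by norm_num)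
    (card_prod_le_pow (card_prod_le_pow hB.card_pow.1 hB.card_pow.1)
      (card_prod_le_pow hB.card_pow.1 hB.card_pow.1)) (by norm_num)
    fun j => by simpa using hΛ.star_slopes hB j.1 j.2

open Classical in
theorem prob_band : prob (fun ω => ∃ j : Fin 4 × Line q × (Option K × K), Role j.1 j.2.1 ∧
    64 * Fintype.card K * ((plainPts j.2.1).filter (PHit Λ (partner j.1) j.2.2 ω)).card < q)
      ≤ 1 / 100 := by
  refine fam_small _ (C := 1) (a := 2 + (4080 + 2049)) (by norm_num) (by norm_num)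
    (card_prod_le_pow (by simp) (card_prod_le_pow hB.card_pow.2.2.2.1 hB.card_pow.2.1))
    (by norm_num) fun j => ?_
  refine prob_guard (mul_nonneg one_pos.le eps_nonneg) fun hr => ?_
  have h1 := (hr.loose hB.q_ge).card_plain
  rw [one_mul]
  exact hΛ.hit_lower hB (plainPts j.2.1) (partner j.1) _
    (plain_injOn (hr.2 _ (partner_ne _))) (by omega) j.2.2

open Classical in
theorem prob_sameBand : prob (fun ω => ∃ j : Fin 4 × Line q × (Option K × K),
    (Role j.1 j.2.1 ∧ j.1 ≠ 0 ∧ j.1 ≠ 1) ∧ 2 ^ 23 < ((plainPts j.2.1).filter fun p =>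
      PHit Λ (partner j.1) j.2.2 ω p ∧ SameY Λ (col p) (row p) ω).card) ≤ 1 / 100 := by
  refine fam_small _ (C := 30) (a := 2 + (4080 + 2049)) (by norm_num) (by norm_num)
    (card_prod_le_pow (by simp) (card_prod_le_pow hB.card_pow.2.2.2.1 hB.card_pow.2.1))
    (by norm_num) fun j => ?_
  refine prob_guard (mul_nonneg (by norm_num) eps_nonneg) fun hr => ?_
  have hb0 : partner j.1 ≠ 0 := by
    have T : ∀ a : Fin 4, a ≠ 1 → partner a ≠ 0 := by decide
    exact T _ hr.2.2
  refine le_trans (le_of_eq ?_) (hΛ.same_hit hB (plainPts j.2.1)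
    (hB.small_le_sq ((card_plain_le _).trans (Nat.le_succ _))) (partner j.1) hb0
    (slopeTo (cen (partner j.1))) col row (plain_injOn (hr.1.2 _ (partner_ne _)))
    (plain_injOn (hr.1.2 0 (Ne.symm hr.2.1))) (plain_injOn (hr.1.2 1 (Ne.symm hr.2.2)))
    (fun p hp => col_ne_row hB.q_ge (mem_plain.1 hp).1) j.2.2)
  refine congrArg prob (funext fun ω => ?_)
  simp only [PHit]
  congr!

open Classical in
theorem prob_sameLine : prob (fun ω => ∃ l : Line q,
    (¬ OnLine (cen 0) l ∧ ¬ OnLine (cen 1) l) ∧ 2 ^ 15 * Fintype.card K <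
      ((plainPts l).filter fun p => SameY Λ (col p) (row p) ω).card) ≤ 1 / 100 := by
  refine fam_small _ (C := 3) (a := 4080) (by norm_num) (by norm_num) hB.card_pow.2.2.2.1
    (by norm_num) fun l => ?_
  refine prob_guard (mul_nonneg (by norm_num) eps_nonneg) fun hl => ?_
  exact hΛ.same_points hB (plainPts l) col row (plain_injOn hl.1) (plain_injOn hl.2)
    fun p hp => col_ne_row hB.q_ge (mem_plain.1 hp).1

open Classical in
theorem prob_spread : prob (fun ω => ∃ j : Fin 4 × Line q × (K × K) × Finset K ×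
    (Fin (3 * Fintype.card K) → Option (Option K × K)), Role j.1 j.2.1 ∧
      28 * Fintype.card K ^ 2 * (((plainPts j.2.1).filter fun p =>
        Λ.labels ω (partner j.1) (slopeTo (cen (partner j.1)) p) ∈
          region j.2.2.1 j.2.2.2.1 (univ.filter fun ξ => ∃ i, j.2.2.2.2 i = some ξ)).card +
          2 ^ 15 * Fintype.card K) <
        q * (region j.2.2.1 j.2.2.2.1 (univ.filter fun ξ => ∃ i, j.2.2.2.2 i = some ξ)).card)
      ≤ 1 / 100 := by
  set m := Fintype.card K with hm
  have hO : Fintype.card (Option (Option K × K)) ≤ 2 ^ 2050 := by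
    have h1 := Nat.one_le_two_pow (n := 2049)
    have h2 := hB.card_pow.2.1
    rw [Fintype.card_option, pow_succ 2 2049]
    omega
  have hF : Fintype.card (Fin (3 * m) → Option (Option K × K)) ≤ 2 ^ (2050 * (3 * m)) := by
    rw [Fintype.card_fun, Fintype.card_fin, pow_mul 2 2050 (3 * m)]
    exact Nat.pow_le_pow_left hO _
  have hJ : Fintype.card (Fin 4 × Line q × (K × K) × Finset K ×
      (Fin (3 * m) → Option (Option K × K))) ≤
      2 ^ (2 + (4080 + ((1024 + 1024) + (m + 2050 * (3 * m))))) :=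
    card_prod_le_pow (by simp) (card_prod_le_pow hB.card_pow.2.2.2.1
      (card_prod_le_pow (card_prod_le_pow hB.card_pow.1 hB.card_pow.1)
        (card_prod_le_pow (by rw [Fintype.card_finset]) hF)))
  refine le_trans (prob_exists_card _ (e := (1 / 2 : ℝ) ^ (2 ^ 15 * m)) fun j => ?_) ?_
  · refine prob_guard (by positivity) fun hr => ?_
    have h1 := (hr.loose hB.q_ge).card_plain
    exact hΛ.pair_lower hB (plainPts j.2.1) (partner j.1) _
      (plain_injOn (hr.2 _ (partner_ne _))) (by omega) _ _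
  · have hml := hB.m_large
    refine le_trans (mul_le_mul_of_nonneg_right
      (show ((Fintype.card (Fin 4 × Line q × (K × K) × Finset K ×
          (Fin (3 * m) → Option (Option K × K))) : ℕ) : ℝ) ≤ (2 : ℝ) ^
        (2 + (4080 + ((1024 + 1024) + (m + 2050 * (3 * m))))) by exact_mod_cast hJ)
      (by positivity)) ?_
    rw [half_pow_mul (by omega)]
    exact (half_pow_small (by omega)).trans (by norm_num)

open Classical in
theorem prob_starBand : prob (fun ω => ∃ j : Fin 4 × Fin 2 × Line q × (Option K × K) ×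
    (K × K) × (K × K), (Role j.1 j.2.2.1 ∧ j.1 ≠ fstC j.2.1 ∧ j.1 ≠ sndC j.2.1) ∧
    2 ^ 23 < ((plainPts j.2.2.1).filter fun p => PHit Λ (partner j.1) j.2.2.2.1 ω p ∧
      StarEv Λ (fstC j.2.1) (sndC j.2.1) (slopeTo (cen (fstC j.2.1)) p)
        (slopeTo (cen (sndC j.2.1)) p) j.2.2.2.2.1 j.2.2.2.2.2 ω).card) ≤ 1 / 100 := by
  refine fam_small _ (C := 18) (a := 2 + (1 + (4080 + (2049 + ((1024 + 1024) + (1024 + 1024))))))
    (by norm_num) (by norm_num)
    (card_prod_le_pow (by simp) (card_prod_le_pow (by simp) (card_prod_le_pow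
      hB.card_pow.2.2.2.1 (card_prod_le_pow hB.card_pow.2.1 (card_prod_le_pow
        (card_prod_le_pow hB.card_pow.1 hB.card_pow.1)
        (card_prod_le_pow hB.card_pow.1 hB.card_pow.1))))))
    (by norm_num) fun j => ?_
  refine prob_guard (mul_nonneg (by norm_num) eps_nonneg) fun hr => ?_
  obtain ⟨a, γ, l, ξ, u, v⟩ := j
  obtain ⟨hR, hc, he⟩ := hr
  have T : ∀ (a : Fin 4) (γ : Fin 2), a ≠ fstC γ → a ≠ sndC γ →
      fstC γ ≠ sndC γ ∧ grpOf (partner a) ≠ grpOf (fstC γ) ∧
        grpOf (partner a) ≠ grpOf (sndC γ) := by decide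
  obtain ⟨hce, hbc, hbe⟩ := T a γ hc he
  exact hΛ.star_hit hB (plainPts l) (hB.small_le_sq ((card_plain_le _).trans (Nat.le_succ _)))
    (partner a) (fstC γ) (sndC γ) (slopeTo (cen (partner a))) (slopeTo (cen (fstC γ)))
    (slopeTo (cen (sndC γ))) (plain_injOn (hR.2 _ (partner_ne _)))
    (plain_injOn (hR.2 _ (Ne.symm hc))) (plain_injOn (hR.2 _ (Ne.symm he))) hce hbc hbe ξ u v

open Classical in
theorem prob_cell : prob (fun ω => ∃ j : Fin 2 × Line q × K × K × K,
    (¬ OnLine (cen (fstC j.1)) j.2.1 ∧ ¬ OnLine (cen (sndC j.1)) j.2.1) ∧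
    2 ^ 23 < ((plainPts j.2.1).filter fun p =>
      PHit Λ (fstC j.1) (some j.2.2.1, j.2.2.2.1) ω p ∧
        PHit Λ (sndC j.1) (some j.2.2.1, j.2.2.2.2) ω p).card) ≤ 1 / 100 := by
  refine fam_small _ (C := 48) (a := 1 + (4080 + (1024 + (1024 + 1024))))
    (by norm_num) (by norm_num)
    (card_prod_le_pow (by simp) (card_prod_le_pow hB.card_pow.2.2.2.1 (card_prod_le_pow
      hB.card_pow.1 (card_prod_le_pow hB.card_pow.1 hB.card_pow.1))))
    (by norm_num) fun j => ?_
  refine prob_guard (mul_nonneg (by norm_num) eps_nonneg) fun hl => ?_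
  obtain ⟨γ, l, d, c₁, c₂⟩ := j
  have T : ∀ γ : Fin 2, fstC γ ≠ sndC γ := by decide
  have hne := T γ
  refine hΛ.two_hits hB (plainPts l) (hB.small_le_sq ((card_plain_le _).trans (Nat.le_succ _)))
    (fstC γ) (sndC γ) _ _ (plain_injOn hl.1) (plain_injOn hl.2) _ _ ?_ ?_
  · intro y _ y' _
    simp [hitCoord, hitReads, xCoord, yCoord, hne]
  · intro cb _ y _ y' _ _ _
    simp [hitCoord, hitReads, xCoord, yCoord, hne.symm]

open Classical in
theorem prob_piece : prob (fun ω => ∃ j : (Fin 2 × Fin 2) × K × K,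
    2 ^ 23 < ((crossBase j.1).filter fun p =>
      PHit Λ (partner (crossA j.1)) (none, j.2.1) ω p ∧
        PHit Λ (partner (crossC j.1)) (none, j.2.2) ω p).card) ≤ 1 / 100 := by
  refine fam_small _ (C := 48) (a := (1 + 1) + (1024 + 1024)) (by norm_num) (by norm_num)
    (card_prod_le_pow (card_prod_le_pow (by simp) (by simp))
      (card_prod_le_pow hB.card_pow.1 hB.card_pow.1))
    (by norm_num) fun j => ?_
  have T : ∀ j : Fin 2 × Fin 2, grpOf (partner (crossA j)) ≠ grpOf (partner (crossC j)) := by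
    decide
  refine hΛ.two_hits hB (crossBase j.1)
    (hB.small_le_sq ((card_crossBase_le _).trans (Nat.le_succ _))) _ _ _ _
    (cross_injOn hB.q_ge (Or.inl rfl)) (cross_injOn hB.q_ge (Or.inr rfl)) _ _ ?_ ?_
  · intro y _ y' _
    simp [hitCoord, hitReads, xCoord, T j.1]
  · intro cb _ y _ y' _ _ _
    simp [hitCoord, hitReads, xCoord, (T j.1).symm]

open Classical in
theorem prob_bandLine : prob (fun ω => ∃ j : (Fin 2 × Fin 2) × (Fin 4 × Fin 4) × K × K × K,
    ((j.2.1.1 = crossA j.1 ∧ j.2.1.2 = crossC j.1) ∨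
      (j.2.1.1 = crossC j.1 ∧ j.2.1.2 = crossA j.1)) ∧
    2 ^ 23 < ((crossBase j.1).filter fun p =>
      PHit Λ (partner j.2.1.2) (some j.2.2.2.1, j.2.2.2.2) ω p ∧
        PHit Λ (partner j.2.1.1) (none, j.2.2.1) ω p).card) ≤ 1 / 100 := by
  refine fam_small _ (C := 48) (a := (1 + 1) + ((2 + 2) + (1024 + (1024 + 1024))))
    (by norm_num) (by norm_num)
    (card_prod_le_pow (card_prod_le_pow (by simp) (by simp)) (card_prod_le_pow
      (card_prod_le_pow (by simp) (by simp))
      (card_prod_le_pow hB.card_pow.1 (card_prod_le_pow hB.card_pow.1 hB.card_pow.1))))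
    (by norm_num) fun j => ?_
  refine prob_guard (mul_nonneg (by norm_num) eps_nonneg) fun hac => ?_
  obtain ⟨j, ⟨a, c⟩, x, d, e⟩ := j
  have T : ∀ j : Fin 2 × Fin 2, grpOf (partner (crossA j)) ≠ grpOf (partner (crossC j)) ∧
      partner (crossA j) ≠ partner (crossC j) := by decide
  have hg : grpOf (partner a) ≠ grpOf (partner c) ∧ partner a ≠ partner c := by
    rcases hac with ⟨ha, hc⟩ | ⟨ha, hc⟩
    · simp only at ha hc
      rw [ha, hc]; exact T j
    · simp only at ha hc
      rw [ha, hc]; exact ⟨(T j).1.symm, (T j).2.symm⟩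
  refine hΛ.two_hits hB (crossBase j)
    (hB.small_le_sq ((card_crossBase_le _).trans (Nat.le_succ _))) _ _ _ _
    (cross_injOn hB.q_ge (hac.elim (fun h => Or.inr h.2) fun h => Or.inl h.2))
    (cross_injOn hB.q_ge (hac.elim (fun h => Or.inl h.1) fun h => Or.inr h.1)) _ _ ?_ ?_
  · intro y _ y' _
    simp [hitCoord, hitReads, xCoord, yCoord]
  · intro cb _ y _ y' _ _ _
    simp [hitCoord, hitReads, xCoord, yCoord, hg.1]

open Classical in
theorem prob_crossBand : prob (fun ω => ∃ j : (Fin 2 × Fin 2) × Fin 4 × K,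
    (j.2.1 = crossA j.1 ∨ j.2.1 = crossC j.1) ∧ 64 * Fintype.card K *
      ((crossBase j.1).filter (PHit Λ (partner j.2.1) (none, j.2.2) ω)).card < q) ≤ 1 / 100 := by
  refine fam_small _ (C := 1) (a := (1 + 1) + (2 + 1024)) (by norm_num) (by norm_num)
    (card_prod_le_pow (card_prod_le_pow (by simp) (by simp))
      (card_prod_le_pow (by simp) hB.card_pow.1))
    (by norm_num) fun j => ?_
  refine prob_guard (mul_nonneg one_pos.le eps_nonneg) fun ha => ?_
  have h1 := card_crossBase hB.q_ge j.1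
  rw [one_mul]
  exact hΛ.hit_lower hB (crossBase j.1) (partner j.2.1) _ (cross_injOn hB.q_ge ha) (by omega) _

end Vale.Agent.P045
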