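import Mathlib
import Vale.Agent.P045.StageAEvents

/-!
# P045: mates on cross sides
-/

namespace Vale.Agent.P045

open Finset

variable {q : ℕ} [Fact q.Prime] {K : Type*} [Field K] [Fintype K] [DecidableEq K]
  {Λ : Layout q K}

/-- The ordinates at two points of a cross side agree in one of the two relevant pencils. -/
def MateFail (Λ : Layout q K) (j : Fin 2 × Fin 2) (P p : Pt q) (ω : Coord q → K) : Prop :=
  (Λ.labels ω (partner (crossA j)) (slopeTo (cen (partner (crossA j))) p)).2 =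
      (Λ.labels ω (partner (crossA j)) (slopeTo (cen (partner (crossA j))) P)).2 ∨
    (Λ.labels ω (partner (crossC j)) (slopeTo (cen (partner (crossC j))) p)).2 =
      (Λ.labels ω (partner (crossC j)) (slopeTo (cen (partner (crossC j))) P)).2

open Classical in
/-- The point has no mate. -/
def NoMate (Λ : Layout q K) (j : Fin 2 × Fin 2) (P : Pt q) (ω : Coord q → K) : Prop :=
  OnLine P (crossSide j) ∧ ¬ IsCen P ∧ (∀ j', OnLine P (crossSide j') → j' = j) ∧
    ¬ ∃ p ∈ crossBase j, p ≠ P ∧ ∀ a, a = crossA j ∨ a = crossC j →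
      key (partner a) (slopeTo (cen (partner a)) p) =
        key (partner a) (slopeTo (cen (partner a)) P) ∧
      (Λ.labels ω (partner a) (slopeTo (cen (partner a)) p)).2 ≠
        (Λ.labels ω (partner a) (slopeTo (cen (partner a)) P)).2

open Classical in
theorem LayoutOK.prob_mate_fail (hΛ : LayoutOK Λ) (hq : 1000 ≤ q) (j : Fin 2 × Fin 2) (P : Pt q)
    (hP : OnLine P (crossSide j)) (Ms : Finset (Pt q))
    (hMs : ∀ p ∈ Ms, p ≠ P ∧ OnLine p (crossSide j) ∧
      ∀ a, a = crossA j ∨ a = crossC j →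
        yCoord (partner a) (slopeTo (cen (partner a)) p) ∉ Λ.fixed) :
    prob (fun ω => ∀ p ∈ Ms, MateFail Λ j P p ω) ≤ (4 / (Fintype.card K : ℝ)) ^ Ms.card := by
  set b := partner (crossA j)
  set d := partner (crossC j)
  set σ := fun p : Pt q => slopeTo (cen b) p
  set τ := fun p : Pt q => slopeTo (cen d) p
  have T : ∀ j : Fin 2 × Fin 2, partner (crossA j) ≠ partner (crossC j) := by decide
  have hbd : b ≠ d := T j
  have hb := partner_not_on_cross (q := q) hq (a := crossA j) (j := j) (Or.inl rfl)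
  have hd := partner_not_on_cross (q := q) hq (a := crossC j) (j := j) (Or.inr rfl)
  have hσ : ∀ p p' : Pt q, OnLine p (crossSide j) → OnLine p' (crossSide j) → p ≠ p' →
      σ p ≠ σ p' := fun p p' hp hp' hne e => hne (slopeTo_injOn hb hp hp' e)
  have hτ : ∀ p p' : Pt q, OnLine p (crossSide j) → OnLine p' (crossSide j) → p ≠ p' →
      τ p ≠ τ p' := fun p p' hp hp' hne e => hne (slopeTo_injOn hd hp hp' e)
  have h1 : prob (fun ω => ∀ p ∈ Ms, MateFail Λ j P p ω) ≤
      avg (fun ω => ∏ p ∈ Ms, ind (MateFail Λ j P p) ω) := by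
    refine avg_mono fun ω => ?_
    by_cases h : ∀ p ∈ Ms, MateFail Λ j P p ω
    · simp only [ind, if_pos h]
      rw [prod_eq_one fun p hp => if_pos (h p hp)]
    · simp only [ind, if_neg h]
      exact prod_nonneg fun p _ => by split <;> norm_num
  refine h1.trans ((avg_prod_le Ms (fun p => {yCoord b (σ p)} ∪ {yCoord d (τ p)})
    (fun p => ind (MateFail Λ j P p)) (fun _ => 4 / (Fintype.card K : ℝ))
    (fun p _ ω => ind_nonneg _ _) (fun p hp => ?_) fun p hp p' hp' hne => ?_).trans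
      (le_of_eq (prod_const _)))
  · obtain ⟨hpP, hpl, hfree⟩ := hMs p hp
    have e : (4 : ℝ) / Fintype.card K = 2 / Fintype.card K + 2 / Fintype.card K := by ring
    rw [e]
    have hs1 : yCoord b (σ P) ≠ yCoord b (σ p) := fun h => hσ P p hP hpl hpP.symm (yCoord_inj h).2
    have hs2 : yCoord d (τ P) ≠ yCoord d (τ p) := fun h => hτ P p hP hpl hpP.symm (yCoord_inj h).2
    refine ((hΛ.condLe_soft (hfree _ (Or.inl rfl)) _
        (fun ω => (Λ.labels ω b (σ P)).2) (fun ω v => ?_) (fun ω h => h)).mono (by simp [b, σ])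
          le_rfl).or
      ((hΛ.condLe_soft (hfree _ (Or.inr rfl)) _
        (fun ω => (Λ.labels ω d (τ P)).2) (fun ω v => ?_) (fun ω h => h)).mono (by simp [d, τ])
          le_rfl)
    · simp only [Layout.labels]
      rw [Function.update_of_ne hs1]
    · simp only [Layout.labels]
      rw [Function.update_of_ne hs2]
  · obtain ⟨hpP, hpl, -⟩ := hMs p hp
    obtain ⟨-, hp'l, -⟩ := hMs p' hp'
    refine dependsOn_ind fun ω ω' h => ?_
    have e : ∀ (c : Fin 4) (t : Slope q), yCoord c t ≠ yCoord b (σ p) →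
        yCoord c t ≠ yCoord d (τ p) → (Λ.labels ω c t).2 = (Λ.labels ω' c t).2 := by
      intro c t h1 h2
      simp only [Layout.labels]
      rw [h (yCoord c t) (by simp [h1, h2])]
    have q1 : ∀ x : Pt q, OnLine x (crossSide j) → x ≠ p →
        (Λ.labels ω b (σ x)).2 = (Λ.labels ω' b (σ x)).2 ∧
        (Λ.labels ω d (τ x)).2 = (Λ.labels ω' d (τ x)).2 := fun x hx hxp =>
      ⟨e b (σ x) (fun h => hσ x p hx hpl hxp (yCoord_inj h).2) (fun h => hbd (yCoord_inj h).1),
        e d (τ x) (fun h => hbd (yCoord_inj h).1.symm)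
          (fun h => hτ x p hx hpl hxp (yCoord_inj h).2)⟩
    obtain ⟨a1, a2⟩ := q1 p' hp'l (Ne.symm hne)
    obtain ⟨b1, b2⟩ := q1 P hP hpP.symm
    simp only [b, d, σ, τ] at a1 a2 b1 b2
    simp only [MateFail, a1, a2, b1, b2]

open Classical in
theorem LayoutOK.prob_mate (hΛ : LayoutOK Λ) (hB : Big q K) :
    prob (fun ω => ∃ jP : (Fin 2 × Fin 2) × Pt q, NoMate Λ jP.1 jP.2 ω) ≤ 1 / 20 := by
  have hq := hB.q_ge
  have hm := hB.m_pos
  obtain ⟨Exc, hExc, hmates⟩ := hΛ.mates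
  set r : ℝ := 4 / Fintype.card K with hr
  set S := univ.filter fun jP : (Fin 2 × Fin 2) × Pt q => OnLine jP.2 (crossSide jP.1) ∧
    ¬ IsCen jP.2 ∧ ∀ j', OnLine jP.2 (crossSide j') → j' = jP.1
  set someFixed := fun jP : (Fin 2 × Fin 2) × Pt q =>
    ∃ a, (a = crossA jP.1 ∨ a = crossC jP.1) ∧
      xCoord (partner a) (slopeTo (cen (partner a)) jP.2) ∈ Λ.fixed
  set T0 := S.filter fun jP => jP.2 ∈ Exc
  set T1 := S.filter fun jP => jP.2 ∉ Exc ∧ someFixed jP
  set T2 := S.filter fun jP => jP.2 ∉ Exc ∧ ¬ someFixed jP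
  have hr0 : 0 ≤ r := by positivity
  have hr1 : r ≤ 1 := by
    rw [hr, div_le_one hm]
    have := hB.m_large
    exact_mod_cast (show 4 ≤ Fintype.card K by omega)
  have hbound : ∀ jP ∈ S, ∀ k : ℕ, (k = 1 ∨ (k = 2 ∧ jP.2 ∉ Exc) ∨
      (k = 5 ∧ jP.2 ∉ Exc ∧ ¬ someFixed jP)) →
      prob (NoMate Λ jP.1 jP.2) ≤ r ^ k := by
    intro jP hjP k hk
    obtain ⟨hP, hc, hu⟩ := (mem_filter.1 hjP).2
    obtain ⟨Ms, h1, h2, h5, hMs⟩ := hmates jP.1 jP.2 hP hc hu
    have hkc : k ≤ Ms.card := by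
      rcases hk with rfl | ⟨rfl, hE⟩ | ⟨rfl, hE, hF⟩
      · exact h1
      · exact h2 hE
      · exact h5 hE fun a ha h => hF ⟨a, ha, h⟩
    refine le_trans ?_ ((hΛ.prob_mate_fail hq jP.1 jP.2 hP Ms fun p hp =>
      ⟨(hMs p hp).1, (hMs p hp).2.1, fun a ha => ((hMs p hp).2.2.2.2 a ha).2⟩).trans
        (pow_le_pow_of_le_one hr0 hr1 hkc))
    refine prob_mono fun ω hω p hp => ?_
    obtain ⟨hpP, hpl, hpc, hpw, hkey⟩ := hMs p hp
    by_contra hne
    simp only [MateFail, not_or] at hne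
    refine hω.2.2.2 ⟨p, mem_crossBase.2 ⟨hpl, hpc, hpw⟩, hpP, fun a ha => ⟨(hkey a ha).1, ?_⟩⟩
    rcases ha with rfl | rfl
    · exact hne.1
    · exact hne.2
  have c0 : T0.card ≤ 800 := by
    refine le_trans (card_le_card (t := (univ : Finset (Fin 2 × Fin 2)) ×ˢ Exc) fun x hx => ?_) ?_
    · exact mem_product.2 ⟨mem_univ _, (mem_filter.1 hx).2⟩
    · simp only [card_product, card_univ, Fintype.card_prod, Fintype.card_fin]
      omega
  set line := fun j : Fin 2 × Fin 2 => univ.filter fun P : Pt q => OnLine P (crossSide j)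
  set fixAt := fun (j : Fin 2 × Fin 2) (a : Fin 4) => (line j).filter fun P =>
    xCoord (partner a) (slopeTo (cen (partner a)) P) ∈ Λ.fixed
  have c1 : T1.card ≤ 40000 * Fintype.card K := by
    refine le_trans (card_le_card (t := (univ : Finset (Fin 2 × Fin 2)).biUnion fun j =>
      (fixAt j (crossA j) ∪ fixAt j (crossC j)).image (Prod.mk j)) fun x hx => ?_) ?_
    · obtain ⟨hxS, -, a, ha, hfix⟩ := mem_filter.1 hx
      have hl := (mem_filter.1 hxS).2.1
      simp only [mem_biUnion, mem_univ, true_and, mem_image, mem_union, fixAt, line, mem_filter]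
      refine ⟨x.1, x.2, ?_, rfl⟩
      rcases ha with rfl | rfl
      · exact Or.inl ⟨hl, hfix⟩
      · exact Or.inr ⟨hl, hfix⟩
    · refine (card_biUnion_le_card_mul _ _ (10000 * Fintype.card K) fun j _ => ?_).trans ?_
      · refine card_image_le.trans ((card_union_le _ _).trans ?_)
        have hinj : ∀ a, (a = crossA j ∨ a = crossC j) →
            Set.InjOn (slopeTo (cen (partner a))) ((line j : Finset (Pt q)) : Set (Pt q)) :=
          fun a ha p hp p' hp' e => slopeTo_injOn (partner_not_on_cross hq ha)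
            (mem_filter.1 hp).2 (mem_filter.1 hp').2 e
        have hA := hΛ.card_fixed (line j) (hinj _ (Or.inl rfl)) (a := partner (crossA j))
        have hC := hΛ.card_fixed (line j) (hinj _ (Or.inr rfl)) (a := partner (crossC j))
        simp only [fixAt]
        omega
      · simp only [card_univ, Fintype.card_prod, Fintype.card_fin]
        omega
  have c2 : T2.card ≤ 4 * q := by
    refine le_trans (card_le_card (t := (univ : Finset (Fin 2 × Fin 2)).biUnion fun j =>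
      (line j).image (Prod.mk j)) fun x hx => ?_) ?_
    · have hl := (mem_filter.1 (mem_filter.1 hx).1).2.1
      simp only [mem_biUnion, mem_univ, true_and, mem_image, line, mem_filter]
      exact ⟨x.1, x.2, hl, rfl⟩
    · refine (card_biUnion_le_card_mul _ _ q fun j _ => card_image_le.trans ?_).trans
        (le_of_eq (by simp))
      exact le_of_eq (by convert card_onLine (crossSide (q := q) j))
  have himp : ∀ ω, (∃ jP : (Fin 2 × Fin 2) × Pt q, NoMate Λ jP.1 jP.2 ω) →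
      (∃ jP ∈ T0, NoMate Λ jP.1 jP.2 ω) ∨
        ((∃ jP ∈ T1, NoMate Λ jP.1 jP.2 ω) ∨ ∃ jP ∈ T2, NoMate Λ jP.1 jP.2 ω) := by
    rintro ω ⟨jP, hjP⟩
    have hS : jP ∈ S := mem_filter.2 ⟨mem_univ _, hjP.1, hjP.2.1, hjP.2.2.1⟩
    by_cases hE : jP.2 ∈ Exc
    · exact Or.inl ⟨jP, mem_filter.2 ⟨hS, hE⟩, hjP⟩
    · by_cases hF : someFixed jP
      · exact Or.inr (Or.inl ⟨jP, mem_filter.2 ⟨hS, hE, hF⟩, hjP⟩)
      · exact Or.inr (Or.inr ⟨jP, mem_filter.2 ⟨hS, hE, hF⟩, hjP⟩)
  refine (prob_mono himp).trans ((prob_or_le _ _).trans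
    ((add_le_add le_rfl (prob_or_le _ _)).trans ?_))
  have b0 := prob_exists_le_mul T0 (fun jP => NoMate Λ jP.1 jP.2) (r ^ 1)
    fun jP hj => hbound jP (mem_filter.1 hj).1 1 (Or.inl rfl)
  have b1 := prob_exists_le_mul T1 (fun jP => NoMate Λ jP.1 jP.2) (r ^ 2)
    fun jP hj => hbound jP (mem_filter.1 hj).1 2 (Or.inr (Or.inl ⟨rfl, (mem_filter.1 hj).2.1⟩))
  have b2 := prob_exists_le_mul T2 (fun jP => NoMate Λ jP.1 jP.2) (r ^ 5)
    fun jP hj => hbound jP (mem_filter.1 hj).1 5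
      (Or.inr (Or.inr ⟨rfl, (mem_filter.1 hj).2.1, (mem_filter.1 hj).2.2⟩))
  have hm60 : (2 : ℝ) ^ 60 ≤ Fintype.card K := by exact_mod_cast hB.m_large
  have hrm : r ≤ 4 / 2 ^ 60 := div_le_div_of_nonneg_left (by norm_num) (by norm_num) hm60
  have e0 : (T0.card : ℝ) * r ^ 1 ≤ 1 / 100 := by
    have : (T0.card : ℝ) ≤ 800 := by exact_mod_cast c0
    rw [pow_one]
    calc (T0.card : ℝ) * r ≤ 800 * (4 / 2 ^ 60) := mul_le_mul this hrm hr0 (by norm_num)
      _ ≤ 1 / 100 := by norm_num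
  have hmr : (Fintype.card K : ℝ) * r = 4 := by rw [hr]; field_simp
  have e1 : (T1.card : ℝ) * r ^ 2 ≤ 1 / 100 := by
    have : (T1.card : ℝ) ≤ 40000 * Fintype.card K := by exact_mod_cast c1
    calc (T1.card : ℝ) * r ^ 2 ≤ 40000 * Fintype.card K * r ^ 2 :=
          mul_le_mul_of_nonneg_right this (by positivity)
      _ = 40000 * ((Fintype.card K : ℝ) * r) * r := by ring
      _ ≤ 40000 * 4 * (4 / 2 ^ 60) := by rw [hmr]; exact mul_le_mul_of_nonneg_left hrm (by norm_num)
      _ ≤ 1 / 100 := by norm_num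
  have e2 : (T2.card : ℝ) * r ^ 5 ≤ 1 / 100 := by
    have hq2 : (T2.card : ℝ) ≤ (Fintype.card K : ℝ) ^ 2 := by
      have := hB.q_succ
      exact_mod_cast (show T2.card ≤ Fintype.card K ^ 2 by omega)
    calc (T2.card : ℝ) * r ^ 5 ≤ (Fintype.card K : ℝ) ^ 2 * r ^ 5 :=
          mul_le_mul_of_nonneg_right hq2 (by positivity)
      _ = ((Fintype.card K : ℝ) * r) ^ 2 * r ^ 3 := by ring
      _ ≤ 4 ^ 2 * (4 / 2 ^ 60) ^ 3 := by
          rw [hmr]; exact mul_le_mul_of_nonneg_left (pow_le_pow_left₀ hr0 hrm 3) (by norm_num)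
      _ ≤ 1 / 100 := by norm_num
  linarith

end Vale.Agent.P045
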