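import Mathlib
import Vale.Agent.P045.StageMate

/-!
# P045: stage A, the random labels
-/

namespace Vale.Agent.P045

open Finset

variable {q : ℕ} [Fact q.Prime] {K : Type*} [Field K] [Fintype K] [DecidableEq K]
  {Λ : Layout q K}

open Classical in
/-- Good labels exist. -/
theorem exists_labelsOK (hΛ : LayoutOK Λ) (hB : Big q K) : ∃ ω, LabelsOK Λ ω := by
  by_contra hne
  push Not at hne
  let E : Fin 15 → (Coord q → K) → Prop := ![
    fun ω => ∃ j : Fin 4 × (Option K × K), loadMax q K <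
      (univ.filter fun t : Slope q => Hit Λ j.1 t j.2 ω).card,
    fun ω => ∃ j : Fin 4 × (K × K), 2 ^ 23 < (univ.filter fun t : Slope q =>
      Hit Λ j.1 t (some 0, j.2.2) ω ∧ Hit Λ j.1 t (none, j.2.1) ω).card,
    fun ω => ∃ j : K × K × K, 2 ^ 23 < (univ.filter fun t : Slope q =>
      Hit Λ 0 t (some j.1, j.2.1) ω ∧ Hit Λ 1 t (some j.1, j.2.2) ω).card,
    fun ω => ∃ j : (K × K) × (K × K), 2 ^ 16 * Fintype.card K <
      (univ.filter fun s : Slope q => StarEv Λ 0 1 s s j.1 j.2 ω).card,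
    fun ω => ∃ j : Fin 4 × Line q × (Option K × K), Role j.1 j.2.1 ∧
      64 * Fintype.card K * ((plainPts j.2.1).filter (PHit Λ (partner j.1) j.2.2 ω)).card < q,
    fun ω => ∃ j : Fin 4 × Line q × (Option K × K),
      (Role j.1 j.2.1 ∧ j.1 ≠ 0 ∧ j.1 ≠ 1) ∧ 2 ^ 23 < ((plainPts j.2.1).filter fun p =>
        PHit Λ (partner j.1) j.2.2 ω p ∧ SameY Λ (col p) (row p) ω).card,
    fun ω => ∃ l : Line q, (¬ OnLine (cen 0) l ∧ ¬ OnLine (cen 1) l) ∧ 2 ^ 15 * Fintype.card K <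
      ((plainPts l).filter fun p => SameY Λ (col p) (row p) ω).card,
    fun ω => ∃ j : Fin 4 × Line q × (K × K) × Finset K ×
      (Fin (3 * Fintype.card K) → Option (Option K × K)), Role j.1 j.2.1 ∧
        28 * Fintype.card K ^ 2 * (((plainPts j.2.1).filter fun p =>
          Λ.labels ω (partner j.1) (slopeTo (cen (partner j.1)) p) ∈
            region j.2.2.1 j.2.2.2.1 (univ.filter fun ξ => ∃ i, j.2.2.2.2 i = some ξ)).card +
            2 ^ 15 * Fintype.card K) <
          q * (region j.2.2.1 j.2.2.2.1 (univ.filter fun ξ => ∃ i, j.2.2.2.2 i = some ξ)).card,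
    fun ω => ∃ j : Fin 4 × Fin 2 × Line q × (Option K × K) × (K × K) × (K × K),
      (Role j.1 j.2.2.1 ∧ j.1 ≠ fstC j.2.1 ∧ j.1 ≠ sndC j.2.1) ∧
      2 ^ 23 < ((plainPts j.2.2.1).filter fun p => PHit Λ (partner j.1) j.2.2.2.1 ω p ∧
        StarEv Λ (fstC j.2.1) (sndC j.2.1) (slopeTo (cen (fstC j.2.1)) p)
          (slopeTo (cen (sndC j.2.1)) p) j.2.2.2.2.1 j.2.2.2.2.2 ω).card,
    fun ω => ∃ j : Fin 2 × Line q × K × K × K,
      (¬ OnLine (cen (fstC j.1)) j.2.1 ∧ ¬ OnLine (cen (sndC j.1)) j.2.1) ∧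
      2 ^ 23 < ((plainPts j.2.1).filter fun p =>
        PHit Λ (fstC j.1) (some j.2.2.1, j.2.2.2.1) ω p ∧
          PHit Λ (sndC j.1) (some j.2.2.1, j.2.2.2.2) ω p).card,
    fun ω => ∃ j : (Fin 2 × Fin 2) × K × K, 2 ^ 23 < ((crossBase j.1).filter fun p =>
      PHit Λ (partner (crossA j.1)) (none, j.2.1) ω p ∧
        PHit Λ (partner (crossC j.1)) (none, j.2.2) ω p).card,
    fun ω => ∃ j : (Fin 2 × Fin 2) × (Fin 4 × Fin 4) × K × K × K,
      ((j.2.1.1 = crossA j.1 ∧ j.2.1.2 = crossC j.1) ∨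
        (j.2.1.1 = crossC j.1 ∧ j.2.1.2 = crossA j.1)) ∧
      2 ^ 23 < ((crossBase j.1).filter fun p =>
        PHit Λ (partner j.2.1.2) (some j.2.2.2.1, j.2.2.2.2) ω p ∧
          PHit Λ (partner j.2.1.1) (none, j.2.2.1) ω p).card,
    fun ω => ∃ j : (Fin 2 × Fin 2) × Fin 4 × K,
      (j.2.1 = crossA j.1 ∨ j.2.1 = crossC j.1) ∧ 64 * Fintype.card K *
        ((crossBase j.1).filter (PHit Λ (partner j.2.1) (none, j.2.2) ω)).card < q,
    fun ω => ∃ s : Slope q, ¬ IsSideSlope s ∧ Λ.labels ω 0 s = Λ.labels ω 1 s,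
    fun ω => ∃ jP : (Fin 2 × Fin 2) × Pt q, NoMate Λ jP.1 jP.2 ω]
  have hE : ∀ i, prob (E i) ≤ 1 / 16 := by
    have h100 : (1 / 100 : ℝ) ≤ 1 / 16 := by norm_num
    intro i
    fin_cases i
    · exact (prob_load hΛ hB).trans h100
    · exact (prob_mult hΛ hB).trans h100
    · exact (prob_pair hΛ hB).trans h100
    · exact (prob_star hΛ hB).trans h100
    · exact (prob_band hΛ hB).trans h100
    · exact (prob_sameBand hΛ hB).trans h100
    · exact (prob_sameLine hΛ hB).trans h100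
    · exact (prob_spread hΛ hB).trans h100
    · exact (prob_starBand hΛ hB).trans h100
    · exact (prob_cell hΛ hB).trans h100
    · exact (prob_piece hΛ hB).trans h100
    · exact (prob_bandLine hΛ hB).trans h100
    · exact (prob_crossBand hΛ hB).trans h100
    · exact hΛ.prob_ne01 hB
    · exact (hΛ.prob_mate hB).trans (by norm_num)
  obtain ⟨ω, hω⟩ := exists_forall_not univ E (lt_of_le_of_lt (sum_le_sum fun i _ => hE i)
    (by simp; norm_num))
  have h : ∀ i, ¬ E i ω := fun i => hω i (mem_univ _)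
  refine hne ω ⟨fun a ξ => not_lt.1 fun h' => h 0 ⟨(a, ξ), h'⟩,
    fun a v => not_lt.1 fun h' => h 1 ⟨(a, v), h'⟩,
    fun d c c' => not_lt.1 fun h' => h 2 ⟨(d, c, c'), h'⟩,
    fun u v => not_lt.1 fun h' => h 3 ⟨(u, v), h'⟩,
    fun a l ξ hr => not_lt.1 fun h' => h 4 ⟨(a, l, ξ), hr, h'⟩,
    fun a l ξ hr h0 h1 => not_lt.1 fun h' => h 5 ⟨(a, l, ξ), ⟨hr, h0, h1⟩, h'⟩,
    fun l h0 h1 => not_lt.1 fun h' => h 6 ⟨l, ⟨h0, h1⟩, h'⟩, ?_,
    fun a γ l ξ u v hr h0 h1 => not_lt.1 fun h' => h 8 ⟨(a, γ, l, ξ, u, v), ⟨hr, h0, h1⟩, h'⟩,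
    fun γ l d c₁ c₂ h0 h1 => not_lt.1 fun h' => h 9 ⟨(γ, l, d, c₁, c₂), ⟨h0, h1⟩, h'⟩,
    fun j x z => not_lt.1 fun h' => h 10 ⟨(j, x, z), h'⟩,
    fun j a c x d e hac => not_lt.1 fun h' => h 11 ⟨(j, (a, c), x, d, e), hac, h'⟩,
    fun j a x ha => not_lt.1 fun h' => h 12 ⟨(j, a, x), ha, h'⟩,
    fun s hs h' => h 13 ⟨s, hs, h'⟩, ?_⟩
  · intro a l pb A Ξ hr hΞ
    refine not_lt.1 fun h' => h 7 ?_
    obtain ⟨f, hf⟩ : ∃ f : Fin (3 * Fintype.card K) → Option (Option K × K),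
        (univ.filter fun ξ => ∃ i, f i = some ξ) = Ξ := by
      refine ⟨fun i => if hi : (i : ℕ) < Ξ.card then some ((Ξ.equivFin.symm ⟨i, hi⟩ : Ξ) : Option K × K)
        else none, ?_⟩
      ext ξ
      simp only [mem_filter, mem_univ, true_and]
      constructor
      · rintro ⟨i, hi⟩
        split at hi
        · exact Option.some.inj hi ▸ Subtype.coe_prop _
        · simp at hi
      · intro hξ
        refine ⟨⟨(Ξ.equivFin ⟨ξ, hξ⟩ : ℕ), lt_of_lt_of_le (Fin.isLt _) hΞ⟩, ?_⟩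
        simp [Fin.isLt]
    refine ⟨(a, l, pb, A, f), hr, ?_⟩
    simp only [hf]
    exact h'
  · intro j P hP hc hu
    by_contra hno
    exact h 14 ⟨(j, P), hP, hc, hu, hno⟩

open Classical in
/-- Good labels give what stages B and C need. -/
theorem LabelsOK.stageA (hB : Big q K) {ω : Coord q → K} (h : LabelsOK Λ ω) :
    StageA (Λ.labels ω) := by
  have hq := hB.q_ge
  have hk : 2 ^ 23 ≤ kap := by norm_num [kap]
  have hmult : ∀ a v, (univ.filter fun t : Slope q => Λ.labels ω a t = v).card ≤ kap := by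
    intro a v
    refine le_trans (card_le_card fun t ht => ?_) ((h.mult a v).trans hk)
    simp only [mem_filter, mem_univ, true_and] at ht ⊢
    subst ht
    simp [Hit, Data.InVLine, coset]
  have hcol : ∀ l : Line q, OnLine (cen 0) l → ¬ OnLine (cen 1) l →
      ((plainPts l).filter fun p => Λ.labels ω 0 (col p) = Λ.labels ω 0 (row p)).card ≤ kap := by
    intro l h0 h1
    refine le_trans ?_ (hmult 0 (Λ.labels ω 0 l.1))
    refine card_le_card_of_injOn row (fun p hp => ?_)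
      ((plain_injOn h1).mono (Finset.coe_subset.2 (filter_subset _ _)))
    obtain ⟨hpl, he⟩ := mem_filter.1 hp
    obtain ⟨hplain, hon⟩ := mem_plain.1 hpl
    have hne : p ≠ cen 0 := fun e => by
      subst e
      exact hplain.1 (Or.inl ⟨0, (cen_on_sameSide hq 0 0).2 (Or.inl rfl)⟩)
    have hc : col p = l.1 := slopeTo_eq hne h0 hon
    rw [hc] at he
    exact mem_coe.2 (mem_filter.2 ⟨mem_univ _, he.symm⟩)
  refine ⟨fun a ξ => ?_, hmult, fun a l ξ hr => ?_, ?_, ?_, fun d c c' => ?_, fun u v => ?_,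
    h.ne01⟩
  · exact h.load a ξ
  · exact h.band a l ξ hr
  · intro a l ξ hr h1
    by_cases h0 : a = 0
    · subst h0
      refine le_trans (card_le_card ?_) (hcol l hr.1 (hr.2 1 (by decide)))
      exact filter_subset_filter _ (filter_subset _ _)
    · refine le_trans (card_le_card fun p hp => ?_) ((h.sameBand a l ξ hr h0 h1).trans hk)
      simp only [bandPts, mem_filter] at hp
      exact mem_filter.2 ⟨hp.1.1, hp.1.2, congrArg Prod.snd hp.2⟩
  · intro l h1
    by_cases h0 : OnLine (cen 0) l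
    · refine (hcol l h0 h1).trans ?_
      have hm := hB.m_large
      simp only [kap]
      omega
    · refine le_trans (card_le_card fun p hp => ?_) (h.sameLine l h0 h1)
      simp only [mem_filter] at hp
      exact mem_filter.2 ⟨hp.1, congrArg Prod.snd hp.2⟩
  · refine le_trans (card_le_card fun s hs => ?_) ((h.pair d c c').trans hk)
    simp only [mem_filter, mem_univ, true_and] at hs ⊢
    exact ⟨hs.2.1, hs.2.2⟩
  · refine le_trans (card_le_card fun s hs => ?_) (h.star u v)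
    simp only [mem_filter, mem_univ, true_and] at hs ⊢
    exact hs.2

end Vale.Agent.P045
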