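import Mathlib
import Vale.Agent.P045.StageA

/-!
# P045: facts feeding the assembly of the random stages
-/

namespace Vale.Agent.P045

open Finset

variable {q : ℕ} [Fact q.Prime] {K : Type*} [Field K] [Fintype K] [DecidableEq K]
  {Λ : Layout q K}

omit [Fact q.Prime] [Field K] [DecidableEq K] in
theorem Big.q_huge (h : Big q K) : 2 ^ 200 * (128 * Fintype.card K) ≤ q := by
  have h1 : 2 ^ 220 ≤ Fintype.card K := by
    rw [h.card_eq]; exact Nat.pow_le_pow_right (by norm_num) (by norm_num)
  have h2 : Fintype.card K * 2 ^ 220 ≤ 1024 * q :=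
    (Nat.mul_le_mul le_rfl h1).trans ((sq _).symm.le.trans h.lo)
  omega

theorem isUnit_small {n : ℕ} (h : ∀ d, 0 < d → d < 21 → Nat.Coprime d n) (i j : Fin 21)
    (hij : i ≠ j) : IsUnit (((i : ℕ) : ZMod n) - ((j : ℕ) : ℕ)) := by
  have hne : (i : ℕ) ≠ j := fun e => hij (Fin.ext e)
  rcases le_total (j : ℕ) i with hle | hle
  · have hc := h ((i : ℕ) - j) (by omega) (by omega)
    rw [← Nat.cast_sub hle]
    exact ⟨ZMod.unitOfCoprime _ hc, ZMod.coe_unitOfCoprime _ hc⟩
  · have hc := h ((j : ℕ) - i) (by omega) (by omega)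
    rw [← neg_sub, IsUnit.neg_iff, ← Nat.cast_sub hle]
    exact ⟨ZMod.unitOfCoprime _ hc, ZMod.coe_unitOfCoprime _ hc⟩

theorem fermat_coprime : ∀ d : Fin 21, (d : ℕ) ≠ 0 → Nat.Coprime (d : ℕ) (2 ^ 1024 + 1) := by
  decide +kernel

open Classical in
theorem exists_nonside_slope (hq : 1000 ≤ q) : ∃ s : Slope q, ¬ IsSideSlope s := by
  have h1 : ((univ : Finset (Fin 6)).image fun l => (wLine (q := q) l).1).card <
      (univ : Finset (Slope q)).card := by
    refine lt_of_le_of_lt card_image_le ?_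
    rw [card_univ, card_univ, card_slope, Fintype.card_fin]
    omega
  obtain ⟨s, -, hs⟩ := exists_mem_notMem_of_card_lt_card h1
  refine ⟨s, fun h => hs ?_⟩
  obtain ⟨l, hl⟩ := (isSideSlope_iff_wLine hq s).1 h
  exact mem_image.2 ⟨l, mem_univ _, hl⟩

/-- The row of a slope through the second centre. -/
theorem role_row (hq : 1000 ≤ q) {s : Slope q} (hs : ¬ IsSideSlope s) :
    Role 1 (lineThru (cen (q := q) 1) s) := by
  refine ⟨onLine_lineThru _ _, fun a ha h => hs ?_⟩
  rcases two_cen hq (Ne.symm ha) (onLine_lineThru _ _) h with ⟨i, hi⟩ | ⟨j, hj⟩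
  · exact Or.inl ⟨i, by rw [← hi, lineThru_fst]⟩
  · exact Or.inr ⟨j, by rw [← hj, lineThru_fst]⟩

open Classical in
/-- Few special columns meet a given coset. -/
theorem card_special_cols (hΛ : LayoutOK Λ) (ω : Coord q → K) (dir : Slope q → K)
    (Z : Slope q → Finset (Slope q)) (d c : K) :
    ((univ.filter fun p : Pt q => ((Λ.toData ω dir Z).IsOm 1 p ∨ (Λ.toData ω dir Z).IsW p) ∧
      coset d ((Λ.toData ω dir Z).lab 1 p) = c).image col).card ≤ 300 := by
  set D := Λ.toData ω dir Z
  refine card_image_le.trans ?_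
  set A := fun g : Fin 21 => ({(none : Option K)} ∪
      ((univ.filter fun x : K => x ^ 2 - d * x + (Λ.sh (.inl g) - c) = 0).image some)).image
        fun z => Λ.om 1 g z
  set B := fun li : Fin 6 × Fin 12 => (univ.filter fun x : K => x ^ 2 - d * x +
      (Λ.sh (.inr li) ^ 2 + Λ.sh (.inr (li.1, 0)) - c) = 0).image fun x => Λ.wp li.1 li.2 x
  have hsub : (univ.filter fun p : Pt q => (D.IsOm 1 p ∨ D.IsW p) ∧ coset d (D.lab 1 p) = c) ⊆
      (univ : Finset (Fin 21)).biUnion A ∪ (univ : Finset (Fin 6 × Fin 12)).biUnion B := by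
    intro p hp
    obtain ⟨hp | hp, hc⟩ := (mem_filter.1 hp).2
    · obtain ⟨g, z, rfl⟩ := hp
      refine mem_union_left _ (mem_biUnion.2 ⟨g, mem_univ _, mem_image.2 ⟨z, ?_, rfl⟩⟩)
      rcases z with _ | x
      · simp
      · refine mem_union_right _ (mem_image.2 ⟨x, mem_filter.2 ⟨mem_univ _, ?_⟩, rfl⟩)
        have e := hΛ.om_snd ω dir Z 1 g (some x)
        rw [show sndC (1 - (1 : Fin 2)) = (1 : Fin 4) by decide] at e
        simp only [D, Layout.toData] at hc e
        rw [e] at hc
        simp only [coset, Option.getD_some] at hc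
        linear_combination hc
    · obtain ⟨l, i, x, rfl⟩ := hp
      refine mem_union_right _ (mem_biUnion.2 ⟨(l, i), mem_univ _,
        mem_image.2 ⟨x, mem_filter.2 ⟨mem_univ _, ?_⟩, rfl⟩⟩)
      have e := hΛ.wp_lab ω dir Z l i x 1
      simp only [D, Layout.toData] at hc e
      rw [e] at hc
      simp only [coset, Matrix.cons_val_one, Matrix.cons_val_zero] at hc
      linear_combination hc
  refine (card_le_card hsub).trans ((card_union_le _ _).trans ?_)
  have h1 := card_biUnion_le_card_mul (univ : Finset (Fin 21)) A 3 fun g _ => by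
    refine card_image_le.trans ((card_union_le _ _).trans ?_)
    have := card_quad_le d (Λ.sh (.inl g) - c)
    have h' := card_image_le (s := univ.filter fun x : K => x ^ 2 - d * x + (Λ.sh (.inl g) - c) = 0)
      (f := some)
    simp only [card_singleton]
    omega
  have h2 := card_biUnion_le_card_mul (univ : Finset (Fin 6 × Fin 12)) B 2 fun li _ =>
    card_image_le.trans (card_quad_le d _)
  simp only [card_univ, Fintype.card_fin, Fintype.card_prod] at h1 h2
  omega

open Classical in
/-- Every slope has many possible tag columns. -/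
theorem tagCand_low (hΛ : LayoutOK Λ) (hB : Big q K) {ω : Coord q → K} (hL : LabelsOK Λ ω)
    (dir : Slope q → K) (Z : Slope q → Finset (Slope q)) {s : Slope q} (hs : ¬ IsSideSlope s) :
    q ≤ 128 * Fintype.card K * ((Λ.toData ω dir Z).tagCand s).card := by
  have hq := hB.q_ge
  set D := Λ.toData ω dir Z with hD
  set d := dir s
  set l := lineThru (cen (q := q) 1) s with hl
  have hr := role_row hq hs
  set ξ : Option K × K := (some d, coset d (Λ.labels ω 0 s))
  set band := (plainPts l).filter (PHit Λ (partner 1) ξ ω)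
  set X1 := univ.filter fun t : Slope q => Λ.labels ω 0 t = Λ.labels ω 0 s
  set X2 := univ.filter fun t : Slope q => Hit Λ 0 t ξ ω ∧
    Hit Λ 1 t (some d, coset d (Λ.labels ω 1 s)) ω
  set X3 := (univ.filter fun p : Pt q => (D.IsOm 1 p ∨ D.IsW p) ∧
      coset d (D.lab 1 p) = coset d (Λ.labels ω 1 s)).image col
  have hband := hL.band 1 l ξ hr
  have hinj : Set.InjOn col ((band : Finset (Pt q)) : Set (Pt q)) :=
    (plain_injOn (hr.2 0 (by decide))).mono (Finset.coe_subset.2 (filter_subset _ _))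
  have hsub : band.image col ⊆ D.tagCand s ∪ (X1 ∪ (X2 ∪ X3)) := by
    intro t ht
    obtain ⟨p, hp, rfl⟩ := mem_image.1 ht
    obtain ⟨hpl, hhit⟩ := mem_filter.1 hp
    obtain ⟨hplain, hon⟩ := mem_plain.1 hpl
    have hne : p ≠ cen 1 := fun e => by
      subst e
      exact hplain.1 (Or.inl ⟨0, (cen_on_sameSide hq 1 0).2 (Or.inr rfl)⟩)
    have hrow : row p = s := by
      rw [row, slopeTo_eq hne hr.1 hon, lineThru_fst]
    have h1 : coset d (Λ.labels ω 0 (col p)) = coset d (Λ.labels ω 0 s) := hhit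
    by_contra hnot
    simp only [mem_union, not_or] at hnot
    obtain ⟨hc, hx1, hx2, hx3⟩ := hnot
    refine hc (mem_filter.2 ⟨mem_univ _, h1, ?_, ?_, ⟨p, hplain, hrow, rfl⟩, ?_⟩)
    · exact fun e => hx1 (mem_filter.2 ⟨mem_univ _, e⟩)
    · exact fun e => hx2 (mem_filter.2 ⟨mem_univ _, h1, e⟩)
    · exact fun p' hp' hcol e => hx3 (mem_image.2 ⟨p', mem_filter.2 ⟨mem_univ _, hp', e⟩, hcol⟩)
  have hcard := (card_le_card hsub).trans ((card_union_le _ _).trans (add_le_add le_rfl
    ((card_union_le _ _).trans (add_le_add le_rfl (card_union_le _ _)))))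
  rw [card_image_of_injOn hinj] at hcard
  have c1 : X1.card ≤ kap := (hL.stageA hB).mult 0 _
  have c2 : X2.card ≤ 2 ^ 23 := hL.pair _ _ _
  have c3 : X3.card ≤ 300 := card_special_cols hΛ ω dir Z d _
  have hbig : 2 ^ 30 ≤ band.card := by
    have h := hB.q_huge
    by_contra hlt
    push Not at hlt
    have h' : 64 * Fintype.card K * band.card ≤ 64 * Fintype.card K * 2 ^ 30 :=
      Nat.mul_le_mul_left _ hlt.le
    have hpos : 0 < Fintype.card K := Fintype.card_pos
    have h3 : q ≤ 64 * Fintype.card K * 2 ^ 30 := le_trans hband h'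
    omega
  simp only [kap] at c1
  have h2 : band.card ≤ 2 * (D.tagCand s).card := by omega
  calc q ≤ 64 * Fintype.card K * band.card := hband
    _ ≤ 64 * Fintype.card K * (2 * (D.tagCand s).card) := Nat.mul_le_mul_left _ h2
    _ = 128 * Fintype.card K * (D.tagCand s).card := by ring

end Vale.Agent.P045
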