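import Mathlib
import Vale.Agent.P045.AssemblyLow

/-!
# P045: the outcome of the three random stages is good data
-/

namespace Vale.Agent.P045

open Finset

variable {q : ℕ} [Fact q.Prime] {K : Type*} [Field K] [Fintype K] [DecidableEq K]
  {Λ : Layout q K}

namespace Data

variable (D : Data q K)

theorem mem_pts_of_plain {p : Pt q} (h : Plain p) (h1 : ¬ D.Kill₁ p) (h2 : ¬ D.Kill₂ p) :
    p ∈ D.pts :=
  by classical exact mem_filter.2 ⟨mem_univ _, Or.inl ⟨h, h1, h2⟩⟩

theorem mem_linePts_of_plain {p : Pt q} {l : Line q} (h : Plain p) (hl : OnLine p l)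
    (h1 : ¬ D.Kill₁ p) (h2 : ¬ D.Kill₂ p) : p ∈ D.linePts l :=
  by classical exact mem_filter.2 ⟨D.mem_pts_of_plain h h1 h2, hl, h.1⟩

end Data

open Classical in
theorem card_special_line (hΛ : LayoutOK Λ) (ω : Coord q → K) (dir : Slope q → K)
    (Z : Slope q → Finset (Slope q)) (γ : Fin 2) (l : Line q) (d c : K) :
    (univ.filter fun p : Pt q => (Λ.toData ω dir Z).IsW p ∧ OnLine p l ∧
      coset d ((Λ.toData ω dir Z).lab (fstC γ) p) = c).card ≤ 30 := by
  by_cases hl : ∃ l₀, l = wLine l₀
  · obtain ⟨l₀, rfl⟩ := hl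
    set δ := fun i : Fin 12 => Λ.sh (.inr (l₀, i)) ^ 2 +
      (![0, Λ.sh (.inr (l₀, 0)), 0, Λ.sh (.inr (l₀, i))] : Fin 4 → K) (fstC γ) - c
    set B := fun i : Fin 12 =>
      (univ.filter fun x : K => x ^ 2 - d * x + δ i = 0).image fun x => Λ.wp l₀ i x
    refine le_trans (card_le_card (t := (univ : Finset (Fin 12)).biUnion B) fun p hp => ?_) ?_
    · obtain ⟨⟨l', i, x, rfl⟩, hon, hc⟩ := (mem_filter.1 hp).2
      have e' : l₀ = l' := (hΛ.wp_line l' i x).2.2 l₀ hon
      subst e'
      refine mem_biUnion.2 ⟨i, mem_univ _, mem_image.2 ⟨x, mem_filter.2 ⟨mem_univ _, ?_⟩, rfl⟩⟩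
      have e := hΛ.wp_lab ω dir Z l₀ i x (fstC γ)
      simp only [Layout.toData] at hc e
      rw [e] at hc
      simp only [coset] at hc
      simp only [δ]
      linear_combination hc
    · refine (card_biUnion_le_card_mul _ _ 2 fun i _ =>
        card_image_le.trans (card_quad_le d _)).trans ?_
      simp
  · push Not at hl
    refine le_trans (card_le_card fun p hp => ?_)
      ((card_wPts_le hΛ ω dir Z hl).trans (by norm_num))
    simp only [mem_filter] at hp ⊢
    exact ⟨hp.1, hp.2.1, hp.2.2.1⟩

open Classical in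
/-- Good labels, directions and columns give good data. -/
theorem good_of_stages (hΛ : LayoutOK Λ) [CharP K 2] (hB : Big q K) {ω : Coord q → K}
    (hL : LabelsOK Λ ω) {dir : Slope q → K} (hS : StageB (Λ.labels ω) dir)
    {Z : Slope q → Finset (Slope q)} (hC : StageC (Λ.toData ω dir Z)) :
    Good (Λ.toData ω dir Z) (loadMax q K) kap (q / (128 * Fintype.card K))
      (2 ^ 64 * Fintype.card K) (2 ^ 64 * Fintype.card K) := by
  set D := Λ.toData ω dir Z with hD
  set m := Fintype.card K with hm
  have hq := hB.q_ge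
  have hA := hL.stageA hB
  have hml := hB.m_large
  have hqh := hB.q_huge
  have hmpos : 0 < m := Fintype.card_pos
  have hp23 : 2 ^ 23 + 30 ≤ kap := by norm_num [kap]
  -- kills on a line
  have hk1 : ∀ l, ((plainPts l).filter D.Kill₁).card ≤ 2 ^ 16 * m := fun l =>
    le_trans (card_le_card fun p hp => mem_filter.2 ⟨(mem_filter.1 hp).1,
      (mem_filter.1 hp).2.2.1, (mem_filter.1 hp).2.2.2.2⟩) (hS.tag_line l)
  have hk2 : ∀ l, ((plainPts l).filter D.Kill₂).card ≤ 2 ^ 63 * m := hC.kill_line
  have hkeep : ∀ (l : Line q) (P : Pt q → Prop),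
      ((plainPts l).filter P).card ≤ ((D.linePts l).filter P).card +
        (((plainPts l).filter D.Kill₁).card + ((plainPts l).filter D.Kill₂).card) := by
    intro l P
    refine le_trans (card_le_card fun p hp => ?_)
      ((card_union_le _ _).trans (add_le_add le_rfl (card_union_le _ _)))
    obtain ⟨hpl, hP⟩ := mem_filter.1 hp
    obtain ⟨hplain, hon⟩ := mem_plain.1 hpl
    by_cases h1 : D.Kill₁ p
    · exact mem_union_right _ (mem_union_left _ (mem_filter.2 ⟨hpl, h1⟩))
    by_cases h2 : D.Kill₂ p
    · exact mem_union_right _ (mem_union_right _ (mem_filter.2 ⟨hpl, h2⟩))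
    exact mem_union_left _ (mem_filter.2 ⟨D.mem_linePts_of_plain hplain hon h1 h2, hP⟩)
  have hloose : ∀ l : Line q, Loose l →
      q ≤ (D.pts.filter fun p => OnLine p l).card + 2 ^ 64 * m := by
    intro l hl
    have h1 := hl.card_plain
    have h2 := hkeep l fun _ => True
    simp only [filter_true] at h2
    have h3 : (D.linePts l).card ≤ (D.pts.filter fun p => OnLine p l).card :=
      card_le_card fun p hp => mem_filter.2 ⟨(mem_filter.1 hp).1, (mem_filter.1 hp).2.1⟩
    have := hk1 l
    have := hk2 l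
    omega
  constructor
  case toDesign =>
    refine ⟨hΛ.num_bij, fun i j hij => ?_, hΛ.sh_inj, hΛ.sh_ne, inferInstance, hΛ.om_inj,
      hΛ.om_side, hΛ.om_off, hΛ.om_fst ω dir Z, hΛ.om_snd ω dir Z, hΛ.wp_inj, hΛ.wp_line,
      ?_, ?_, ?_, ?_, ?_, fun s hs => hS.ok s hs, ?_, ?_⟩
    · refine isUnit_small (fun d hd hd' => ?_) i j hij
      rw [show modM K = 2 ^ 1024 + 1 by rw [modM, hB.card_eq]]
      exact fermat_coprime ⟨d, hd'⟩ (by simp; omega)
    · intro l i x
      exact (hΛ.wp_lab ω dir Z l i x 0).trans (by simp [D, Layout.toData])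
    · intro l i x
      exact (hΛ.wp_lab ω dir Z l i x 1).trans (by simp [D, Layout.toData])
    · intro l i x
      exact (hΛ.wp_lab ω dir Z l i x 2).trans (by simp [D, Layout.toData])
    · intro l i x
      exact (hΛ.wp_lab ω dir Z l i x 3).trans (by simp [D, Layout.toData])
    · intro p hp hs d
      exact hΛ.row_special ω dir Z p hp hs d
    · intro s hs t ht
      have h := (mem_filter.1 (hC.sub s hs t ht)).2
      exact ⟨h.1, h.2.1, h.2.2.1⟩
    · intro s hs p hp hcol
      exact (mem_filter.1 (hC.sub s hs _ hcol)).2.2.2.2.2 p hp rfl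
  case side_lab => exact hΛ.side_lab ω
  case side_X => exact hΛ.side_X ω dir Z
  case load => exact hA.load
  case mult => exact hA.mult
  case band =>
    intro a l ξ hr hnk
    have h1 := hA.band_low a l ξ hr
    have hk2' := hC.kill_band a l ξ hr hnk
    have hk1' : ((bandPts (Λ.labels ω) a l ξ).filter D.Kill₁).card ≤ 2 * kap := by
      by_cases ha : a = 1
      · subst ha
        set s := l.1
        set v := univ.filter fun t : Slope q => Data.InVLine ξ (Λ.labels ω 0 t) ∧
          Data.InVLine (some (dir s), coset (dir s) (Λ.labels ω 0 s)) (Λ.labels ω 0 t)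
        have hsub : ((bandPts (Λ.labels ω) 1 l ξ).filter D.Kill₁).image col ⊆
            if IsSideSlope s then ∅ else v := by
          intro t ht
          obtain ⟨p, hp, rfl⟩ := mem_image.1 ht
          obtain ⟨hpb, hpl, hside, -, hk⟩ := mem_filter.1 hp
          obtain ⟨hpp, hpξ⟩ := mem_filter.1 hpb
          obtain ⟨hplain, hon⟩ := mem_plain.1 hpp
          have hne : p ≠ cen 1 := fun e => by
            subst e
            exact hplain.1 (Or.inl ⟨0, (cen_on_sameSide hq 1 0).2 (Or.inr rfl)⟩)
          have hrow : row p = s := slopeTo_eq hne hr.1 hon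
          rw [hrow] at hside hk
          rw [if_neg hside]
          exact mem_filter.2 ⟨mem_univ _, hpξ, hk⟩
        have hi : Set.InjOn col ((((bandPts (Λ.labels ω) 1 l ξ).filter D.Kill₁ : Finset (Pt q))) :
            Set (Pt q)) :=
          (plain_injOn (hr.2 0 (by decide))).mono fun p hp =>
            (mem_filter.1 (mem_filter.1 hp).1).1
        rw [← card_image_of_injOn hi]
        refine (card_le_card hsub).trans ?_
        split_ifs with hs
        · simp
        · rcases v.eq_empty_or_nonempty with hv | ⟨t₀, ht₀⟩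
          · simp [hv]
          have hne : ξ ≠ (some (dir s), coset (dir s) (Λ.labels ω 0 s)) :=
            fun e => hnk (Or.inl ⟨rfl, hs, e⟩)
          refine le_trans (card_le_card fun t ht => ?_)
            ((hA.mult 0 (Λ.labels ω 0 t₀)).trans (Nat.le_mul_of_pos_left _ two_pos))
          obtain ⟨a1, a2⟩ := (mem_filter.1 ht).2
          obtain ⟨b1, b2⟩ := (mem_filter.1 ht₀).2
          exact mem_filter.2 ⟨mem_univ _, vline_unique hne a1 a2 b1 b2⟩
      · exact le_trans (card_le_card fun p hp => mem_filter.2 ⟨(mem_filter.1 hp).1,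
          (mem_filter.1 hp).2.2.1, (mem_filter.1 hp).2.2.2.2⟩) (hS.tag_band a l ξ hr ha)
    set g := q / (128 * m) with hg
    have hg1 : g * (128 * m) ≤ q := Nat.div_mul_le_self _ _
    have hg2 : 2 ^ 200 ≤ g := (Nat.le_div_iff_mul_le (by omega)).2 hqh
    have hband : 2 * g ≤ (bandPts (Λ.labels ω) a l ξ).card := by
      have h' : 64 * m * (2 * g) ≤ 64 * m * (bandPts (Λ.labels ω) a l ξ).card := by
        calc 64 * m * (2 * g) = g * (128 * m) := by ring
          _ ≤ q := hg1
          _ ≤ _ := h1
      exact Nat.le_of_mul_le_mul_left h' (by omega)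
    have hsub : bandPts (Λ.labels ω) a l ξ ⊆
        ((D.linePts l).filter fun p => Data.InVLine ξ (D.lab (partner a) p)) ∪
        ((bandPts (Λ.labels ω) a l ξ).filter D.Kill₁ ∪
          (bandPts (Λ.labels ω) a l ξ).filter D.Kill₂) := by
      intro p hp
      obtain ⟨hpl, hξ⟩ := mem_filter.1 hp
      obtain ⟨hplain, hon⟩ := mem_plain.1 hpl
      by_cases h1 : D.Kill₁ p
      · exact mem_union_right _ (mem_union_left _ (mem_filter.2 ⟨hp, h1⟩))
      by_cases h2 : D.Kill₂ p
      · exact mem_union_right _ (mem_union_right _ (mem_filter.2 ⟨hp, h2⟩))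
      refine mem_union_left _ (mem_filter.2 ⟨D.mem_linePts_of_plain hplain hon h1 h2, ?_⟩)
      rw [D.lab_plain _ hplain]
      exact hξ
    have h3 := (card_le_card hsub).trans
      ((card_union_le _ _).trans (add_le_add le_rfl (card_union_le _ _)))
    simp only [kap] at hk1'
    simp only [hD, Layout.toData] at hk2'
    simp only [hD, Layout.toData] at h3 hk1'
    simp only [hD, Layout.toData]
    omega
  case spread =>
    intro a l pb A Ξ hr hΞ
    refine le_trans (hL.spread a l pb A Ξ hr hΞ) ?_
    refine Nat.mul_le_mul (Nat.mul_le_mul_right _ (by norm_num)) ?_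
    have h2 : ((plainPts l).filter fun p =>
        Λ.labels ω (partner a) (slopeTo (cen (partner a)) p) ∈ region pb A Ξ).card ≤
        ((D.linePts l).filter fun p =>
          Λ.labels ω (partner a) (slopeTo (cen (partner a)) p) ∈ region pb A Ξ).card +
        (((plainPts l).filter D.Kill₁).card + ((plainPts l).filter D.Kill₂).card) := by
      convert hkeep l fun p =>
        Λ.labels ω (partner a) (slopeTo (cen (partner a)) p) ∈ region pb A Ξ
    have h3 : ((D.linePts l).filter fun p =>
        Λ.labels ω (partner a) (slopeTo (cen (partner a)) p) ∈ region pb A Ξ).card ≤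
        ((D.linePts l).filter fun p => D.lab (partner a) p ∈ region pb A Ξ).card + 6 := by
      refine le_trans (card_le_card fun p hp => ?_) ((card_union_le _ _).trans
        (add_le_add le_rfl (card_wPts_le hΛ ω dir Z (hr.loose hq).2.2)))
      obtain ⟨hpl, hreg⟩ := mem_filter.1 hp
      rcases mem_union.1 (linePts_subset hΛ ω dir Z l hpl) with hp' | hp'
      · refine mem_union_left _ (mem_filter.2 ⟨hpl, ?_⟩)
        rw [D.lab_plain _ (mem_plain.1 hp').1]
        exact hreg
      · exact mem_union_right _ hp'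
    have := hk1 l
    have := hk2 l
    omega
  case starBand =>
    intro a γ l ξ u v hr h0 h1
    refine le_trans (card_le_card (t := ((plainPts l).filter fun p =>
      PHit Λ (partner a) ξ ω p ∧ StarEv Λ (fstC γ) (sndC γ) (slopeTo (cen (fstC γ)) p)
        (slopeTo (cen (sndC γ)) p) u v ω) ∪
      univ.filter fun p : Pt q => D.IsW p ∧ OnLine p l) fun p hp => ?_) ?_
    · obtain ⟨hpl, hp1, hp2⟩ := mem_filter.1 hp
      rcases mem_union.1 (linePts_subset hΛ ω dir Z l hpl) with hp' | hp'
      · have hplain := (mem_plain.1 hp').1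
        rw [D.lab_plain _ hplain] at hp1
        rw [D.lab_plain _ hplain, D.lab_plain _ hplain] at hp2
        exact mem_union_left _ (mem_filter.2 ⟨hp', hp1, hp2⟩)
      · exact mem_union_right _ hp'
    · refine (card_union_le _ _).trans (le_trans (add_le_add (hL.starBand a γ l ξ u v hr h0 h1)
        (card_wPts_le hΛ ω dir Z (hr.loose hq).2.2)) ?_)
      omega
  case cellLine =>
    intro γ l d c₁ c₂ h0 h1
    refine le_trans (card_le_card (t := ((plainPts l).filter fun p =>
      PHit Λ (fstC γ) (some d, c₁) ω p ∧ PHit Λ (sndC γ) (some d, c₂) ω p) ∪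
      univ.filter fun p : Pt q => D.IsW p ∧ OnLine p l ∧
        coset d (D.lab (fstC γ) p) = c₁) fun p hp => ?_) ?_
    · obtain ⟨hpl, hp1, hp2⟩ := mem_filter.1 hp
      rcases mem_union.1 (linePts_subset hΛ ω dir Z l hpl) with hp' | hp'
      · have hplain := (mem_plain.1 hp').1
        rw [D.lab_plain _ hplain] at hp1 hp2
        exact mem_union_left _ (mem_filter.2 ⟨hp', hp1, hp2⟩)
      · exact mem_union_right _ (mem_filter.2
          ⟨mem_univ _, (mem_filter.1 hp').2.1, (mem_filter.1 hp').2.2, hp1⟩)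
    · exact (card_union_le _ _).trans (le_trans (add_le_add (hL.cell γ l d c₁ c₂ h0 h1)
        (card_special_line hΛ ω dir Z γ l d c₁)) hp23)
  case line_low => exact fun l hl => hloose l (hl.loose hq)
  case total =>
    obtain ⟨s₀, hs₀⟩ := exists_nonside_slope hq
    have hfib : ∀ c : ZMod q, (D.pts.filter fun p => (lineThru p s₀).2 = c) =
        D.pts.filter fun p => OnLine p (s₀, c) := by
      intro c
      refine filter_congr fun p _ => ?_
      constructor
      · intro h
        have e : lineThru p s₀ = (s₀, c) := Prod.ext (lineThru_fst p s₀) h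
        exact e ▸ onLine_lineThru p s₀
      · intro h
        exact congrArg Prod.snd (lineThru_eq h)
    have h := card_eq_sum_card_fiberwise (f := fun p : Pt q => (lineThru p s₀).2)
      (s := D.pts) (t := (univ : Finset (ZMod q))) fun p _ => mem_univ _
    have h2 : ∑ _c : ZMod q, q ≤ ∑ c : ZMod q,
        ((D.pts.filter fun p => (lineThru p s₀).2 = c).card + 2 ^ 64 * m) :=
      sum_le_sum fun c _ => by
        rw [hfib c]
        exact hloose (s₀, c) (loose_of_slope hq hs₀)
    rw [sum_add_distrib, ← h, sum_const, sum_const, card_univ, ZMod.card, smul_eq_mul,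
      smul_eq_mul, ← sq] at h2
    rw [Nat.add_mul, one_mul]
    omega
  case cross_low =>
    intro j
    rw [crossPts_eq hΛ ω dir Z j]
    have := card_crossBase hq j
    omega
  case cross_piece =>
    intro j x z
    rw [crossPts_eq hΛ ω dir Z j]
    refine le_trans (card_le_card fun p hp => ?_) ((hL.piece j x z).trans (by omega))
    obtain ⟨hpl, hx, hz⟩ := mem_filter.1 hp
    rw [D.lab_cross hq (Or.inl rfl) (mem_crossBase.1 hpl).1] at hx
    rw [D.lab_cross hq (Or.inr rfl) (mem_crossBase.1 hpl).1] at hz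
    exact mem_filter.2 ⟨hpl, hx, hz⟩
  case cross_band =>
    intro j a x ha
    rw [crossPts_eq hΛ ω dir Z j]
    have h' : 128 * m * (q / (128 * m)) ≤
        128 * m * ((crossBase j).filter (PHit Λ (partner a) (none, x) ω)).card :=
      ((Nat.mul_div_le _ _).trans (hL.crossBand j a x ha)).trans
        (Nat.mul_le_mul_right _ (Nat.mul_le_mul_right _ (by norm_num)))
    refine le_trans (Nat.le_of_mul_le_mul_left h' (by omega)) (card_le_card fun p hp => ?_)
    obtain ⟨hpl, hx⟩ := mem_filter.1 hp
    refine mem_filter.2 ⟨hpl, ?_⟩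
    rw [D.lab_cross hq ha (mem_crossBase.1 hpl).1]
    exact hx
  case cross_band_line =>
    intro j a c x d e hac
    rw [crossPts_eq hΛ ω dir Z j]
    refine le_trans (card_le_card fun p hp => ?_) ((hL.bandLine j a c x d e hac).trans (by omega))
    obtain ⟨hpl, hx, he⟩ := mem_filter.1 hp
    rw [D.lab_cross hq (hac.elim (fun h => Or.inl h.1) fun h => Or.inr h.1)
      (mem_crossBase.1 hpl).1] at hx
    rw [D.lab_cross hq (hac.elim (fun h => Or.inr h.2) fun h => Or.inl h.2)
      (mem_crossBase.1 hpl).1] at he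
    exact mem_filter.2 ⟨hpl, he, hx⟩
  case mate =>
    intro j P hP hc hu
    obtain ⟨p, hp, hne, hk⟩ := hL.mate j P hP hc hu
    rw [crossPts_eq hΛ ω dir Z j]
    refine ⟨p, hp, hne, ?_⟩
    have hpl := (mem_crossBase.1 hp).1
    rw [D.lab_cross hq (Or.inl rfl) hpl, D.lab_cross hq (Or.inl rfl) hP,
      D.lab_cross hq (Or.inr rfl) hpl, D.lab_cross hq (Or.inr rfl) hP]
    obtain ⟨ka, ya⟩ := hk _ (Or.inl rfl)
    obtain ⟨kc, yc⟩ := hk _ (Or.inr rfl)
    refine ⟨?_, ya, ?_, yc⟩
    · simp only [hD, Layout.toData, Layout.labels, xCoord, ka]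
    · simp only [hD, Layout.toData, Layout.labels, xCoord, kc]
  case Z_card =>
    intro s
    exact (hC.Z_card s).trans (by norm_num [tries, kap])
  case witness =>
    intro s hs
    refine (hC.witness s hs).trans (card_le_card fun p hp => ?_)
    obtain ⟨hplain, hrow, hcol, hk⟩ := (mem_filter.1 hp).2
    have hcol' : col p ∈ D.Z (row p) := hrow.symm ▸ hcol
    refine mem_filter.2 ⟨D.mem_pts_of_plain hplain (fun h => h.2.2.1 hcol') hk,
      ⟨hplain, hrow.symm ▸ hs, hcol'⟩, hrow⟩

end Vale.Agent.P045
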