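import Mathlib
import Vale.Agent.P045.Fixed

/-!
# P045: which points lie in a block
-/

set_option linter.unusedSectionVars false

namespace Vale.Agent.P045

open Finset

variable {q : ℕ} [Fact q.Prime] {K : Type*} [Field K] [Fintype K] [DecidableEq K]

namespace Data

variable (D : Data q K)

/-- `p` lies in the block `b`. -/
def InBlk (p : Pt q) (b : Blk q K (modM K)) : Prop := ∃ c, D.block p c = b

open Classical in
/-- The points of a block. -/
noncomputable def trace (b : Blk q K (modM K)) : Finset (Pt q) :=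
  D.pts.filter fun p => D.InBlk p b

variable {D}

lemma mem_pts {p : Pt q} : p ∈ D.pts ↔ D.Keep p := by simp [pts]

lemma isOm_onLine (h : Design D) {i : Fin 2} {p : Pt q} (hp : D.IsOm i p) :
    OnLine p (sameSide i) := by
  obtain ⟨g, z, rfl⟩ := hp; exact h.om_side i g z

lemma isW_onW (h : Design D) {p : Pt q} (hp : D.IsW p) : OnW p ∧ ¬ OnSide p := by
  obtain ⟨l, i, x, rfl⟩ := hp; exact ⟨⟨l, (h.wp_line l i x).1⟩, (h.wp_line l i x).2.1⟩

lemma isOm_off (h : Design D) {i : Fin 2} {p : Pt q} (hp : D.IsOm i p) :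
    ¬ IsCen p ∧ ¬ OnCross p ∧ ¬ OnW p ∧ ∀ i', i' ≠ i → ¬ OnLine p (sameSide i') := by
  obtain ⟨g, z, rfl⟩ := hp; exact h.om_off i g z

lemma not_isCen_of_mem (hq : 1000 ≤ q) (h : Design D) {p : Pt q} (hp : p ∈ D.pts) :
    ¬ IsCen p := by
  rcases mem_pts.1 hp with ⟨⟨hs, -⟩, -⟩ | ⟨i, hi⟩ | hw | ⟨-, hc, -⟩
  · rintro ⟨a, rfl⟩
    refine hs (Or.inl ?_)
    fin_cases a
    exacts [⟨0, (cen_on_sameSide hq _ _).2 (Or.inl rfl)⟩,
      ⟨0, (cen_on_sameSide hq _ _).2 (Or.inr rfl)⟩, ⟨1, (cen_on_sameSide hq _ _).2 (Or.inl rfl)⟩,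
      ⟨1, (cen_on_sameSide hq _ _).2 (Or.inr rfl)⟩]
  · exact (isOm_off h hi).1
  · rintro ⟨a, rfl⟩
    obtain ⟨⟨l, hl⟩, -⟩ := isW_onW h hw
    exact cen_not_on_wLine hq a l hl
  · exact hc

lemma isOm_of_onLine (hq : 1000 ≤ q) (h : Design D) {p : Pt q} (hp : p ∈ D.pts) {i : Fin 2}
    (hi : OnLine p (sameSide i)) : D.IsOm i p := by
  rcases mem_pts.1 hp with ⟨⟨hs, -⟩, -⟩ | ⟨i', hi'⟩ | hw | ⟨hcr, hc, -⟩
  · exact absurd (Or.inl ⟨i, hi⟩) hs
  · by_cases e : i = i'
    · exact e ▸ hi'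
    · exact absurd hi ((isOm_off h hi').2.2.2 i e)
  · exact absurd (Or.inl ⟨i, hi⟩) (isW_onW h hw).2
  · exact absurd hcr (sameSide_cross hq hc hi)

lemma isW_of_onW (h : Design D) {p : Pt q} (hp : p ∈ D.pts) (hw : OnW p) : D.IsW p := by
  rcases mem_pts.1 hp with ⟨⟨-, hn⟩, -⟩ | ⟨i', hi'⟩ | hw' | ⟨-, -, hn⟩
  · exact absurd hw hn
  · exact absurd hw (isOm_off h hi').2.2.1
  · exact hw'
  · exact absurd hw hn

lemma inBlk_line {p : Pt q} {l : Line q} {π : Piece K} (hb : D.InBlk p (.line l π)) :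
    OnLine p l ∧ D.block p (.inl l.1) = .line l π := by
  obtain ⟨c, hc⟩ := hb
  rcases c with s | ⟨γ, d⟩
  · have key : lineThru p s = l := by
      simp only [block, specAt] at hc
      split_ifs at hc <;> first | (simp at hc; done) | (injection hc)
    have hs : s = l.1 := by rw [← key, lineThru_fst]
    exact ⟨key ▸ onLine_lineThru p s, hs ▸ hc⟩
  · simp only [block, specAt] at hc
    split_ifs at hc

lemma inBlk_cell {p : Pt q} {γ : Fin 2} {d c₁ c₂ : K} (hb : D.InBlk p (.cell γ d c₁ c₂)) :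
    ¬ D.IsOm γ p ∧ coset d (D.lab (fstC γ) p) = c₁ ∧ coset d (D.lab (sndC γ) p) = c₂ := by
  obtain ⟨c, hc⟩ := hb
  rcases c with s | ⟨γ', d'⟩
  · simp only [block, specAt] at hc
    split_ifs at hc
  · simp only [block, specAt] at hc
    split_ifs at hc with h1 h2
    · injection hc with e1 e2 e3 e4
      subst e1; subst e2
      exact ⟨h1, e3, e4⟩

lemma inBlk_tag {p : Pt q} {s : Slope q} (hb : D.InBlk p (.tag s)) :
    D.Tagged p ∧ row p = s := by
  obtain ⟨c, hc⟩ := hb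
  rcases c with s' | ⟨γ', d'⟩
  · simp only [block, specAt] at hc
    split_ifs at hc
  · simp only [block, specAt] at hc
    split_ifs at hc with h1 h2
    · injection hc with e1
      exact ⟨h2.2.1, e1⟩

lemma inBlk_spec (hq : 1000 ≤ q) (h : Design D) {p : Pt q} (hp : p ∈ D.pts) {i : Fin 2}
    {κ : Option K} {a : ZMod (modM K)} (hb : D.InBlk p (.spec i κ a)) :
    D.IsOm i p ∧ D.num (D.omIdx i p).2 - D.num κ * ((D.omIdx i p).1 : ℕ) = a := by
  obtain ⟨c, hc⟩ := hb
  rcases c with s | ⟨γ', d'⟩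
  · simp only [block, specAt] at hc
    split_ifs at hc with h1
    · injection hc with e1 e2 e3
      have hon : OnLine p (sameSide i) := by
        rw [← e1, ← h1.choose_spec]; exact onLine_lineThru p s
      subst e2
      exact ⟨isOm_of_onLine hq h hp hon, by rw [← e3, e1]⟩
  · simp only [block, specAt] at hc
    split_ifs at hc with h1
    injection hc with e1 e2 e3
    subst e1; subst e2
    exact ⟨h1, e3⟩

lemma omIdx_spec {i : Fin 2} {p : Pt q} (hp : D.IsOm i p) :
    D.om i (D.omIdx i p).1 (D.omIdx i p).2 = p := by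
  have h : ∃ z : Fin 21 × Option K, D.om i z.1 z.2 = p :=
    let ⟨g, z, hz⟩ := hp; ⟨(g, z), hz⟩
  rw [omIdx, dif_pos h]; exact h.choose_spec

lemma omIdx_om (h : Design D) (i : Fin 2) (g : Fin 21) (z : Option K) :
    D.omIdx i (D.om i g z) = (g, z) := by
  have h2 := omIdx_spec (D := D) (i := i) (p := D.om i g z) ⟨g, z, rfl⟩
  have := @h.om_inj (i, (D.omIdx i (D.om i g z)).1, (D.omIdx i (D.om i g z)).2) (i, g, z) h2
  simpa [Prod.ext_iff] using this

lemma effPencil_of_not_cross {p : Pt q} (h : ¬ OnCross p) (a : Fin 4) : effPencil a p = a := by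
  rw [effPencil, if_neg]
  rintro ⟨j, -, hj⟩
  exact h ⟨j, hj⟩

lemma lab_of_not_cross {p : Pt q} (h : ¬ OnCross p) (a : Fin 4) :
    D.lab a p = D.L a (slopeTo (cen a) p) := by
  rw [lab, effPencil_of_not_cross h]

lemma partner_ne (a : Fin 4) : partner a ≠ a := by fin_cases a <;> decide

lemma partner_mem_crossSide (hq : 1000 ≤ q) {a : Fin 4} {j : Fin 2 × Fin 2}
    (ha : OnLine (cen (q := q) a) (crossSide j)) :
    ¬ OnLine (cen (q := q) (partner a)) (crossSide j) := by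
  rw [cen_on_crossSide hq] at ha ⊢
  obtain ⟨u, v⟩ := j
  fin_cases u <;> fin_cases v <;> fin_cases a <;> revert ha <;> decide

/-- On a cross side, both slots of a group show the label of the centre off the side. -/
lemma lab_cross_pair (hq : 1000 ≤ q) {p : Pt q} {j : Fin 2 × Fin 2} (hj : OnLine p (crossSide j))
    (hu : ∀ j', OnLine p (crossSide j') → j' = j) {a : Fin 4}
    (ha : OnLine (cen (q := q) a) (crossSide j)) :
    D.lab a p = D.L (partner a) (slopeTo (cen (partner a)) p) ∧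
      D.lab (partner a) p = D.L (partner a) (slopeTo (cen (partner a)) p) := by
  constructor
  · rw [lab, effPencil, if_pos ⟨j, ha, hj⟩]
  · rw [lab, effPencil, if_neg]
    rintro ⟨j', h1, h2⟩
    exact partner_mem_crossSide hq ha (hu j' h2 ▸ h1)

lemma crossPts_unique (hq : 1000 ≤ q) (h : Design D) {p : Pt q} (hp : p ∈ D.pts)
    {j : Fin 2 × Fin 2} (hj : OnLine p (crossSide j)) :
    ∀ j', OnLine p (crossSide j') → j' = j := by
  intro j' hj'
  by_contra e
  obtain ⟨hw, -⟩ := crossSide_meet hq (not_isCen_of_mem hq h hp) e hj' hj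
  exact (isW_onW h (isW_of_onW h hp hw)).2 (Or.inr ⟨j, hj⟩)

end Data

end Vale.Agent.P045
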