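import Mathlib
import Vale.Agent.P045.CoverBasic

/-!
# P045: sizes of blocks
-/

set_option linter.unusedSectionVars false

namespace Vale.Agent.P045

open Finset

variable {q : ℕ} [Fact q.Prime] {K : Type*} [Field K] [Fintype K] [DecidableEq K]

namespace Data

variable {D : Data q K}

lemma mem_trace {p : Pt q} {b : Blk q K (modM K)} :
    p ∈ D.trace b ↔ p ∈ D.pts ∧ D.InBlk p b := by simp [trace]

lemma mem_linePts {p : Pt q} {l : Line q} :
    p ∈ D.linePts l ↔ p ∈ D.pts ∧ OnLine p l ∧ ¬ OnSide p := by simp [linePts]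

lemma slopeTo_fst_snd (γ : Fin 2) : fstC γ ≠ sndC γ := by fin_cases γ <;> decide

lemma row_col_eq (hq : 1000 ≤ q) (γ : Fin 2) {p p' : Pt q}
    (hp : ¬ OnLine p (sameSide γ)) (hp' : ¬ IsCen p)
    (h : slopeTo (cen (fstC γ)) p = slopeTo (cen (fstC γ)) p')
    (h' : slopeTo (cen (sndC γ)) p = slopeTo (cen (sndC γ)) p') : p = p' := by
  refine pt_eq_of_slopes h h' fun hon => hp ?_
  have h1 := onLine_slopeTo (cen (fstC γ)) p
  have h2 : OnLine (cen (fstC γ)) (lineThru (cen (fstC γ)) (slopeTo (cen (fstC γ)) p)) :=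
    onLine_lineThru _ _
  have hne : cen (q := q) (sndC γ) ≠ cen (fstC γ) :=
    fun e => slopeTo_fst_snd γ (cen_injective hq e).symm
  have := line_eq_of_two hne h2 hon
    ((cen_on_sameSide hq _ γ).2 (Or.inl rfl)) ((cen_on_sameSide hq _ γ).2 (Or.inr rfl))
  exact this ▸ h1

lemma tag_trace_card {T κ g Dl err : ℕ} (hq : 1000 ≤ q) (h : Good D T κ g Dl err) (s : Slope q) :
    (D.trace (.tag s)).card ≤ 8 * κ ∧ (D.trace (.tag s)).card ≤ T := by
  classical
  have hinj : Set.InjOn (col : Pt q → Slope q) (D.trace (.tag s) : Set (Pt q)) := by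
    intro p hp p' hp' e
    obtain ⟨hm, hb⟩ := mem_trace.1 hp
    obtain ⟨-, hb'⟩ := mem_trace.1 hp'
    obtain ⟨⟨hpl, -⟩, hr⟩ := inBlk_tag hb
    obtain ⟨-, hr'⟩ := inBlk_tag hb'
    exact row_col_eq hq 0 (fun hh => hpl.1 (Or.inl ⟨0, hh⟩))
      (not_isCen_of_mem hq h.toDesign hm) e (hr.trans hr'.symm)
  refine ⟨le_trans (card_le_card_of_injOn col ?_ hinj) (h.Z_card s),
    le_trans (card_le_card_of_injOn col ?_ hinj)
      (h.load 0 (some (D.dir s), coset (D.dir s) (D.L 0 s)))⟩
  · intro p hp
    obtain ⟨-, hb⟩ := mem_trace.1 hp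
    obtain ⟨⟨-, -, hZ⟩, rfl⟩ := inBlk_tag hb
    exact hZ
  · intro p hp
    obtain ⟨-, hb⟩ := mem_trace.1 hp
    obtain ⟨⟨-, hns, hZ⟩, rfl⟩ := inBlk_tag hb
    exact Finset.mem_coe.2 (mem_filter.2 ⟨mem_univ _, (h.Z_coset _ hns _ hZ).1⟩)

/-- A tag has at most one point on a line other than its row. -/
lemma tag_trace_line (hq : 1000 ≤ q) (s : Slope q) {l : Line q}
    (hl : l ≠ lineThru (cen 1) s) :
    ((D.trace (.tag s)).filter fun p => OnLine p l).card ≤ 1 := by
  have := hq
  refine card_le_one.2 fun p hp p' hp' => ?_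
  obtain ⟨h1, hon⟩ := mem_filter.1 hp
  obtain ⟨h1', hon'⟩ := mem_filter.1 hp'
  obtain ⟨-, rfl⟩ := inBlk_tag (mem_trace.1 h1).2
  obtain ⟨-, hr⟩ := inBlk_tag (mem_trace.1 h1').2
  have k : OnLine p' (lineThru (cen 1) (row p)) := hr ▸ onLine_slopeTo (cen 1) p'
  exact pt_eq_of_two hl hon' hon k (onLine_slopeTo (cen 1) p)

lemma spec_trace_card {T κ g Dl err : ℕ} (hq : 1000 ≤ q) (h : Good D T κ g Dl err) (i : Fin 2)
    (μ : Option K) (a : ZMod (modM K)) : (D.trace (.spec i μ a)).card ≤ 21 := by
  refine le_trans (card_le_card_of_injOn (fun p => (D.omIdx i p).1)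
    (t := (univ : Finset (Fin 21))) (fun p hp => mem_univ _) ?_) (by simp)
  intro p hp p' hp' e
  obtain ⟨hm, hb⟩ := mem_trace.1 hp
  obtain ⟨hm', hb'⟩ := mem_trace.1 hp'
  obtain ⟨ho, ha⟩ := inBlk_spec hq h.toDesign hm hb
  obtain ⟨ho', ha'⟩ := inBlk_spec hq h.toDesign hm' hb'
  simp only at e
  rw [e, ← ha'] at ha
  have hz := h.num_bij.1 (sub_left_injective ha)
  rw [← omIdx_spec ho, ← omIdx_spec ho', e, hz]

/-- The block of a point on a line through one centre. -/
lemma block_role (hq : 1000 ≤ q) {a : Fin 4} {l : Line q} (hl : Role a l) {p : Pt q}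
    (hp : OnLine p l) :
    D.block p (.inl l.1) = .line l (.one (D.lab (partner a) p).1) := by
  have e := lineThru_eq hp
  have h1 : ¬ ∃ i, lineThru p l.1 = sameSide i := by
    rintro ⟨i, hi⟩
    rw [e] at hi
    by_cases ha : a = fstC i
    · exact hl.2 (sndC i) (by rw [ha]; exact (slopeTo_fst_snd i).symm)
        (hi ▸ (cen_on_sameSide hq _ i).2 (Or.inr rfl))
    · exact hl.2 (fstC i) (Ne.symm ha) (hi ▸ (cen_on_sameSide hq _ i).2 (Or.inl rfl))
  have h2 : ¬ ∃ i, lineThru p l.1 = wLine i := by
    rintro ⟨i, hi⟩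
    rw [e] at hi
    exact cen_not_on_wLine hq a i (hi ▸ hl.1)
  have h3 : ¬ ∃ j, lineThru p l.1 = crossSide j := by
    rintro ⟨j, hj⟩
    rw [e] at hj
    by_cases ha : a = crossA j
    · refine hl.2 (crossC j) ?_ (hj ▸ (cen_on_crossSide hq _ j).2 (Or.inr rfl))
      rw [ha]
      obtain ⟨u, v⟩ := j
      fin_cases u <;> fin_cases v <;> decide
    · exact hl.2 (crossA j) (Ne.symm ha) (hj ▸ (cen_on_crossSide hq _ j).2 (Or.inl rfl))
  have h4 : ∃ a', OnLine (cen a') (lineThru p l.1) := ⟨a, by rw [e]; exact hl.1⟩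
  have h5 : h4.choose = a := by
    by_contra hne
    have := h4.choose_spec
    generalize h4.choose = a' at this hne
    rw [e] at this
    exact hl.2 _ hne this
  simp only [block, dif_neg h1, if_neg h2, if_neg h3, dif_pos h4, h5]
  rw [e]

lemma block_ordinary (hq : 1000 ≤ q) {l : Line q} (hl : Ordinary l) {p : Pt q}
    (hp : OnLine p l) : D.block p (.inl l.1) = .line l .whole := by
  have e := lineThru_eq hp
  have h1 : ¬ ∃ i, lineThru p l.1 = sameSide i := by
    rintro ⟨i, hi⟩
    exact hl.1 (fstC i) (by rw [← e, hi]; exact (cen_on_sameSide hq _ i).2 (Or.inl rfl))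
  have h2 : ¬ ∃ i, lineThru p l.1 = wLine i := by
    rintro ⟨i, hi⟩; exact hl.2 i (e.symm.trans hi)
  have h3 : ¬ ∃ j, lineThru p l.1 = crossSide j := by
    rintro ⟨j, hj⟩
    exact hl.1 (crossA j) (by rw [← e, hj]; exact (cen_on_crossSide hq _ j).2 (Or.inl rfl))
  have h4 : ¬ ∃ a', OnLine (cen a') (lineThru p l.1) := by
    rintro ⟨a, ha⟩; exact hl.1 a (e ▸ ha)
  simp only [block, dif_neg h1, if_neg h2, if_neg h3, dif_neg h4]
  rw [e]

/-- The block of a point on an auxiliary line. -/
lemma block_wLine (hq : 1000 ≤ q) {i : Fin 6} {p : Pt q} (hp : OnLine p (wLine i)) :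
    D.block p (.inl (wLine i).1) = .line (wLine i) (.one (D.lab 0 p).1) := by
  have e := lineThru_eq hp
  have h1 : ¬ ∃ i', lineThru p (wLine i).1 = sameSide i' := by
    rintro ⟨i', hi⟩
    exact cen_not_on_wLine hq (fstC i') i
      (by rw [← e, hi]; exact (cen_on_sameSide hq _ i').2 (Or.inl rfl))
  have h2 : ∃ i', lineThru p (wLine i).1 = wLine i' := ⟨i, e⟩
  simp only [block, dif_neg h1, if_pos h2]
  rw [e]

/-- The block of a point on a cross side. -/
lemma block_crossSide (hq : 1000 ≤ q) {j : Fin 2 × Fin 2} {p : Pt q}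
    (hp : OnLine p (crossSide j)) :
    D.block p (.inl (crossSide j).1) =
      .line (crossSide j) (.two (D.lab 0 p).1 (D.lab 2 p).1) := by
  have e := lineThru_eq hp
  have h1 : ¬ ∃ i', lineThru p (crossSide j).1 = sameSide i' := by
    rintro ⟨i', hi⟩
    exact sameSide_ne_crossSide hq i' j (by rw [← hi, e])
  have h2 : ¬ ∃ i', lineThru p (crossSide j).1 = wLine i' := by
    rintro ⟨i', hi⟩
    exact cen_not_on_wLine hq (crossA j) i'
      (by rw [← hi, e]; exact (cen_on_crossSide hq _ j).2 (Or.inl rfl))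
  have h3 : ∃ j', lineThru p (crossSide j).1 = crossSide j' := ⟨j, e⟩
  simp only [block, dif_neg h1, if_neg h2, if_pos h3]
  rw [e]

/-- A line carrying blocks is ordinary, passes through exactly one centre, is an auxiliary
line, a cross side or a same side. -/
lemma line_cases (hq : 1000 ≤ q) (l : Line q) :
    Ordinary l ∨ (∃ a, Role a l) ∨ (∃ i, l = wLine i) ∨ (∃ j, l = crossSide j) ∨
      ∃ i, l = sameSide i := by
  by_cases h : ∀ a, ¬ OnLine (cen a) l
  · by_cases hw : ∃ i, l = wLine i
    · exact Or.inr (Or.inr (Or.inl hw))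
    · exact Or.inl ⟨h, fun i e => hw ⟨i, e⟩⟩
  · push Not at h
    obtain ⟨a, ha⟩ := h
    by_cases h2 : ∀ a', a' ≠ a → ¬ OnLine (cen a') l
    · exact Or.inr (Or.inl ⟨a, ha, h2⟩)
    · push Not at h2
      obtain ⟨a', hne, ha'⟩ := h2
      rcases two_cen hq hne ha' ha with h3 | h3
      · exact Or.inr (Or.inr (Or.inr (Or.inr h3)))
      · exact Or.inr (Or.inr (Or.inr (Or.inl h3)))

/-- A block other than a full ordinary line is small. -/
lemma trace_card_le {T κ g Dl err : ℕ} (hq : 1000 ≤ q) (h : Good D T κ g Dl err)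
    {b : Blk q K (modM K)} (hb : ∀ l, Ordinary l → b ≠ .line l .whole) :
    (D.trace b).card ≤ (T + 3) ^ 2 + κ + 24 := by
  classical
  have hTT : (T + 3) ^ 2 = T * T + 6 * T + 9 := by ring
  cases b with
  | tag s =>
      have := (tag_trace_card hq h s).2
      omega
  | spec i μ a =>
      have := spec_trace_card hq h i μ a
      omega
  | line l π =>
      rcases (D.trace (.line l π)).eq_empty_or_nonempty with he | ⟨p₀, hp₀⟩
      · simp [he]
      obtain ⟨hm₀, hb₀⟩ := mem_trace.1 hp₀
      obtain ⟨hl₀, hc₀⟩ := inBlk_line hb₀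
      have hsub : ∀ p ∈ D.trace (.line l π), p ∈ D.pts ∧ OnLine p l ∧
          D.block p (.inl l.1) = .line l π := fun p hp =>
        ⟨(mem_trace.1 hp).1, inBlk_line (mem_trace.1 hp).2⟩
      rcases line_cases hq l with ho | ⟨a, ha⟩ | ⟨i, rfl⟩ | ⟨j, rfl⟩ | ⟨i, rfl⟩
      · rw [block_ordinary hq ho hl₀] at hc₀
        injection hc₀ with e1 e2
        exact absurd (by rw [e2]) (hb l ho)
      · rw [block_role hq ha hl₀] at hc₀
        injection hc₀ with e1 e2
        set x := (D.lab (partner a) p₀).1
        have h1 : ∀ p ∈ D.trace (.line l π), (D.lab (partner a) p).1 = x := by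
          intro p hp
          obtain ⟨-, hon, hbl⟩ := hsub p hp
          rw [block_role hq ha hon, ← e2] at hbl
          injection hbl with _ e3
          injection e3
        have hnot : ¬ OnLine (cen (partner a)) l := ha.2 _ (partner_ne a)
        have hA : ((D.trace (.line l π)).filter fun p => ¬ OnCross p).card ≤ T := by
          refine le_trans (card_le_card_of_injOn (slopeTo (cen (partner a))) ?_ ?_)
            (h.load (partner a) (none, x))
          · intro p hp
            have hp1 := (mem_filter.1 hp).1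
            have hp2 := (mem_filter.1 hp).2
            refine Finset.mem_coe.2 (mem_filter.2 ⟨mem_univ _, ?_⟩)
            show (D.L (partner a) (slopeTo (cen (partner a)) p)).1 = x
            rw [← lab_of_not_cross hp2 (partner a)]
            exact h1 p hp1
          · intro p hp p' hp' e
            exact slopeTo_injOn hnot (hsub p (mem_filter.1 hp).1).2.1
              (hsub p' (mem_filter.1 hp').1).2.1 e
        have hB : ((D.trace (.line l π)).filter OnCross).card ≤ 4 := by
          refine le_trans (card_le_card_of_injOn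
            (fun p => if hh : OnCross p then hh.choose else (0, 0))
            (t := (univ : Finset (Fin 2 × Fin 2))) (fun p hp => mem_univ _) ?_) (by simp)
          intro p hp p' hp' e
          have hp2 := (mem_filter.1 hp).2
          have hp2' := (mem_filter.1 hp').2
          simp only [dif_pos hp2, dif_pos hp2'] at e
          have c1 := hp2.choose_spec
          have c2 := hp2'.choose_spec
          rw [← e] at c2
          refine pt_eq_of_two (fun ee => ?_) (hsub p' (mem_filter.1 hp').1).2.1
            (hsub p (mem_filter.1 hp).1).2.1 c2 c1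
          set j := hp2.choose
          by_cases haj : a = crossA j
          · refine ha.2 (crossC j) ?_ (ee ▸ (cen_on_crossSide hq _ j).2 (Or.inr rfl))
            rw [haj]
            generalize j = j'
            obtain ⟨u, v⟩ := j'
            fin_cases u <;> fin_cases v <;> decide
          · exact ha.2 (crossA j) (Ne.symm haj)
              (ee ▸ (cen_on_crossSide hq _ j).2 (Or.inl rfl))
        have := card_filter_add_card_filter_not (s := D.trace (.line l π)) OnCross
        omega
      · rw [block_wLine hq hl₀] at hc₀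
        injection hc₀ with e1 e2
        refine le_trans ?_ (show 12 ≤ (T + 3) ^ 2 + κ + 24 by omega)
        refine le_trans (card_le_card (t := (univ : Finset (Fin 12)).image
          fun k => D.wp i k (D.lab 0 p₀).1) ?_) (le_trans card_image_le (by simp))
        intro p hp
        obtain ⟨hm, hon, hbl⟩ := hsub p hp
        obtain ⟨l', k, x, rfl⟩ := isW_of_onW h.toDesign hm ⟨i, hon⟩
        obtain rfl := (h.wp_line l' k x).2.2 i hon
        rw [block_wLine hq hon, ← e2] at hbl
        injection hbl with _ e3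
        injection e3 with e4
        rw [h.wp_lab0] at e4
        exact mem_image.2 ⟨k, mem_univ _, by rw [← e4]⟩
      · rw [block_crossSide hq hl₀] at hc₀
        injection hc₀ with e1 e2
        refine le_trans ?_ (show κ ≤ (T + 3) ^ 2 + κ + 24 by omega)
        refine le_trans (card_le_card ?_)
          (h.cross_piece j (D.lab (crossA j) p₀).1 (D.lab (crossC j) p₀).1)
        intro p hp
        obtain ⟨hm, hon, hbl⟩ := hsub p hp
        rw [block_crossSide hq hon, ← e2] at hbl
        injection hbl with _ e3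
        injection e3 with e4 e5
        have hu := crossPts_unique hq h.toDesign hm hon
        have hu₀ := crossPts_unique hq h.toDesign hm₀ hl₀
        have k1 : ∀ r : Pt q, OnLine r (crossSide j) →
            (∀ j', OnLine r (crossSide j') → j' = j) →
            (D.lab (crossA j) r).1 = (D.lab 0 r).1 ∧ (D.lab (crossC j) r).1 = (D.lab 2 r).1 := by
          intro r hr hur
          have a1 := lab_cross_pair (D := D) hq hr hur ((cen_on_crossSide hq _ j).2 (Or.inl rfl))
          have a2 := lab_cross_pair (D := D) hq hr hur ((cen_on_crossSide hq _ j).2 (Or.inr rfl))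
          obtain ⟨u, v⟩ := j
          fin_cases u <;> fin_cases v <;> simp_all [crossA, crossC, partner]
        obtain ⟨f1, f2⟩ := k1 p hon hu
        obtain ⟨f3, f4⟩ := k1 p₀ hl₀ hu₀
        simp only [crossPts, mem_filter]
        exact ⟨⟨hm, hon⟩, by rw [f1, f3, e4], by rw [f2, f4, e5]⟩
      · have := isOm_of_onLine hq h.toDesign hm₀ hl₀
        have e := lineThru_eq hl₀
        have h1 : ∃ i', lineThru p₀ (sameSide i).1 = sameSide i' := ⟨i, e⟩
        simp only [block, dif_pos h1, specAt] at hc₀
        cases hc₀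
  | cell γ d c₁ c₂ =>
      have hsub : ∀ p ∈ D.trace (.cell γ d c₁ c₂), p ∈ D.pts ∧ ¬ D.IsOm γ p ∧
          coset d (D.lab (fstC γ) p) = c₁ ∧ coset d (D.lab (sndC γ) p) = c₂ := fun p hp =>
        ⟨(mem_trace.1 hp).1, inBlk_cell (mem_trace.1 hp).2⟩
      have hA : ((D.trace (.cell γ d c₁ c₂)).filter fun p => ¬ OnCross p).card ≤ T * T := by
        refine le_trans (card_le_card_of_injOn
          (fun p => (slopeTo (cen (fstC γ)) p, slopeTo (cen (sndC γ)) p))
          (t := (univ.filter fun t => InVLine (some d, c₁) (D.L (fstC γ) t)) ×ˢ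
            (univ.filter fun t => InVLine (some d, c₂) (D.L (sndC γ) t))) ?_ ?_)
          (by rw [card_product]; exact Nat.mul_le_mul (h.load _ _) (h.load _ _))
        · intro p hp
          have hp2 := (mem_filter.1 hp).2
          obtain ⟨-, -, e1, e2⟩ := hsub p (mem_filter.1 hp).1
          rw [lab_of_not_cross hp2] at e1 e2
          refine Finset.mem_coe.2 (mem_product.2 ⟨mem_filter.2 ⟨mem_univ _, ?_⟩,
            mem_filter.2 ⟨mem_univ _, ?_⟩⟩)
          · exact e1
          · exact e2
        · intro p hp p' hp' e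
          obtain ⟨hm, hno, -, -⟩ := hsub p (mem_filter.1 hp).1
          simp only [Prod.mk.injEq] at e
          exact row_col_eq hq γ (fun hh => hno (isOm_of_onLine hq h.toDesign hm hh))
            (not_isCen_of_mem hq h.toDesign hm) e.1 e.2
      have hB : ∀ j : Fin 2 × Fin 2,
          ((D.trace (.cell γ d c₁ c₂)).filter fun p => OnLine p (crossSide j)).card ≤ T := by
        intro j
        obtain ⟨a, ha, haγ⟩ : ∃ a, OnLine (cen (q := q) a) (crossSide j) ∧
            (a = fstC γ ∨ a = sndC γ) := by
          simp only [cen_on_crossSide hq]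
          obtain ⟨u, v⟩ := j
          fin_cases γ <;> fin_cases u <;> fin_cases v <;> decide
        refine le_trans (card_le_card_of_injOn (slopeTo (cen (partner a))) ?_ ?_)
          (h.load (partner a) (some d, if a = fstC γ then c₁ else c₂))
        · intro p hp
          obtain ⟨hm, -, e1, e2⟩ := hsub p (mem_filter.1 hp).1
          have hon := (mem_filter.1 hp).2
          have hl := (lab_cross_pair (D := D) hq hon (crossPts_unique hq h.toDesign hm hon) ha).1
          refine Finset.mem_coe.2 (mem_filter.2 ⟨mem_univ _, ?_⟩)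
          show coset d (D.L (partner a) (slopeTo (cen (partner a)) p)) = _
          rw [← hl]
          rcases haγ with rfl | rfl
          · simpa using e1
          · rw [if_neg (Ne.symm (slopeTo_fst_snd γ))]; exact e2
        · intro p hp p' hp' e
          exact slopeTo_injOn (partner_mem_crossSide hq ha) (mem_filter.1 hp).2
            (mem_filter.1 hp').2 e
      have hC : ((D.trace (.cell γ d c₁ c₂)).filter OnCross).card ≤ 4 * T := by
        calc _ ≤ ((univ : Finset (Fin 2 × Fin 2)).biUnion fun j =>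
              (D.trace (.cell γ d c₁ c₂)).filter fun p => OnLine p (crossSide j)).card := by
                refine card_le_card fun p hp => ?_
                obtain ⟨h1, j, hj⟩ := mem_filter.1 hp
                exact mem_biUnion.2 ⟨j, mem_univ _, mem_filter.2 ⟨h1, hj⟩⟩
          _ ≤ ∑ j : Fin 2 × Fin 2, T := le_trans card_biUnion_le (sum_le_sum fun j _ => hB j)
          _ = 4 * T := by simp
      have := card_filter_add_card_filter_not (s := D.trace (.cell γ d c₁ c₂)) OnCross
      omega

end Data

end Vale.Agent.P045
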