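import Vale.Agent.P045.RedeiPoly

/-!
# P045: few graphs `Y = b X + a` covering most of the plane have a common slope

The Rédei-type argument: the top form of `∏ (Y - b X - a)` times a polynomial vanishing on the
uncovered points is `g + h Y ^ q` with `g`, `h` of small degree.
-/

namespace Vale.Agent.P045

open Polynomial Finset

variable {q : ℕ} [Fact q.Prime]

/-- A vanishing Wronskian in degree below the characteristic forces proportionality. -/
theorem exists_smul_of_wronskian_eq_zero {g h : (ZMod q)[X]} (hh : h ≠ 0)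
    (hg : g.natDegree < q) (hhq : h.natDegree < q)
    (hw : derivative g * h = g * derivative h) : ∃ c : ZMod q, g = C c * h := by
  have key : ∀ p : (ZMod q)[X], p.natDegree < q → p ≠ 0 → derivative p * h = p * derivative h →
      p.natDegree = h.natDegree := by
    intro p hp hp0 hpw
    have hd : ∀ r : (ZMod q)[X], (X * derivative r).natDegree ≤ r.natDegree ∧
        (X * derivative r).coeff r.natDegree = (r.natDegree : ZMod q) * r.leadingCoeff := by
      intro r
      rcases eq_or_ne r.natDegree 0 with h0 | h0
      · rw [eq_C_of_natDegree_eq_zero h0]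
        simp
      · refine ⟨?_, ?_⟩
        · refine natDegree_mul_le.trans ?_
          rw [natDegree_X]
          have := natDegree_derivative_le r
          omega
        · obtain ⟨k, hk⟩ := Nat.exists_eq_succ_of_ne_zero h0
          rw [hk, coeff_X_mul, coeff_derivative, leadingCoeff, hk]
          push_cast
          ring
    have e := congrArg (fun r : (ZMod q)[X] => (X * r).coeff (p.natDegree + h.natDegree)) hpw
    simp only [← mul_assoc] at e
    rw [coeff_mul_add_eq_of_natDegree_le (hd p).1 le_rfl, mul_comm X p, mul_assoc p X,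
      coeff_mul_add_eq_of_natDegree_le le_rfl (hd h).1, (hd p).2, (hd h).2] at e
    change _ * h.leadingCoeff = p.leadingCoeff * _ at e
    have e' : (p.natDegree : ZMod q) = h.natDegree :=
      mul_right_cancel₀ (mul_ne_zero (leadingCoeff_ne_zero.2 hp0) (leadingCoeff_ne_zero.2 hh))
        (by linear_combination e)
    have e2 := congrArg ZMod.val e'
    rwa [ZMod.val_natCast_of_lt hp, ZMod.val_natCast_of_lt hhq] at e2
  rcases eq_or_ne g 0 with rfl | hg0
  · exact ⟨0, by simp⟩
  refine ⟨g.leadingCoeff / h.leadingCoeff, ?_⟩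
  set c := g.leadingCoeff / h.leadingCoeff with hc
  have hdeg := key g hg hg0 hw
  by_contra hne
  have hr : g - C c * h ≠ 0 := sub_ne_zero.2 hne
  have hrq : (g - C c * h).natDegree < q := lt_of_le_of_lt
    (natDegree_sub_le_of_le le_rfl ((natDegree_C_mul_le _ _).trans hdeg.ge)) (by simpa using hg)
  have hr' := key _ hrq hr (by
    simp only [derivative_sub, derivative_C_mul, sub_mul, hw]
    ring)
  refine leadingCoeff_ne_zero.2 hr ?_
  rw [leadingCoeff, hr', coeff_sub, coeff_C_mul, hc]
  nth_rw 1 [← hdeg]
  exact sub_eq_zero.2 (div_mul_cancel₀ _ (leadingCoeff_ne_zero.2 hh)).symm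

theorem X_pow_sub_X_roots : ((X : (ZMod q)[X]) ^ q - X).roots = univ.val := by
  simpa [ZMod.card] using FiniteField.roots_X_pow_card_sub_X (ZMod q)

theorem prod_X_sub_C_univ : ∏ a : ZMod q, (X - C a) = (X : (ZMod q)[X]) ^ q - X := by
  refine (eq_of_monic_of_dvd_of_natDegree_le (monic_prod_X_sub_C _ _) ?_ ?_ ?_).symm
  · exact monic_X_pow_sub (by rw [degree_X]; exact_mod_cast (Fact.out : q.Prime).one_lt)
  · have := prod_multiset_X_sub_C_dvd ((X : (ZMod q)[X]) ^ q - X)
    rwa [X_pow_sub_X_roots] at this
  · rw [FiniteField.X_pow_card_sub_X_natDegree_eq _ (Fact.out : q.Prime).one_lt,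
      natDegree_finsetProd_X_sub_C_eq_card, card_univ, ZMod.card]

/-- A representation `R = g + h Y ^ q` with `g`, `h` of degree at most `e` forces a common slope. -/
theorem common_slope_of_top (S : Finset (ZMod q × ZMod q)) {D d e : ℕ} {α g h : (ZMod q)[X]}
    (hα : α ≠ 0) (hg : g.natDegree ≤ e) (hh : h.natDegree ≤ e) (hd : d ≤ D)
    (he : q + e = S.card + d) (hB : (S.image Prod.snd).card + D < q)
    (h3 : 2 * (S.card + 1) + 3 * D ≤ 3 * q)
    (hR : (∏ l ∈ S, (X - C l.2)) * α = g + h * X ^ q) :
    ∃ b0, q ≤ (S.filter fun l => l.2 = b0).card + D := by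
  classical
  set φ := ∏ l ∈ S, (X - C l.2 : (ZMod q)[X]) with hφ
  have hφm : φ.Monic := monic_prod_X_sub_C _ _
  have hφd : φ.natDegree = S.card := natDegree_finsetProd_X_sub_C_eq_card _ _
  have hR0 : φ * α ≠ 0 := mul_ne_zero hφm.ne_zero hα
  have hSe : e < S.card := by omega
  have hh0 : h ≠ 0 := by
    rintro rfl
    rw [zero_mul, add_zero] at hR
    have := natDegree_mul hφm.ne_zero hα
    rw [hR, hφd] at this
    omega
  -- multiples of `φ` among the roots
  have hφr : φ.roots = S.val.map Prod.snd := by
    rw [hφ, Finset.prod_eq_multiset_prod, ← roots_multiset_prod_X_sub_C (S.val.map Prod.snd),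
      Multiset.map_map]
    rfl
  by_cases h1 : g + X * h = 0
  · exfalso
    have hR' : φ * α = h * (X ^ q - X) := by
      rw [hR]
      linear_combination h1
    have hle : S.val.map Prod.snd ≤ h.roots + (univ : Finset (ZMod q)).val := by
      rw [← hφr, ← X_pow_sub_X_roots, ← roots_mul (hR' ▸ hR0)]
      exact roots.le_of_dvd (hR' ▸ hR0) ⟨α, hR'.symm⟩
    have h2 : S.card ≤ h.roots.card + (S.image Prod.snd).card := by
      have e1 : Multiset.card (S.val.map Prod.snd) = S.card := Multiset.card_map _ _
      have e2 := Multiset.toFinset_sum_count_eq (S.val.map Prod.snd)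
      rw [e1] at e2
      have e3 : (S.val.map Prod.snd).toFinset = S.image Prod.snd := rfl
      rw [← e2, e3]
      calc ∑ b ∈ S.image Prod.snd, Multiset.count b (S.val.map Prod.snd)
          ≤ ∑ b ∈ S.image Prod.snd, (Multiset.count b h.roots + 1) := sum_le_sum fun b _ => by
            refine (Multiset.count_le_of_le b hle).trans ?_
            rw [Multiset.count_add,
              Multiset.count_eq_one_of_mem (univ : Finset (ZMod q)).nodup (mem_univ b)]
        _ ≤ _ := by
            rw [sum_add_distrib, sum_const, smul_eq_mul, mul_one]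
            refine Nat.add_le_add_right ?_ _
            calc ∑ b ∈ S.image Prod.snd, Multiset.count b h.roots
                ≤ ∑ b : ZMod q, Multiset.count b h.roots :=
                  sum_le_sum_of_subset (subset_univ _)
              _ = _ := Multiset.sum_count_eq_card fun b _ => mem_univ b
    have := card_roots' h
    omega
  set W := derivative g * h - g * derivative h with hW
  by_cases h2 : W = 0
  · obtain ⟨c, rfl⟩ :=
      exists_smul_of_wronskian_eq_zero hh0 (by omega) (by omega) (sub_eq_zero.1 h2)
    refine ⟨-c, ?_⟩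
    have hR' : φ * α = (X + C c) ^ q * h := by
      rw [hR, add_pow_char, ← C_pow, ZMod.pow_card]
      ring
    set T := S.filter fun l => ¬ l.2 = -c with hT
    have hdvd : ∏ l ∈ T, (X - C l.2) ∣ h := by
      refine IsCoprime.dvd_of_dvd_mul_left ?_ (hR' ▸ Dvd.dvd.mul_right
        (prod_dvd_prod_of_subset T S _ (filter_subset _ _)) α)
      refine IsCoprime.prod_left fun l hl => IsCoprime.pow_right ?_
      have := isCoprime_X_sub_C_of_isUnit_sub (a := l.2) (b := -c)
        (sub_ne_zero.2 (mem_filter.1 hl).2).isUnit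
      simpa using this
    have h4 := natDegree_le_of_dvd hdvd hh0
    rw [natDegree_finsetProd_X_sub_C_eq_card] at h4
    have h5 := card_filter_add_card_filter_not (s := S) (fun l => l.2 = -c)
    rw [← hT] at h5
    omega
  · exfalso
    have hdvd : φ ∣ (g + X * h) * W := by
      rw [hφ, prod_eq_multiset_prod,
        show S.val.map (fun l => X - C l.2) = φ.roots.map fun b => X - C b by
          rw [hφr, Multiset.map_map]; rfl,
        Finset.prod_multiset_map_count]
      refine Finset.prod_dvd_of_coprime
        (fun a _ b _ hab => (isCoprime_X_sub_C_of_isUnit_sub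
          (sub_ne_zero.2 hab).isUnit).pow) fun b hb => ?_
      obtain ⟨k, hk⟩ := Nat.exists_eq_add_of_lt
        (Multiset.count_pos.2 (Multiset.mem_toFinset.1 hb))
      rw [zero_add] at hk
      have hbφ : (X - C b) ^ (k + 1) ∣ g + h * X ^ q := by
        rw [← hR]
        refine Dvd.dvd.mul_right ?_ α
        rw [← hk, count_roots]
        exact pow_rootMultiplicity_dvd φ b
      rw [hk, pow_succ']
      refine mul_dvd_mul ?_ ?_
      · rw [dvd_iff_isRoot]
        have hr := dvd_iff_isRoot.1 ((dvd_pow_self _ k.succ_ne_zero).trans hbφ)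
        simpa [IsRoot.def, ZMod.pow_card, mul_comm] using hr
      · have hb' : (X - C b) ^ k ∣ derivative (g + h * X ^ q) := by
          simpa using pow_sub_one_dvd_derivative_of_pow_dvd hbφ
        have : W = derivative (g + h * X ^ q) * h - (g + h * X ^ q) * derivative h := by
          simp [hW, derivative_X_pow]
          ring
        rw [this]
        exact dvd_sub (hb'.mul_right _)
          (((pow_dvd_pow _ k.le_succ).trans hbφ).mul_right _)
    have h4 := natDegree_le_of_dvd hdvd (mul_ne_zero h1 h2)
    rw [hφd, natDegree_mul h1 h2] at h4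
    have h5 : (g + X * h).natDegree ≤ e + 1 :=
      natDegree_add_le_of_degree_le (hg.trans e.le_succ)
        (natDegree_mul_le.trans (by rw [natDegree_X]; omega))
    have h6 : W.natDegree ≤ 2 * e := by
      refine (natDegree_sub_le _ _).trans (max_le ?_ ?_)
      · have := natDegree_derivative_le g
        exact natDegree_mul_le.trans (by omega)
      · have := natDegree_derivative_le h
        exact natDegree_mul_le.trans (by omega)
    omega

/-- Few graphs covering all but few points of the plane: almost all have the same slope. -/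
theorem common_slope (S : Finset (ZMod q × ZMod q)) (D : ℕ)
    (hU : (univ.filter fun z : ZMod q × ZMod q => ∀ l ∈ S, z.2 ≠ l.2 * z.1 + l.1).card <
      (D + 2).choose 2)
    (hB : (S.image Prod.snd).card + D < q) (h3 : 2 * (S.card + 1) + 3 * D ≤ 3 * q) :
    ∃ b0, q ≤ (S.filter fun l => l.2 = b0).card + D := by
  classical
  obtain ⟨α, d, hdD, hαd, hαn, hαc, hαU⟩ := exists_vanishing _ D hU
  let lin : ZMod q × ZMod q → MvPolynomial (Fin 2) (ZMod q) := fun l =>
    MvPolynomial.X 1 - MvPolynomial.C l.2 * MvPolynomial.X 0 - MvPolynomial.C l.1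
  let f : MvPolynomial (Fin 2) (ZMod q) := (∏ l ∈ S, lin l) * α
  have hf : ∀ x : Fin 2 → ZMod q, MvPolynomial.eval x f = 0 := fun x => by
    by_cases hx : ∀ l ∈ S, x 1 ≠ l.2 * x 0 + l.1
    · simp [f, hαU x (by simpa using hx)]
    · push Not at hx
      obtain ⟨l, hl, hxl⟩ := hx
      rw [map_mul, map_prod, prod_eq_zero hl (by simp [lin, hxl]), zero_mul]
  have hlinT : ∀ l, topMap (lin l) = C (X - C l.2) * X + C (-C l.1) := fun l => by
    simp [lin, topMap]
    ring
  have htot : f.totalDegree ≤ S.card + d := by
    refine (MvPolynomial.totalDegree_mul _ _).trans (Nat.add_le_add ?_ hαd)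
    refine (MvPolynomial.totalDegree_finsetProd _ _).trans ?_
    refine (sum_le_card_nsmul S _ 1 fun l _ => ?_).trans_eq (by simp)
    refine (MvPolynomial.totalDegree_sub _ _).trans (max_le
      ((MvPolynomial.totalDegree_sub _ _).trans (max_le (by simp)
        ((MvPolynomial.totalDegree_mul _ _).trans (by simp)))) (by simp))
  have hRc : (topMap f).coeff (S.card + d) = (∏ l ∈ S, (X - C l.2)) * (topMap α).coeff d := by
    have hl1 : ∀ l ∈ S, (topMap (lin l)).natDegree ≤ 1 := fun l _ => by
      rw [hlinT]; exact natDegree_linear_le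
    have hp := coeff_prod_of_natDegree_le (s := S) (fun l => topMap (lin l)) 1 hl1
    rw [mul_one] at hp
    rw [map_mul, map_prod, coeff_mul_add_eq_of_natDegree_le
      ((natDegree_prod_le _ _).trans ((sum_le_card_nsmul S _ 1 hl1).trans_eq (by simp))) hαn, hp]
    congr 1
    exact prod_congr rfl fun l _ => by rw [hlinT]; simp
  have hα' : (∏ l ∈ S, (X - C l.2)) * (topMap α).coeff d ≠ 0 :=
    mul_ne_zero (monic_prod_X_sub_C _ _).ne_zero hαc
  obtain ⟨H, hH, hfH⟩ := MvPolynomial.combinatorial_nullstellensatz_exists_linearCombination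
    (fun _ : Fin 2 => (univ : Finset (ZMod q))) (fun _ => univ_nonempty) f fun x _ => hf x
  have hP : ∀ i : Fin 2, ∏ s : ZMod q, (MvPolynomial.X i - MvPolynomial.C s) =
      (MvPolynomial.X i : MvPolynomial (Fin 2) (ZMod q)) ^ q - MvPolynomial.X i := fun i => by
    simpa [map_prod] using congrArg (eval₂RingHom (MvPolynomial.C (R := ZMod q))
      (MvPolynomial.X i : MvPolynomial (Fin 2) (ZMod q))) prod_X_sub_C_univ
  simp only [hP] at hH hfH
  rw [Finsupp.linearCombination_apply, Finsupp.sum_fintype _ _ (by simp),
    Fin.sum_univ_two, smul_eq_mul, smul_eq_mul] at hfH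
  have hne : ∀ i : Fin 2, H i ≠ 0 → (H i).totalDegree + q ≤ S.card + d := fun i hi => by
    have hXq : ((MvPolynomial.X i : MvPolynomial (Fin 2) (ZMod q)) ^ q).totalDegree = q :=
      MvPolynomial.totalDegree_X_pow i q
    have hlt : (MvPolynomial.X i : MvPolynomial (Fin 2) (ZMod q)).totalDegree <
        ((MvPolynomial.X i : MvPolynomial (Fin 2) (ZMod q)) ^ q).totalDegree := by
      rw [hXq, MvPolynomial.totalDegree_X]; exact (Fact.out : q.Prime).one_lt
    have hdg : ((MvPolynomial.X i : MvPolynomial (Fin 2) (ZMod q)) ^ q -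
        MvPolynomial.X i).totalDegree = q := by
      rw [sub_eq_add_neg, MvPolynomial.totalDegree_add_eq_left_of_totalDegree_lt
        (by rwa [MvPolynomial.totalDegree_neg]), hXq]
    have h := hH i
    rw [MvPolynomial.totalDegree_mul_of_isDomain
      (fun h0 => by rw [h0, MvPolynomial.totalDegree_zero] at hdg;
                    exact (Fact.out : q.Prime).ne_zero hdg.symm) hi, hdg] at h
    omega
  have hn : q ≤ S.card + d := by
    by_contra hlt
    have h0 : ∀ i : Fin 2, H i = 0 := fun i => by
      by_contra hi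
      have := hne i hi
      omega
    rw [h0, h0, zero_mul, zero_mul, zero_add] at hfH
    exact hα' (by rw [← hRc, hfH]; simp)
  obtain ⟨e, he⟩ := Nat.exists_eq_add_of_le hn
  have hHe : ∀ i : Fin 2, (topMap (H i)).natDegree ≤ e := fun i => by
    by_cases hi : H i = 0
    · simp [hi]
    · exact (topMap_natDegree_le _).trans (by have := hne i hi; omega)
  refine common_slope_of_top S hαc (natDegree_coeff_topMap_le (H 0) e)
    (natDegree_coeff_topMap_le (H 1) e) hdD he.symm hB h3 ?_
  have hq1 : (1 : ℕ) < q := (Fact.out : q.Prime).one_lt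
  have hT0 : topMap ((MvPolynomial.X 0 : MvPolynomial (Fin 2) (ZMod q)) ^ q - MvPolynomial.X 0) =
      X ^ q - X := by simp [topMap]
  have hT1 : topMap ((MvPolynomial.X 1 : MvPolynomial (Fin 2) (ZMod q)) ^ q - MvPolynomial.X 1) =
      C (X ^ q) * X ^ q - C X * X := by simp [topMap, mul_pow]
  rw [← hRc, hfH, he, add_comm q e, map_add, map_mul, map_mul, coeff_add, hT0, hT1,
    coeff_mul_add_eq_of_natDegree_le (hHe 0) ?_, coeff_mul_add_eq_of_natDegree_le (hHe 1) ?_]
  · simp [coeff_X, hq1.ne, -map_pow]
  · refine (natDegree_sub_le _ _).trans (max_le (natDegree_C_mul_X_pow_le _ _) ?_)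
    exact (natDegree_C_mul_le _ _).trans (by rw [natDegree_X]; omega)
  · refine (natDegree_sub_le _ _).trans (max_le (natDegree_X_pow_le _) ?_)
    rw [natDegree_X]; omega

end Vale.Agent.P045
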