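import Vale.Agent.P045.Plane
import Vale.Agent.P045.RedeiCore

/-!
# P045: lines covering almost all of `AG(2,q)` are almost all concurrent
-/

namespace Vale.Agent.P045

open Finset

variable {q : ℕ} [Fact q.Prime]

/-- The affine function cutting out a line. -/
def lev : Line q → ZMod q × ZMod q → ZMod q
  | (some a, b), p => p.2 - a * p.1 - b
  | (none, c), p => p.1 - c

/-- Its linear part. -/
def ldir : Line q → ZMod q × ZMod q → ZMod q
  | (some a, _), v => v.2 - a * v.1
  | (none, _), v => v.1

/-- A direction vector of a line. -/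
def along : Line q → ZMod q × ZMod q
  | (some a, _) => (1, a)
  | (none, _) => (0, 1)

/-- A direction vector transversal to a line. -/
def across : Line q → ZMod q × ZMod q
  | (some _, _) => (0, 1)
  | (none, _) => (1, 0)

theorem onLine_iff (p : ZMod q × ZMod q) (l : Line q) : OnLine p l ↔ lev l p = 0 := by
  rcases l with ⟨a | a, b⟩ <;> simp [OnLine, lev, sub_eq_zero, sub_sub]

theorem lev_add (l : Line q) (p E E' : ZMod q × ZMod q) (u v : ZMod q) :
    lev l (p + u • E + v • E') = lev l p + u * ldir l E + v * ldir l E' := by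
  rcases l with ⟨a | a, b⟩ <;>
    simp only [lev, ldir, Prod.fst_add, Prod.snd_add, Prod.smul_fst, Prod.smul_snd,
      smul_eq_mul] <;> ring

theorem ldir_along (l : Line q) : ldir l (along l) = 0 := by
  rcases l with ⟨a | a, b⟩ <;> simp [ldir, along]

theorem ldir_across (l : Line q) : ldir l (across l) = 1 := by
  rcases l with ⟨a | a, b⟩ <;> simp [ldir, across]

theorem fst_eq_of_ldir_along {l m : Line q} (h : ldir l (along m) = 0) : l.1 = m.1 := by
  rcases l with ⟨a | a, b⟩ <;> rcases m with ⟨c | c, d⟩ <;>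
    simp [ldir, along, sub_eq_zero] at h ⊢
  exact h.symm

theorem line_ext {l l' : Line q} (h : ∀ p, OnLine p l ↔ OnLine p l') : l = l' := by
  rcases l with ⟨a | a, b⟩ <;> rcases l' with ⟨a' | a', b'⟩
  · simpa [OnLine] using h (b, 0)
  · have h0 : (1 : ZMod q) + (a' * b + b') = a' * b + b' :=
      (h (b, 1 + (a' * b + b'))).1 rfl
    exact absurd h0 (by simp)
  · have h0 : (1 : ZMod q) + (a * b' + b) = a * b' + b :=
      (h (b', 1 + (a * b' + b))).2 rfl
    exact absurd h0 (by simp)
  · have h0 := (h (0, b)).1 (by simp [OnLine])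
    have h1 := (h (1, a + b)).1 (by simp [OnLine])
    simp only [OnLine, mul_zero, zero_add, mul_one] at h0 h1
    simp [h0] at h1 ⊢
    exact h1

theorem card_line (l : Line q) :
    (univ.filter fun p : ZMod q × ZMod q => OnLine p l).card = q := by
  rcases l with ⟨a | a, b⟩
  · refine (card_bij' (t := (univ : Finset (ZMod q))) (fun p _ => p.2) (fun x _ => (b, x))
      (fun _ _ => mem_univ _) (fun x _ => mem_filter.2 ⟨mem_univ _, rfl⟩) (fun p hp => ?_)
      fun _ _ => rfl).trans (by simp [ZMod.card])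
    exact Prod.ext (mem_filter.1 hp).2.symm rfl
  · refine (card_bij' (t := (univ : Finset (ZMod q))) (fun p _ => p.1)
      (fun x _ => (x, a * x + b))
      (fun _ _ => mem_univ _) (fun x _ => mem_filter.2 ⟨mem_univ _, rfl⟩) (fun p hp => ?_)
      fun _ _ => rfl).trans (by simp [ZMod.card])
    exact Prod.ext rfl (mem_filter.1 hp).2.symm

/-- Lines covering all but few points of `AG(2,q)`, `q` prime, with about `q` lines: almost all
of them are concurrent in an affine point or parallel. -/
theorem exists_concurrent {q : ℕ} [Fact q.Prime] (Ls : Finset (Line q)) (D δ : ℕ)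
    (hδ : (Finset.univ.filter (fun p : ZMod q × ZMod q => ∀ l ∈ Ls, ¬ OnLine p l)).card ≤ δ)
    (hD : δ + q < (D + 2).choose 2)
    (h3 : 2 * Ls.card + 3 * D ≤ 3 * q)
    (havg : Ls.card * (D + 2) + 2 * δ + Ls.card * q ≤ 2 * q ^ 2) :
    (∃ p : ZMod q × ZMod q, q ≤ (Ls.filter (fun l => OnLine p l)).card + D) ∨
    (∃ σ : Option (ZMod q), q ≤ (Ls.filter (fun l => l.1 = σ)).card + D) := by
  classical
  have hq2 : 2 ≤ q := (Fact.out : q.Prime).two_le
  let U₀ := univ.filter fun p : ZMod q × ZMod q => ∀ l ∈ Ls, ¬ OnLine p l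
  let cnt : ZMod q × ZMod q → ℕ := fun p => (Ls.filter fun l => OnLine p l).card
  let Z := univ.filter fun p : ZMod q × ZMod q => cnt p = 1
  -- a line with many points covered only by itself
  have hU₀ : U₀ = univ.filter fun p => cnt p = 0 := by
    ext p
    simp [U₀, cnt, card_eq_zero, filter_eq_empty_iff]
  obtain ⟨l1, hl1, hn1⟩ : ∃ l1 ∈ Ls, D + 2 ≤ (Z.filter fun p => OnLine p l1).card := by
    have hne : Ls.Nonempty := by
      rw [nonempty_iff_ne_empty]
      rintro rfl
      simp only [notMem_empty, IsEmpty.forall_iff, implies_true, filter_true, card_univ,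
        Fintype.card_prod, ZMod.card, card_empty] at hδ h3
      have h5 : (D + 2).choose 2 ≤ (q + 2).choose 2 := Nat.choose_le_choose _ (by omega)
      have h6 : (q + 2).choose 2 ≤ q * q + q := by
        rw [Nat.choose_two_right, show q + 2 - 1 = q + 1 from rfl]
        refine Nat.div_le_of_le_mul ?_
        nlinarith
      omega
    have hsum : ∑ p, cnt p = Ls.card * q := by
      rw [show ∑ p, cnt p = ∑ l ∈ Ls, (univ.filter fun p => OnLine p l).card from
        sum_card_bipartiteAbove_eq_sum_card_bipartiteBelow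
          (r := fun p l => OnLine p l) (s := univ) (t := Ls)]
      simp [card_line]
    have hZ : ∑ l ∈ Ls, (Z.filter fun p => OnLine p l).card = Z.card := by
      rw [card_eq_sum_ones Z]
      exact (sum_card_bipartiteAbove_eq_sum_card_bipartiteBelow
        (r := fun p l => OnLine p l) (s := Z) (t := Ls)).symm.trans
          (sum_congr rfl fun p hp => (mem_filter.1 hp).2)
    have hpt : ∀ p, 2 ≤ cnt p + (if cnt p = 1 then 1 else 0) + (if cnt p = 0 then 2 else 0) :=
      fun p => by split_ifs <;> omega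
    have h := sum_le_sum (s := univ) fun p _ => hpt p
    simp only [sum_add_distrib, sum_const, card_univ, Fintype.card_prod, ZMod.card, smul_eq_mul,
      ← sum_filter, hsum, mul_one] at h
    rw [← hU₀] at h
    refine exists_le_of_sum_le hne ?_
    rw [sum_const, smul_eq_mul, hZ]
    change q * q * 2 ≤ Ls.card * q + Z.card + U₀.card * 2 at h
    change U₀.card ≤ δ at hδ
    rw [sq] at havg
    omega
  obtain ⟨Q0, hQ0⟩ : (Z.filter fun p => OnLine p l1).Nonempty := card_pos.1 (by omega)
  obtain ⟨hQZ, hQ1⟩ := mem_filter.1 hQ0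
  rw [onLine_iff] at hQ1
  set E1 := across l1
  set E2 := along l1
  let Φ : Line q → ZMod q × ZMod q := fun l => (-ldir l E1 / lev l Q0, -ldir l E2 / lev l Q0)
  have honly : ∀ p ∈ Z, ∀ l ∈ Ls, OnLine p l → OnLine p l1 → l = l1 := fun p hp l hl h h1 =>
    card_le_one.1 (mem_filter.1 hp).2.le l (mem_filter.2 ⟨hl, h⟩) l1 (mem_filter.2 ⟨hl1, h1⟩)
  have hκ : ∀ l ∈ Ls.erase l1, lev l Q0 ≠ 0 := fun l hl h =>
    (mem_erase.1 hl).1 (honly Q0 hQZ l (mem_erase.1 hl).2 ((onLine_iff _ _).2 h)
      ((onLine_iff _ _).2 hQ1))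
  have hcoord : ∀ p : ZMod q × ZMod q, ∃ u v, p = Q0 + u • E1 + v • E2 := fun p => by
    rcases hl : l1 with ⟨a | a, b⟩
    · exact ⟨p.1 - Q0.1, p.2 - Q0.2, by simp [E1, E2, hl, along, across, Prod.ext_iff]⟩
    · exact ⟨p.2 - Q0.2 - a * (p.1 - Q0.1), p.1 - Q0.1, by
        simp [E1, E2, hl, along, across, Prod.ext_iff]; ring⟩
  have hlev : ∀ l ∈ Ls.erase l1, ∀ u v, lev l (Q0 + u • E1 + v • E2) =
      lev l Q0 * (1 - u * (Φ l).1 - v * (Φ l).2) := fun l hl u v => by
    have := hκ l hl
    rw [lev_add]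
    simp only [Φ]
    field_simp
    ring
  have hinj : Set.InjOn Φ (Ls.erase l1 : Finset (Line q)) := fun l hl m hm h => by
    refine line_ext fun p => ?_
    obtain ⟨u, v, rfl⟩ := hcoord p
    rw [onLine_iff, onLine_iff, hlev l hl, hlev m hm, h, mul_eq_zero, mul_eq_zero,
      or_iff_right (hκ l hl), or_iff_right (hκ m hm)]
  set S := (Ls.erase l1).image Φ with hS
  have hScard : S.card + 1 = Ls.card := by
    rw [hS, card_image_of_injOn hinj, card_erase_add_one hl1]
  -- the uncovered points of the new plane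
  have hU : (univ.filter fun z : ZMod q × ZMod q => ∀ l ∈ S, z.2 ≠ l.2 * z.1 + l.1).card <
      (D + 2).choose 2 := by
    refine lt_of_le_of_lt ?_ hD
    refine (card_le_card_sdiff_add_card (t := univ ×ˢ {(0 : ZMod q)})).trans
      (Nat.add_le_add (le_trans ?_ hδ) (by simp [ZMod.card]))
    refine card_le_card_of_injOn (fun z => Q0 + z.2⁻¹ • E1 + (z.1 * z.2⁻¹) • E2) ?_ ?_
    · intro z hz
      simp only [coe_sdiff, Set.mem_sdiff, coe_filter, Set.mem_ofPred_eq, mem_univ, true_and,
        coe_product, coe_univ, coe_singleton, Set.mem_prod, Set.mem_univ,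
        Set.mem_singleton_iff] at hz
      simp only [coe_filter, Set.mem_ofPred_eq, mem_univ, true_and, onLine_iff]
      intro l hl h
      by_cases hl' : l = l1
      · subst hl'
        rw [lev_add, hQ1, ldir_across, ldir_along] at h
        simp [hz.2] at h
      · have hl2 : l ∈ Ls.erase l1 := mem_erase.2 ⟨hl', hl⟩
        rw [hlev l hl2] at h
        refine hz.1 (Φ l) (mem_image_of_mem _ hl2) ?_
        have h2 := (mul_eq_zero.1 h).resolve_left (hκ l hl2)
        have := hz.2
        field_simp at h2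
        linear_combination h2
    · intro z hz w hw h
      simp only [coe_sdiff, Set.mem_sdiff, coe_product, coe_univ, coe_singleton, Set.mem_prod,
        Set.mem_univ, true_and, Set.mem_singleton_iff] at hz hw
      have h1 := congrArg (lev l1) h
      rw [lev_add, lev_add, hQ1, ldir_across, ldir_along] at h1
      simp at h1
      have h2 : lev (some 0, 0) (Q0 + z.2⁻¹ • E1 + (z.1 * z.2⁻¹) • E2) =
          lev (some 0, 0) (Q0 + w.2⁻¹ • E1 + (w.1 * w.2⁻¹) • E2) := congrArg _ h
      have h3 : lev (none, 0) (Q0 + z.2⁻¹ • E1 + (z.1 * z.2⁻¹) • E2) =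
          lev (none, 0) (Q0 + w.2⁻¹ • E1 + (w.1 * w.2⁻¹) • E2) := congrArg _ h
      rw [lev_add, lev_add, h1] at h2 h3
      refine Prod.ext (mul_right_cancel₀ (inv_ne_zero hw.2) ?_) h1
      rcases hl : l1 with ⟨a | a, b⟩
      · simpa [E2, hl, along, ldir, h1] using h2
      · simpa [E2, hl, along, ldir, h1] using h3
  -- few slopes
  have hB : (S.image Prod.snd).card + D < q := by
    have hB' : ((S.image Prod.snd).erase 0).card ≤
        ((univ.filter fun p => OnLine p l1) \ Z).card := by
      refine card_le_card_of_injOn (fun B => Q0 + (0 : ZMod q) • E1 + B⁻¹ • E2) ?_ ?_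
      · intro B hB
        obtain ⟨hB0, hB1⟩ := mem_erase.1 hB
        obtain ⟨z, hz, rfl⟩ := mem_image.1 hB1
        obtain ⟨l, hl, rfl⟩ := mem_image.1 hz
        simp only [mem_coe, mem_sdiff, mem_filter, mem_univ, true_and]
        have h1 : OnLine (Q0 + (0 : ZMod q) • E1 + (Φ l).2⁻¹ • E2) l1 := by
          rw [onLine_iff, lev_add, hQ1, ldir_along]; simp
        refine ⟨h1, fun hZ => (mem_erase.1 hl).1 (honly _ hZ l (mem_erase.1 hl).2 ?_ h1)⟩
        rw [onLine_iff, hlev l hl, inv_mul_cancel₀ hB0]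
        simp
      · intro B hB B' hB' h
        have h2 : lev (some 0, 0) (Q0 + (0 : ZMod q) • E1 + B⁻¹ • E2) =
            lev (some 0, 0) (Q0 + (0 : ZMod q) • E1 + B'⁻¹ • E2) := congrArg _ h
        have h3 : lev (none, 0) (Q0 + (0 : ZMod q) • E1 + B⁻¹ • E2) =
            lev (none, 0) (Q0 + (0 : ZMod q) • E1 + B'⁻¹ • E2) := congrArg _ h
        rw [lev_add, lev_add] at h2 h3
        refine inv_injective ?_
        rcases hl : l1 with ⟨a | a, b⟩
        · simpa [E2, hl, along, ldir] using h2
        · simpa [E2, hl, along, ldir] using h3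
    have h := card_sdiff_add_card_inter (univ.filter fun p => OnLine p l1) Z
    rw [card_line, inter_comm, inter_filter, inter_univ] at h
    have := pred_card_le_card_erase (s := S.image Prod.snd) (a := (0 : ZMod q))
    omega
  obtain ⟨b0, hb0⟩ := common_slope S D hU hB (by omega)
  rw [hS, filter_image, card_image_of_injOn
    (hinj.mono (coe_subset.2 (filter_subset _ _)))] at hb0
  by_cases hb : b0 = 0
  · right
    refine ⟨l1.1, hb0.trans (Nat.add_le_add_right (card_le_card fun l hl => ?_) D)⟩
    obtain ⟨hl, hl2⟩ := mem_filter.1 hl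
    refine mem_filter.2 ⟨(mem_erase.1 hl).2, fst_eq_of_ldir_along ?_⟩
    simpa [Φ, hb, hκ l hl] using hl2
  · left
    refine ⟨Q0 + (0 : ZMod q) • E1 + b0⁻¹ • E2,
      hb0.trans (Nat.add_le_add_right (card_le_card fun l hl => ?_) D)⟩
    obtain ⟨hl, hl2⟩ := mem_filter.1 hl
    refine mem_filter.2 ⟨(mem_erase.1 hl).2, ?_⟩
    rw [onLine_iff, hlev l hl, hl2, inv_mul_cancel₀ hb]
    simp

end Vale.Agent.P045
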