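import Mathlib
import Vale.Agent.P045.CoverTrace
import Vale.Agent.P045.Redei

/-!
# P045: a small cover contains almost all ordinary lines of one pencil
-/

set_option linter.unusedSectionVars false

namespace Vale.Agent.P045

open Finset

variable {q : ℕ} [Fact q.Prime] {K : Type*} [Field K] [Fintype K] [DecidableEq K]

/-- The lines through an affine point. -/
def linesThru (P : Pt q) : Finset (Line q) := univ.image (lineThru P)

/-- The lines of one slope. -/
def linesDir (s : Slope q) : Finset (Line q) := univ.filter fun l => l.1 = s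

open Classical in
/-- The lines of a finset which are not ordinary. -/
noncomputable def desig (Λ : Finset (Line q)) : Finset (Line q) :=
  Λ.filter fun l => ¬ Ordinary l

lemma mem_linesThru {P : Pt q} {l : Line q} : l ∈ linesThru P ↔ OnLine P l := by
  constructor
  · intro h
    obtain ⟨s, -, rfl⟩ := mem_image.1 h
    exact onLine_lineThru P s
  · intro h
    exact mem_image.2 ⟨l.1, mem_univ _, lineThru_eq h⟩

lemma card_linesThru (P : Pt q) : (linesThru P).card = q + 1 := by
  rw [linesThru, card_image_of_injective _ fun s t h => by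
    rw [← lineThru_fst P s, h, lineThru_fst], card_univ, card_slope]

lemma card_linesDir (s : Slope q) : (linesDir s).card = q := by
  have h : linesDir s = (univ : Finset (ZMod q)).image fun b => (s, b) := by
    ext ⟨a, b⟩; simp [linesDir, eq_comm]
  rw [h, card_image_of_injective _ fun a b e => congrArg Prod.snd e, card_univ, ZMod.card]

open Classical in
lemma desig_card_le (hq : 1000 ≤ q) {Λ : Finset (Line q)} (f : Fin 4 → Line q)
    (hf : ∀ l ∈ Λ, ∀ a, OnLine (cen a) l → l = f a) :
    (desig Λ).card ≤ (univ.image f).card + (univ.filter fun i => wLine i ∈ Λ).card := by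
  have := hq
  refine le_trans (card_le_card (t := univ.image f ∪
    (univ.filter fun i => wLine i ∈ Λ).image wLine) ?_)
    (le_trans (card_union_le _ _) (Nat.add_le_add_left card_image_le _))
  intro l hl
  obtain ⟨hl, hn⟩ := mem_filter.1 hl
  by_cases h : ∀ a, ¬ OnLine (cen a) l
  · have : ∃ i, l = wLine i := by
      by_contra hh
      exact hn ⟨h, fun i e => hh ⟨i, e⟩⟩
    obtain ⟨i, rfl⟩ := this
    exact mem_union_right _ (mem_image.2 ⟨i, mem_filter.2 ⟨mem_univ _, hl⟩, rfl⟩)
  · push Not at h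
    obtain ⟨a, ha⟩ := h
    exact mem_union_left _ (mem_image.2 ⟨a, mem_univ _, (hf l hl a ha).symm⟩)

section Arith

variable {q m κ cap Dl U e F R δ : ℕ}

private lemma unchosen_le (h1 : U * q ≤ (2 * m + 10 + U) * (U + cap) + U * (Dl + 1))
    (h2 : U ≤ q / 16 + 1) (h3 : 4 * cap ≤ q) (h4 : 4096 * (Dl + m + 1) ≤ q) (h5 : 1000 ≤ q) :
    U ≤ m + 5 := by
  have e1 : 2 * (2 * m + 10 + U + cap + (Dl + 1)) ≤ q := by omega
  have e2 := Nat.mul_le_mul_left U e1
  have e3 := Nat.mul_le_mul_left (2 * m + 10) h3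
  have e4 : U * q ≤ (m + 5) * q := by linarith
  exact Nat.le_of_mul_le_mul_right e4 (by omega)

private lemma ordinary_false (h1 : q ≤ (3 * m + 15) * (κ + 31) + Dl + 1)
    (h2 : 8 * m * (κ + 100) ≤ q) (h3 : 4096 * (Dl + m + 1) ≤ q) (h4 : 1000 ≤ m) : False := by
  have e1 : 2 * ((3 * m + 15) * (κ + 31)) ≤ 8 * m * (κ + 100) := by
    rw [← Nat.mul_assoc]
    exact Nat.mul_le_mul (by omega) (by omega)
  omega

private lemma rest_le (h1 : q ^ 2 ≤ e * cap + F * q + (q + 1) * Dl)
    (h2 : (F + e) * q ≤ (q + 2 * m) * q) (h3 : 4 * cap ≤ q) (hq : 1 ≤ q) :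
    3 * e ≤ 8 * (m + Dl) := by
  have e1 := Nat.mul_le_mul_left e h3
  have e2 := Nat.mul_le_mul_right Dl hq
  have e4 : (3 * e) * q ≤ (8 * (m + Dl)) * q := by linarith
  exact Nat.le_of_mul_le_mul_right e4 hq

private lemma uncovered_lt (h1 : 3 * e ≤ 8 * (m + Dl)) (h3 : 4 * cap ≤ q)
    (h4 : 4096 * (Dl + m + 1) ≤ q) (hδ : δ = (q + 1) * Dl + e * cap) (hq : 1 ≤ q) :
    512 * (δ + q) < q * q := by
  have e1 := Nat.mul_le_mul_left e h3
  have e2 := Nat.mul_le_mul_right Dl hq
  have e3 := Nat.mul_le_mul_right q h1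
  have e4 := Nat.mul_le_mul_right q h4
  subst hδ
  nlinarith [Nat.zero_le (m * q), Nat.zero_le (Dl * q)]

private lemma lt_choose (h1 : 512 * (δ + q) < q * q) (h2 : q ≤ 16 * R + 15) :
    δ + q < (R + 2).choose 2 := by
  have e1 : q * q ≤ 16 * (R + 1) * (16 * (R + 1)) := Nat.mul_self_le_mul_self (by omega)
  have e2 : (R + 1) * (R + 1) ≤ (R + 2) * (R + 1) := Nat.mul_le_mul_right _ (by omega)
  have e3 : (R + 2).choose 2 = (R + 2) * (R + 1) / 2 := by rw [Nat.choose_two_right]; congr 1
  rw [e3, Nat.lt_iff_add_one_le, Nat.le_div_iff_mul_le (by norm_num)]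
  linarith

private lemma average_ok (h1 : F ≤ q + 2 * m) (h2 : 16 * R ≤ q)
    (h3 : 512 * (δ + q) < q * q) (h4 : 4096 * (Dl + m + 1) ≤ q) (hq : 1000 ≤ q) :
    F * (R + 2) + 2 * δ + F * q ≤ 2 * q ^ 2 := by
  have e1 := Nat.mul_le_mul_right (R + 2) h1
  have e2 := Nat.mul_le_mul_right q h1
  have e3 := Nat.mul_le_mul_left (q + 2 * m) h2
  have e4 := Nat.mul_le_mul_right q h4
  have e5 := Nat.mul_le_mul_right q hq
  nlinarith [Nat.zero_le (m * q), Nat.zero_le (Dl * q), Nat.zero_le (R * q), Nat.zero_le δ]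

end Arith

namespace Data

variable {D : Data q K}

/-- On an ordinary line every block but the line itself has few points. -/
lemma trace_ordinary {T κ g Dl err : ℕ} (hq : 1000 ≤ q) (h : Good D T κ g Dl err) {l : Line q}
    (hl : Ordinary l) {b : Blk q K (modM K)} (hb : b ≠ .line l .whole) :
    ((D.trace b).filter fun p => OnLine p l).card ≤ κ + 31 := by
  classical
  set S := (D.trace b).filter fun p => OnLine p l with hS
  have hside : (S.filter fun p => OnSide p).card ≤ 6 := by
    refine le_trans (card_le_card_of_injOn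
      (fun p => if hh : ∃ i, OnLine p (sameSide i) then Sum.inl hh.choose
        else if h2 : OnCross p then Sum.inr h2.choose else Sum.inr (0, 0))
      (t := (univ : Finset (Fin 2 ⊕ (Fin 2 × Fin 2)))) (fun p _ => mem_univ _) ?_) (by simp)
    intro p hp p' hp' e
    obtain ⟨hp, hps⟩ := mem_filter.1 hp
    obtain ⟨hp', hps'⟩ := mem_filter.1 hp'
    have hon := (mem_filter.1 hp).2
    have hon' := (mem_filter.1 hp').2
    simp only at e
    by_cases h1 : ∃ i, OnLine p (sameSide i)
    · by_cases h1' : ∃ i, OnLine p' (sameSide i)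
      · rw [dif_pos h1, dif_pos h1'] at e
        injection e with e
        have c1 := h1.choose_spec
        have c2 := h1'.choose_spec
        rw [← e] at c2
        refine pt_eq_of_two (fun ee => ?_) hon' hon c2 c1
        exact hl.1 (fstC h1.choose) (ee ▸ (cen_on_sameSide hq _ _).2 (Or.inl rfl))
      · rw [dif_pos h1, dif_neg h1'] at e
        split at e <;> simp at e
    · have h2 : OnCross p := hps.resolve_left h1
      by_cases h1' : ∃ i, OnLine p' (sameSide i)
      · rw [dif_neg h1, dif_pos h2, dif_pos h1'] at e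
        simp at e
      · have h2' : OnCross p' := hps'.resolve_left h1'
        rw [dif_neg h1, dif_pos h2, dif_neg h1', dif_pos h2'] at e
        injection e with e
        have c1 := h2.choose_spec
        have c2 := h2'.choose_spec
        rw [← e] at c2
        refine pt_eq_of_two (fun ee => ?_) hon' hon c2 c1
        exact hl.1 (crossA h2.choose) (ee ▸ (cen_on_crossSide hq _ _).2 (Or.inl rfl))
  have hrest : (S.filter fun p => ¬ OnSide p).card ≤ κ + 21 := by
    cases b with
    | tag s =>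
        refine le_trans (card_le_card (filter_subset _ _))
          (le_trans (tag_trace_line hq s fun e => ?_) (by omega))
        exact hl.1 1 (e ▸ onLine_lineThru _ _)
    | spec i μ a =>
        refine le_trans (card_le_card fun p hp => (mem_filter.1 (mem_filter.1 hp).1).1) ?_
        have := spec_trace_card hq h i μ a
        omega
    | cell γ d c₁ c₂ =>
        refine le_trans (le_trans (card_le_card ?_)
          (h.cellLine γ l d c₁ c₂ (hl.1 _) (hl.1 _))) (Nat.le_add_right _ _)
        intro p hp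
        obtain ⟨h1, hps⟩ := mem_filter.1 hp
        obtain ⟨h1, hon⟩ := mem_filter.1 h1
        obtain ⟨hm, hbl⟩ := mem_trace.1 h1
        obtain ⟨-, e1, e2⟩ := inBlk_cell hbl
        exact mem_filter.2 ⟨mem_linePts.2 ⟨hm, hon, hps⟩, e1, e2⟩
    | line l' π =>
        refine le_trans (card_le_one.2 fun p hp p' hp' => ?_) (by omega)
        obtain ⟨h1, -⟩ := mem_filter.1 hp
        obtain ⟨h1, hon⟩ := mem_filter.1 h1
        obtain ⟨h1', -⟩ := mem_filter.1 hp'
        obtain ⟨h1', hon'⟩ := mem_filter.1 h1'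
        obtain ⟨k1, k2⟩ := inBlk_line (mem_trace.1 h1).2
        obtain ⟨k1', -⟩ := inBlk_line (mem_trace.1 h1').2
        refine pt_eq_of_two (fun ee => ?_) hon' hon k1' k1
        subst ee
        rw [block_ordinary hq hl k1] at k2
        exact hb k2.symm
  have h3 : S.card ≤ (S.filter fun p => OnSide p).card + (S.filter fun p => ¬ OnSide p).card := by
    refine le_trans (card_le_card fun p hp => ?_) (card_union_le _ _)
    by_cases hp' : OnSide p
    · exact mem_union_left _ (mem_filter.2 ⟨hp, hp'⟩)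
    · exact mem_union_right _ (mem_filter.2 ⟨hp, hp'⟩)
  omega

open Classical in
/-- The statement used by the case analysis: `B'` covers the designated lines of a pencil. -/
def Remainder (D : Data q K) (Λ : Finset (Line q)) (Ex : Finset (Pt q))
    (B' : Finset (Blk q K (modM K))) : Prop :=
  B'.card + Λ.card ≤ q + 2 * Fintype.card K + (desig Λ).card ∧
    ∀ y ∈ D.pts, y ∉ Ex → (∃ l ∈ desig Λ, OnLine y l) → ∃ b ∈ B', D.InBlk y b

/-- The main step: counting inside a pencil which is almost completely chosen. -/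
theorem pencil_step {T κ g Dl err kk : ℕ} (hq : 1000 ≤ q) (h : Good D T κ g Dl err)
    (hs : Sizes q (Fintype.card K) T κ g Dl err kk) (Bl : Finset (Blk q K (modM K)))
    (hcard : Bl.card ≤ q + 2 * Fintype.card K)
    (hcov : ∀ y ∈ D.pts, ∃ b ∈ Bl, D.InBlk y b)
    (Λ : Finset (Line q)) (Ex : Finset (Pt q)) (hEx : Ex.card ≤ 1)
    (hΛ : q ≤ Λ.card) (hΛ' : Λ.card ≤ q + 1)
    (hmeet : ∀ l ∈ Λ, ∀ l' ∈ Λ, l ≠ l' → ∀ y, OnLine y l → OnLine y l' → y ∈ Ex)
    (hdes : (desig Λ).card ≤ 10)
    (hbig : ∃ F₀ ⊆ Λ, q ≤ F₀.card + q / 16 ∧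
      ∀ l ∈ F₀, Ordinary l ∧ Blk.line l .whole ∈ Bl) :
    ∃ B', D.Remainder Λ Ex B' := by
  classical
  set m := Fintype.card K with hm
  obtain ⟨F₀, hF₀, hF₀c, hF₀m⟩ := hbig
  set ord := Λ.filter fun l => Ordinary l with hord
  set F := ord.filter fun l => Blk.line l .whole ∈ Bl with hF
  set U := ord.filter fun l => ¬ Blk.line l .whole ∈ Bl with hU
  set P := F.image fun l => (Blk.line l .whole : Blk q K (modM K)) with hP
  set B' := Bl \ P with hB'
  have hordc : ord.card + (desig Λ).card = Λ.card := card_filter_add_card_filter_not _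
  have hFU : F.card + U.card = ord.card := card_filter_add_card_filter_not _
  have hPc : P.card = F.card :=
    card_image_of_injective _ fun a b e => by injection e
  have hPsub : P ⊆ Bl := fun b hb => by
    obtain ⟨l, hl, rfl⟩ := mem_image.1 hb
    exact (mem_filter.1 hl).2
  have hB'c : B'.card + F.card = Bl.card := by
    rw [← hPc]; exact card_sdiff_add_card_eq_card hPsub
  have hFlow : F₀.card ≤ F.card := card_le_card fun l hl =>
    mem_filter.2 ⟨mem_filter.2 ⟨hF₀ hl, (hF₀m l hl).1⟩, (hF₀m l hl).2⟩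
  have hcov' : ∀ y ∈ D.pts, y ∉ Ex → ∀ l ∈ Λ, l ∉ F → OnLine y l →
      ∃ b ∈ B', D.InBlk y b := by
    intro y hy hyE l hl hlF hon
    obtain ⟨b, hb, hyb⟩ := hcov y hy
    refine ⟨b, mem_sdiff.2 ⟨hb, fun hbP => ?_⟩, hyb⟩
    obtain ⟨l', hl', rfl⟩ := mem_image.1 hbP
    exact hyE (hmeet l hl l' (mem_filter.1 (mem_filter.1 hl').1).1
      (fun e => hlF (e ▸ hl')) y hon (inBlk_line hyb).1)
  have hUz : U = ∅ := by
    by_contra hne
    obtain ⟨l₀, hl₀⟩ := nonempty_iff_ne_empty.2 hne
    have hUl : ∀ l ∈ U, Ordinary l ∧ l ∈ Λ ∧ l ∉ F ∧ Blk.line l .whole ∉ Bl := fun l hl => by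
      obtain ⟨h1, h2⟩ := mem_filter.1 hl
      exact ⟨(mem_filter.1 h1).2, (mem_filter.1 h1).1,
        fun hF' => h2 (mem_filter.1 hF').2, h2⟩
    set pl := fun l => (D.pts.filter fun y => OnLine y l) \ Ex with hpl
    have hlow : ∀ l ∈ U, q ≤ (pl l).card + Dl + 1 := fun l hl => by
      refine le_trans (h.line_low l (hUl l hl).1) ?_
      suffices hX : _ ≤ (pl l).card + 1 from Nat.le_trans (Nat.add_le_add_right hX Dl) (by omega)
      refine le_trans (card_le_card (t := pl l ∪ Ex) fun y hy => ?_)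
        (le_trans (card_union_le _ _) (Nat.add_le_add_left hEx _))
      by_cases hyE : y ∈ Ex
      · exact mem_union_right _ hyE
      · exact mem_union_left _ (mem_sdiff.2 ⟨mem_filter.2 (mem_filter.1 hy), hyE⟩)
    have hper : ∀ b ∈ B', ∀ l ∈ U, ((D.trace b).filter fun p => OnLine p l).card ≤ κ + 31 :=
      fun b hb l hl => trace_ordinary hq h (hUl l hl).1
        (fun e => (hUl l hl).2.2.2 (e ▸ (mem_sdiff.1 hb).1))
    have hcap : 4 * ((T + 3) ^ 2 + κ + 24) ≤ q := hs.T_sq
    set cap := (T + 3) ^ 2 + κ + 24 with hcap'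
    have hblock : ∀ b ∈ B',
        ((U.biUnion pl).filter fun y => D.InBlk y b).card ≤ U.card + cap := by
      intro b hb
      by_cases hord' : ∃ l, Ordinary l ∧ b = .line l .whole
      · obtain ⟨l, hlo, rfl⟩ := hord'
        refine le_trans ?_ (Nat.le_add_right _ _)
        refine le_trans (card_le_card (t := U.biUnion fun l' =>
          (univ.filter fun y : Pt q => OnLine y l ∧ OnLine y l')) ?_)
          (le_trans card_biUnion_le (le_trans (sum_le_sum fun l' hl' => ?_)
            (by simp : ∑ _l' ∈ U, (1 : ℕ) ≤ U.card)))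
        · intro y hy
          obtain ⟨hy, hyb⟩ := mem_filter.1 hy
          obtain ⟨l', hl', hy⟩ := mem_biUnion.1 hy
          exact mem_biUnion.2 ⟨l', hl', mem_filter.2
            ⟨mem_univ _, (inBlk_line hyb).1, (mem_filter.1 (mem_sdiff.1 hy).1).2⟩⟩
        · refine card_le_one.2 fun y hy y' hy' => ?_
          obtain ⟨-, a1, a2⟩ := mem_filter.1 hy
          obtain ⟨-, b1, b2⟩ := mem_filter.1 hy'
          refine pt_eq_of_two (fun e => ?_) b1 a1 b2 a2
          exact (hUl l' hl').2.2.2 (e ▸ (mem_sdiff.1 hb).1)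
      · refine le_trans (card_le_card fun y hy => ?_) (le_trans
          (trace_card_le hq h fun l hlo e => hord' ⟨l, hlo, e⟩) (Nat.le_add_left _ _))
        obtain ⟨hy, hyb⟩ := mem_filter.1 hy
        obtain ⟨l', -, hy⟩ := mem_biUnion.1 hy
        exact mem_trace.2 ⟨(mem_filter.1 (mem_sdiff.1 hy).1).1, hyb⟩
    have hdisj : (U : Set (Line q)).PairwiseDisjoint pl := by
      intro l hl l' hl' hne'
      refine disjoint_left.2 fun y hy hy' => ?_
      exact (mem_sdiff.1 hy).2 (hmeet l (hUl l hl).2.1 l' (hUl l' hl').2.1 hne' y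
        (mem_filter.1 (mem_sdiff.1 hy).1).2 (mem_filter.1 (mem_sdiff.1 hy').1).2)
    have htot : (U.biUnion pl).card ≤ B'.card * (U.card + cap) := by
      refine le_trans (card_le_card (t := B'.biUnion fun b =>
        (U.biUnion pl).filter fun y => D.InBlk y b) ?_)
        (le_trans card_biUnion_le (le_trans (sum_le_sum hblock) (by simp)))
      intro y hy
      obtain ⟨l, hl, hy'⟩ := mem_biUnion.1 hy
      obtain ⟨h1, h2⟩ := mem_filter.1 (mem_sdiff.1 hy').1
      obtain ⟨b, hb, hyb⟩ :=
        hcov' y h1 (mem_sdiff.1 hy').2 l (hUl l hl).2.1 (hUl l hl).2.2.1 h2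
      exact mem_biUnion.2 ⟨b, hb, mem_filter.2 ⟨hy, hyb⟩⟩
    have hsum : U.card * q ≤ (U.biUnion pl).card + U.card * (Dl + 1) := by
      rw [card_biUnion hdisj]
      calc U.card * q = ∑ _l ∈ U, q := by simp
        _ ≤ ∑ l ∈ U, ((pl l).card + (Dl + 1)) :=
            sum_le_sum fun l hl => by have := hlow l hl; omega
        _ = _ := by rw [sum_add_distrib]; simp
    have hone : (pl l₀).card ≤ B'.card * (κ + 31) := by
      refine le_trans (card_le_card (t := B'.biUnion fun b =>
        (D.trace b).filter fun p => OnLine p l₀) ?_)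
        (le_trans card_biUnion_le (le_trans (sum_le_sum fun b hb => hper b hb l₀ hl₀) (by simp)))
      intro y hy
      obtain ⟨h1, h2⟩ := mem_filter.1 (mem_sdiff.1 hy).1
      obtain ⟨b, hb, hyb⟩ :=
        hcov' y h1 (mem_sdiff.1 hy).2 l₀ (hUl l₀ hl₀).2.1 (hUl l₀ hl₀).2.2.1 h2
      exact mem_biUnion.2 ⟨b, hb, mem_filter.2 ⟨mem_trace.2 ⟨h1, hyb⟩, h2⟩⟩
    have hlow0 := hlow l₀ hl₀
    have hDl := hs.Dl_small
    have hκ := hs.κ_small
    have hm1 : 1000 ≤ m := le_trans
      (le_trans (Nat.le_mul_of_pos_right _ (by omega)) (Nat.le_mul_of_pos_right _ (by omega)))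
      hs.m_big
    have hB'le : B'.card ≤ 2 * m + 10 + U.card := by omega
    have hU1 : U.card ≤ q / 16 + 1 := by omega
    have hU2 : U.card ≤ m + 5 := unchosen_le (le_trans hsum (Nat.add_le_add_right
      (le_trans htot (Nat.mul_le_mul_right _ hB'le)) _)) hU1 hcap hDl hq
    have e2 : q ≤ (3 * m + 15) * (κ + 31) + Dl + 1 :=
      le_trans hlow0 (by
        have := Nat.mul_le_mul_right (κ + 31) (show B'.card ≤ 3 * m + 15 by omega)
        omega)
    exact ordinary_false e2 hκ hDl hm1
  refine ⟨B', ?_, ?_⟩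
  · rw [hUz, card_empty] at hFU
    omega
  · intro y hy hyE ⟨l, hl, hon⟩
    obtain ⟨hlΛ, hnl⟩ := mem_filter.1 hl
    exact hcov' y hy hyE l hlΛ (fun hF' => hnl (mem_filter.1 (mem_filter.1 hF').1).2) hon

/-- A small cover leaves few blocks for the designated lines of some pencil. -/
theorem exists_remainder {T κ g Dl err kk : ℕ} (hq : 1000 ≤ q) (h : Good D T κ g Dl err)
    (hs : Sizes q (Fintype.card K) T κ g Dl err kk) (Bl : Finset (Blk q K (modM K)))
    (hcard : Bl.card ≤ q + 2 * Fintype.card K)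
    (hcov : ∀ y ∈ D.pts, ∃ b ∈ Bl, D.InBlk y b) :
    (∃ P, ¬ IsCen P ∧ ∃ B', D.Remainder (linesThru P) {P} B') ∨
      ∃ s, ∃ B', D.Remainder (linesDir s) ∅ B' := by
  classical
  set m := Fintype.card K with hm
  set cap := (T + 3) ^ 2 + κ + 24 with hcap'
  have hcap : 4 * cap ≤ q := hs.T_sq
  have hDl := hs.Dl_small
  set F := (univ : Finset (Line q)).filter fun l => Ordinary l ∧ Blk.line l .whole ∈ Bl with hF
  set P := F.image fun l => (Blk.line l .whole : Blk q K (modM K)) with hP
  have hPc : P.card = F.card :=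
    card_image_of_injective _ fun a b e => by injection e
  have hPsub : P ⊆ Bl := fun b hb => by
    obtain ⟨l, hl, rfl⟩ := mem_image.1 hb
    exact (mem_filter.1 hl).2.2
  have hrest : (Bl \ P).card + F.card = Bl.card := by
    rw [← hPc]; exact card_sdiff_add_card_eq_card hPsub
  set Un := (univ : Finset (Pt q)).filter fun p => ∀ l ∈ F, ¬ OnLine p l with hUn
  set Cv := (univ : Finset (Pt q)).filter fun p => ¬ ∀ l ∈ F, ¬ OnLine p l with hCv
  have hsplit : Un.card + Cv.card = q ^ 2 := by
    rw [← card_pt (q := q), ← card_univ]; exact card_filter_add_card_filter_not _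
  have hCvc : Cv.card ≤ F.card * q := by
    refine le_trans (card_le_card (t := F.biUnion fun l =>
      univ.filter fun p : Pt q => OnLine p l) ?_)
      (le_trans card_biUnion_le (le_trans (sum_le_sum (g := fun _ => q) fun l _ => le_of_eq (by convert card_onLine l)) (by simp)))
    intro p hp
    have h2 := (mem_filter.1 hp).2
    push Not at h2
    obtain ⟨l, hl, hon⟩ := h2
    exact mem_biUnion.2 ⟨l, hl, mem_filter.2 ⟨mem_univ _, hon⟩⟩
  have hin : (D.pts ∩ Un).card ≤ (Bl \ P).card * cap := by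
    refine le_trans (card_le_card (t := (Bl \ P).biUnion D.trace) ?_)
      (le_trans card_biUnion_le (le_trans (sum_le_sum fun b hb =>
        trace_card_le hq h fun l hlo e => ?_) (by simp [hcap'])))
    · intro y hy
      obtain ⟨hy, hyU⟩ := mem_inter.1 hy
      obtain ⟨b, hb, hyb⟩ := hcov y hy
      refine mem_biUnion.2 ⟨b, mem_sdiff.2 ⟨hb, fun hbP => ?_⟩, mem_trace.2 ⟨hy, hyb⟩⟩
      obtain ⟨l, hl, rfl⟩ := mem_image.1 hbP
      exact (mem_filter.1 hyU).2 l hl (inBlk_line hyb).1
    · obtain ⟨h1, h2⟩ := mem_sdiff.1 hb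
      subst e
      exact h2 (mem_image.2 ⟨l, mem_filter.2 ⟨mem_univ _, hlo, h1⟩, rfl⟩)
  have hpts : D.pts.card ≤ (D.pts ∩ Un).card + Cv.card := by
    refine le_trans (card_le_card (t := (D.pts ∩ Un) ∪ Cv) ?_) (card_union_le _ _)
    intro y hy
    by_cases hh : ∀ l ∈ F, ¬ OnLine y l
    · exact mem_union_left _ (mem_inter.2 ⟨hy, mem_filter.2 ⟨mem_univ _, hh⟩⟩)
    · exact mem_union_right _ (mem_filter.2 ⟨mem_univ _, hh⟩)
  have hUnc : Un.card ≤ (D.pts ∩ Un).card + (q + 1) * Dl := by
    have h1 : (Un \ D.pts).card + D.pts.card ≤ q ^ 2 := by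
      rw [← card_pt (q := q), ← card_univ, ← card_union_of_disjoint sdiff_disjoint]
      exact card_le_card (subset_univ _)
    have h2 := h.total
    have h3 := card_sdiff_add_card_inter Un D.pts
    rw [inter_comm] at h3
    omega
  set e := (Bl \ P).card with he
  have he3 : 3 * e ≤ 8 * (m + Dl) := rest_le (F := F.card) (cap := cap)
    (by have := h.total; omega) (Nat.mul_le_mul_right _ (by omega)) hcap (by omega)
  set δ := (q + 1) * Dl + e * cap with hδ
  set R := q / 16 with hR
  have hδq : 512 * (δ + q) < q * q := uncovered_lt he3 hcap hDl hδ (by omega)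
  have hch : δ + q < (R + 2).choose 2 := lt_choose hδq (by omega)
  have hFc : F.card ≤ q + 2 * m := by omega
  obtain ⟨Pt', hP'⟩ | ⟨σ, hσ⟩ := exists_concurrent F R δ (by
      show Un.card ≤ δ
      omega)
    hch (by omega) (average_ok hFc (Nat.mul_div_le q 16) hδq hDl hq)
  · have hPc' : ¬ IsCen Pt' := by
      rintro ⟨a, rfl⟩
      have : F.filter (fun l => OnLine (cen a) l) = ∅ :=
        filter_eq_empty_iff.2 fun l hl hon => (mem_filter.1 hl).2.1.1 a hon
      rw [this, card_empty] at hP'
      omega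
    refine Or.inl ⟨Pt', hPc', pencil_step hq h hs Bl hcard hcov _ _ (by simp)
      (by rw [card_linesThru]; omega) (by rw [card_linesThru]) ?_ ?_ ?_⟩
    · intro l hl l' hl' hne y hy hy'
      rw [mem_singleton]
      exact pt_eq_of_two hne (mem_linesThru.1 hl) hy (mem_linesThru.1 hl') hy'
    · refine le_trans (desig_card_le hq (fun a => lineThru Pt' (slopeTo (cen a) Pt'))
        fun l hl a hon => ?_) (le_trans (Nat.add_le_add card_image_le (card_filter_le _ _))
          (by simp))
      rw [slopeTo_eq (fun e => hPc' ⟨a, e.symm⟩) hon (mem_linesThru.1 hl),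
        lineThru_eq (mem_linesThru.1 hl)]
    · exact ⟨F.filter fun l => OnLine Pt' l,
        fun l hl => mem_linesThru.2 (mem_filter.1 hl).2, hP',
        fun l hl => (mem_filter.1 (mem_filter.1 hl).1).2⟩
  · refine Or.inr ⟨σ, pencil_step hq h hs Bl hcard hcov _ _ (by simp)
      (by rw [card_linesDir]) (by rw [card_linesDir]; omega) ?_ ?_ ?_⟩
    · intro l hl l' hl' hne y hy hy'
      exact absurd hy' (not_onLine_of_parallel hne
        ((mem_filter.1 hl).2.trans (mem_filter.1 hl').2.symm) hy)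
    · refine le_trans (desig_card_le hq (fun a => lineThru (cen a) σ)
        fun l hl a hon => ?_) (le_trans (Nat.add_le_add card_image_le (card_filter_le _ _))
          (by simp))
      rw [← (mem_filter.1 hl).2, lineThru_eq hon]
    · exact ⟨F.filter fun l => l.1 = σ,
        fun l hl => mem_filter.2 ⟨mem_univ _, (mem_filter.1 hl).2⟩, hσ,
        fun l hl => (mem_filter.1 (mem_filter.1 hl).1).2⟩

end Data

end Vale.Agent.P045
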