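import Mathlib
import Vale.Agent.P045.CoverGlobal

/-!
# P045: covering the points of a line through one centre
-/

set_option linter.unusedSectionVars false

namespace Vale.Agent.P045

open Finset

variable {q : ℕ} [Fact q.Prime] {K : Type*} [Field K] [Fintype K] [DecidableEq K]

/-- The group of a centre. -/
def cGrp : Fin 4 → Fin 2 := ![0, 0, 1, 1]

lemma eq_of_two_cosets {d d' : K} (hd : d ≠ d') {v w : K × K} (h : coset d v = coset d w)
    (h' : coset d' v = coset d' w) : v = w := by
  simp only [coset] at h h'
  have h3 : (d - d') * (v.1 - w.1) = 0 := by linear_combination h' - h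
  have h1 : v.1 = w.1 :=
    sub_eq_zero.1 ((mul_eq_zero.1 h3).resolve_left (sub_ne_zero.2 hd))
  refine Prod.ext h1 ?_
  linear_combination h + d * h1

namespace Data

variable (D : Data q K)

/-- The star cell of direction `d` at the centre values `v`. -/
def star (v : Fin 4 → K × K) (γ : Fin 2) (d : K) : Blk q K (modM K) :=
  .cell γ d (coset d (v (fstC γ))) (coset d (v (sndC γ)))

/-- The trace of a block on the labels of the line `l` through centre `a`, for big blocks. -/
def traceOn (a : Fin 4) (l : Line q) : Blk q K (modM K) → Option (Option K × K)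
  | .cell γ d c₁ c₂ =>
      if a = fstC γ ∧ c₁ = coset d (D.L a l.1) then some (some d, c₂)
      else if a = sndC γ ∧ c₂ = coset d (D.L a l.1) then some (some d, c₁) else none
  | .line l' (.one x) => if l' = l then some (none, x) else none
  | _ => none

open Classical in
/-- The omitted star directions. -/
noncomputable def omitted (R : Finset (Blk q K (modM K))) (v : Fin 4 → K × K) (γ : Fin 2) :
    Finset K :=
  univ.filter fun d => star v γ d ∉ R

open Classical in
/-- The chosen stars. -/
noncomputable def stars (R : Finset (Blk q K (modM K))) (v : Fin 4 → K × K) (γ : Fin 2) :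
    Finset (Blk q K (modM K)) :=
  R.filter fun b => ∃ d, star v γ d = b

open Classical in
/-- The big blocks on a line other than stars. -/
noncomputable def bigs (R : Finset (Blk q K (modM K))) (v : Fin 4 → K × K) (a : Fin 4)
    (l : Line q) : Finset (Blk q K (modM K)) :=
  R.filter fun b => (D.traceOn a l b).isSome ∧ ¬ ∃ d, star v (cGrp a) d = b

/-- A block that is a star of one of the groups or special. -/
def IsForced (v : Fin 4 → K × K) (b : Blk q K (modM K)) : Prop :=
  (∃ γ d, star v γ d = b) ∨ ∃ i μ x, b = .spec i μ x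

variable {D}

lemma star_inj {v : Fin 4 → K × K} {γ γ' : Fin 2} {d d' : K}
    (h : (star v γ d : Blk q K (modM K)) = star v γ' d') : γ = γ' ∧ d = d' := by
  simp only [star] at h
  injection h with e1 e2
  exact ⟨e1, e2⟩

lemma stars_card (R : Finset (Blk q K (modM K))) (v : Fin 4 → K × K) (γ : Fin 2) :
    (stars R v γ).card + (omitted R v γ).card = Fintype.card K := by
  classical
  have h1 : (stars R v γ).card = (univ.filter fun d => star v γ d ∈ R).card := by
    symm
    refine card_nbij (fun d => star v γ d) ?_ ?_ ?_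
    · intro d hd
      exact mem_filter.2 ⟨(mem_filter.1 hd).2, d, rfl⟩
    · intro d _ d' _ e; exact (star_inj e).2
    · intro b hb
      obtain ⟨hb, d, rfl⟩ := mem_filter.1 (Finset.mem_coe.1 hb)
      exact ⟨d, Finset.mem_coe.2 (mem_filter.2 ⟨mem_univ _, hb⟩), rfl⟩
  rw [h1, omitted, ← card_univ (α := K)]
  exact card_filter_add_card_filter_not _

lemma cGrp_spec (a : Fin 4) :
    (a = fstC (cGrp a) ∧ partner a = sndC (cGrp a)) ∨
      (a = sndC (cGrp a) ∧ partner a = fstC (cGrp a)) := by
  fin_cases a <;> decide

lemma cGrp_unique {a : Fin 4} {γ : Fin 2} (h : a = fstC γ ∨ a = sndC γ) : cGrp a = γ := by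
  rcases h with rfl | rfl <;> fin_cases γ <;> rfl

lemma cGrp_ne {a : Fin 4} {γ : Fin 2} (h : cGrp a ≠ γ) : a ≠ fstC γ ∧ a ≠ sndC γ :=
  ⟨fun e => h (cGrp_unique (Or.inl e)), fun e => h (cGrp_unique (Or.inr e))⟩

lemma linePts_not_cross {l : Line q} {p : Pt q} (hp : p ∈ D.linePts l) : ¬ OnCross p :=
  fun h => (mem_linePts.1 hp).2.2 (Or.inr h)

lemma lab_role (hq : 1000 ≤ q) (h : Design D) {a : Fin 4} {l : Line q} (hl : Role a l)
    {p : Pt q} (hp : p ∈ D.linePts l) : D.lab a p = D.L a l.1 := by
  rw [lab_of_not_cross (linePts_not_cross hp),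
    slopeTo_eq (fun e => not_isCen_of_mem hq h (mem_linePts.1 hp).1 ⟨a, e.symm⟩) hl.1
      (mem_linePts.1 hp).2.1]

lemma linePts_label_card {T κ g Dl err : ℕ} (h : Good D T κ g Dl err) {a : Fin 4} {l : Line q}
    (hl : Role a l) (v : K × K) :
    ((D.linePts l).filter fun p => D.lab (partner a) p = v).card ≤ κ := by
  refine le_trans (card_le_card_of_injOn (slopeTo (cen (partner a))) ?_ ?_)
    (h.mult (partner a) v)
  · intro p hp
    obtain ⟨hp, hv⟩ := mem_filter.1 hp
    rw [lab_of_not_cross (linePts_not_cross hp)] at hv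
    exact Finset.mem_coe.2 (mem_filter.2 ⟨mem_univ _, hv⟩)
  · intro p hp p' hp' e
    exact slopeTo_injOn (hl.2 _ (partner_ne a)) (mem_linePts.1 (mem_filter.1 hp).1).2.1
      (mem_linePts.1 (mem_filter.1 hp').1).2.1 e

/-- A big block covers only points with labels in its trace. -/
lemma traceOn_spec (hq : 1000 ≤ q) (h : Design D) {a : Fin 4} {l : Line q} (hl : Role a l)
    {p : Pt q} (hp : p ∈ D.linePts l) {b : Blk q K (modM K)} (hb : D.InBlk p b)
    {ξ : Option K × K} (hξ : D.traceOn a l b = some ξ) :
    InVLine ξ (D.lab (partner a) p) := by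
  cases b with
  | cell γ d c₁ c₂ =>
      obtain ⟨-, e1, e2⟩ := inBlk_cell hb
      simp only [traceOn] at hξ
      split_ifs at hξ with h1 h2
      · cases hξ
        have : partner a = sndC γ := by
          obtain ⟨rfl, -⟩ := h1; fin_cases γ <;> rfl
        show coset d (D.lab (partner a) p) = c₂
        rw [this]; exact e2
      · cases hξ
        have : partner a = fstC γ := by
          obtain ⟨rfl, -⟩ := h2; fin_cases γ <;> rfl
        show coset d (D.lab (partner a) p) = c₁
        rw [this]; exact e1
  | line l' π =>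
      cases π with
      | one x =>
          simp only [traceOn] at hξ
          split_ifs at hξ with h1
          cases hξ
          subst h1
          have h2 := (inBlk_line hb).2
          rw [block_role hq hl (mem_linePts.1 hp).2.1] at h2
          injection h2 with _ e2
          injection e2
      | whole => simp [traceOn] at hξ
      | two x z => simp [traceOn] at hξ
  | spec i μ x => simp [traceOn] at hξ
  | tag s => simp [traceOn] at hξ

/-- A block that is not big has few points on the line. -/
lemma traceOn_none_card {T κ g Dl err : ℕ} (hq : 1000 ≤ q) (h : Good D T κ g Dl err)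
    {a : Fin 4} {l : Line q} (hl : Role a l) {b : Blk q K (modM K)}
    (hb : D.traceOn a l b = none) :
    ((D.trace b).filter fun p => p ∈ D.linePts l).card ≤
      κ + 21 + (if b = .tag l.1 then 8 * κ else 0) := by
  classical
  refine le_trans ?_ (le_of_eq rfl)
  cases b with
  | tag s =>
      by_cases e : s = l.1
      · subst e
        rw [if_pos rfl]
        refine le_trans (card_le_card (filter_subset _ _)) ?_
        have := (tag_trace_card hq h l.1).1
        omega
      · refine le_trans ?_ (Nat.le_add_right _ _)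
        refine le_trans (card_le_card (t := (D.trace (.tag s)).filter fun p => OnLine p l)
          fun p hp => mem_filter.2 ⟨(mem_filter.1 hp).1, (mem_linePts.1 (mem_filter.1 hp).2).2.1⟩)
          (le_trans (tag_trace_line hq s fun ee => e ?_) (by omega))
        rw [ee, lineThru_fst]
  | spec i μ x =>
      refine le_trans ?_ (Nat.le_add_right _ _)
      refine le_trans (card_le_card (filter_subset _ _)) ?_
      have := spec_trace_card hq h i μ x
      omega
  | cell γ d c₁ c₂ =>
      refine le_trans ?_ (Nat.le_add_right _ _)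
      refine le_trans ?_ (Nat.le_add_right _ _)
      by_cases hg : cGrp a = γ
      · refine le_trans (le_of_eq (card_eq_zero.2 (filter_eq_empty_iff.2 ?_))) (Nat.zero_le _)
        intro p hp hpl
        obtain ⟨-, e1, e2⟩ := inBlk_cell (mem_trace.1 hp).2
        have hlab := lab_role hq h.toDesign hl hpl
        simp only [traceOn] at hb
        split_ifs at hb with h1 h2
        rcases cGrp_spec a with ⟨ha, -⟩ | ⟨ha, -⟩ <;> rw [hg] at ha
        · exact h1 ⟨ha, by rw [← e1, ← ha, hlab]⟩
        · exact h2 ⟨ha, by rw [← e2, ← ha, hlab]⟩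
      · obtain ⟨n1, n2⟩ := cGrp_ne hg
        refine le_trans (card_le_card ?_)
          (h.cellLine γ l d c₁ c₂ (hl.2 _ (Ne.symm n1)) (hl.2 _ (Ne.symm n2)))
        intro p hp
        obtain ⟨hpt, hpl⟩ := mem_filter.1 hp
        obtain ⟨-, e1, e2⟩ := inBlk_cell (mem_trace.1 hpt).2
        exact mem_filter.2 ⟨hpl, e1, e2⟩
  | line l' π =>
      refine le_trans ?_ (Nat.le_add_right _ _)
      refine le_trans (card_le_one.2 fun p hp p' hp' => ?_) (by omega)
      obtain ⟨hpt, hpl⟩ := mem_filter.1 hp
      obtain ⟨hpt', hpl'⟩ := mem_filter.1 hp'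
      obtain ⟨k1, k2⟩ := inBlk_line (mem_trace.1 hpt).2
      obtain ⟨k1', -⟩ := inBlk_line (mem_trace.1 hpt').2
      refine pt_eq_of_two (fun ee => ?_) (mem_linePts.1 hpl').2.1 (mem_linePts.1 hpl).2.1 k1' k1
      subst ee
      rw [block_role hq hl k1] at k2
      injection k2 with _ e2
      subst e2
      simp [traceOn] at hb

lemma traceOn_star {v : Fin 4 → K × K} {a : Fin 4} {l : Line q} (hv : v a = D.L a l.1) (d : K) :
    D.traceOn a l (star v (cGrp a) d) = some (some d, coset d (v (partner a))) := by
  rcases cGrp_spec a with ⟨ha, hb⟩ | ⟨ha, hb⟩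
  · simp only [star, traceOn]
    rw [if_pos ⟨ha, by rw [← hv, ← ha]⟩, ← hb]
  · simp only [star, traceOn]
    rw [if_neg (fun hh => slopeTo_fst_snd (cGrp a) (hh.1.symm.trans ha)),
      if_pos ⟨ha, by rw [← hv, ← ha]⟩, ← hb]

/-- The only big block with a given trace through the centre value is the star. -/
lemma eq_star_of_trace {v : Fin 4 → K × K} {a : Fin 4} {l : Line q} (hv : v a = D.L a l.1)
    {b : Blk q K (modM K)} {d : K}
    (hb : D.traceOn a l b = some (some d, coset d (v (partner a)))) :
    b = star v (cGrp a) d := by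
  cases b with
  | cell γ d' c₁ c₂ =>
      simp only [traceOn] at hb
      split_ifs at hb with h1 h2
      · obtain ⟨ha, hc⟩ := h1
        obtain rfl := cGrp_unique (Or.inl ha)
        injection hb with hb
        injection hb with e1 e2
        injection e1 with e1
        subst e1
        have : partner a = sndC (cGrp a) := by fin_cases a <;> revert ha <;> decide
        rw [star, e2, hc, ← this, ← ha, hv]
      · obtain ⟨ha, hc⟩ := h2
        obtain rfl := cGrp_unique (Or.inr ha)
        injection hb with hb
        injection hb with e1 e2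
        injection e1 with e1
        subst e1
        have : partner a = fstC (cGrp a) := by fin_cases a <;> revert ha <;> decide
        rw [star, e2, hc, ← this, ← ha, hv]
  | line l' π =>
      cases π <;> simp [traceOn] at hb
  | spec i μ x => simp [traceOn] at hb
  | tag s => simp [traceOn] at hb

lemma eq_piece_of_trace {a : Fin 4} {l : Line q} {b : Blk q K (modM K)} {x : K}
    (hb : D.traceOn a l b = some (none, x)) : b = .line l (.one x) := by
  cases b with
  | cell γ d' c₁ c₂ =>
      simp only [traceOn] at hb
      split_ifs at hb <;> simp at hb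
  | line l' π =>
      cases π <;> simp [traceOn] at hb
      obtain ⟨rfl, rfl⟩ := hb; rfl
  | spec i μ y => simp [traceOn] at hb
  | tag s => simp [traceOn] at hb

/-- An omitted star direction forces many big blocks. -/
theorem omitted_mul_le {T κ g Dl err kk : ℕ} (hq : 1000 ≤ q) (h : Good D T κ g Dl err)
    (hs : Sizes q (Fintype.card K) T κ g Dl err kk) {a : Fin 4} {l : Line q} (hl : Role a l)
    {v : Fin 4 → K × K} (hv : v a = D.L a l.1) {R : Finset (Blk q K (modM K))}
    (hR : R.card ≤ 2 * Fintype.card K + 20) {Ex : Finset (Pt q)} (hEx : Ex.card ≤ 1)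
    (hcov : ∀ p ∈ D.linePts l, p ∉ Ex → ∃ b ∈ R, D.InBlk p b) :
    (omitted R v (cGrp a)).card * (Fintype.card K - 1 - (D.bigs R v a l).card) ≤
      Fintype.card K * kk := by
  classical
  set m := Fintype.card K with hm
  set pb := v (partner a) with hpb
  set A := omitted R v (cGrp a) with hA
  set Kb := D.bigs R v a l with hKb
  set Ξ := Kb.biUnion fun b => (D.traceOn a l b).toFinset with hΞ
  have hΞc : Ξ.card ≤ Kb.card := le_trans card_biUnion_le
    (le_trans (sum_le_sum (g := fun _ => 1) fun b _ => by
      cases D.traceOn a l b <;> simp) (by simp))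
  have hΞmem : ∀ ξ ∈ Ξ, ∀ d, ξ ≠ (some d, coset d pb) := by
    intro ξ hξ d e
    obtain ⟨b, hb, hbξ⟩ := mem_biUnion.1 hξ
    rw [Option.mem_toFinset, Option.mem_def, e] at hbξ
    exact (mem_filter.1 hb).2.2 ⟨d, (eq_star_of_trace hv hbξ).symm⟩
  have hKbR : Kb.card ≤ R.card := card_le_card (filter_subset _ _)
  have hreg : A.card * (m - 1 - Kb.card) ≤ (region pb A Ξ).card := by
    set piece : K → Finset (K × K) := fun d => (univ.image fun x => (x, coset d pb + d * x)).filter
      fun w => w ≠ pb ∧ ∀ ξ ∈ Ξ, ¬ InVLine ξ w with hpiece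
    have hin : ∀ d, ∀ w ∈ piece d, coset d w = coset d pb := by
      intro d w hw
      obtain ⟨x, -, rfl⟩ := mem_image.1 (mem_filter.1 hw).1
      simp [coset]
    have hlow : ∀ d ∈ A, m - 1 - Kb.card ≤ (piece d).card := by
      intro d _
      set S := (univ : Finset K).image fun x => (x, coset d pb + d * x) with hS
      have hSc : S.card = m := by
        rw [card_image_of_injective _ fun x y e => congrArg Prod.fst e, card_univ]
      have hbad : (S.filter fun w => ¬ (w ≠ pb ∧ ∀ ξ ∈ Ξ, ¬ InVLine ξ w)).card ≤
          1 + Kb.card := by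
        refine le_trans (card_le_card (t := {pb} ∪ Ξ.biUnion fun ξ =>
          S.filter fun w => InVLine ξ w) ?_) (le_trans (card_union_le _ _)
            (Nat.add_le_add (le_of_eq (card_singleton _)) (le_trans card_biUnion_le
              (le_trans (le_trans (sum_le_sum (g := fun _ => 1) fun ξ hξ => ?_) (by simp)) hΞc))))
        · intro w hw
          obtain ⟨hw1, hw2⟩ := mem_filter.1 hw
          push Not at hw2
          by_cases e : w = pb
          · exact mem_union_left _ (mem_singleton.2 e)
          · obtain ⟨ξ, hξ, hin'⟩ := hw2 e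
            exact mem_union_right _ (mem_biUnion.2 ⟨ξ, hξ, mem_filter.2 ⟨hw1, hin'⟩⟩)
        · refine card_le_one.2 fun w hw w' hw' => ?_
          obtain ⟨hw1, hw2⟩ := mem_filter.1 hw
          obtain ⟨hw1', hw2'⟩ := mem_filter.1 hw'
          obtain ⟨x, -, rfl⟩ := mem_image.1 hw1
          obtain ⟨x', -, rfl⟩ := mem_image.1 hw1'
          obtain ⟨o, c⟩ := ξ
          cases o with
          | none =>
              simp only [InVLine] at hw2 hw2'
              rw [hw2, hw2']
          | some d' =>
              simp only [InVLine] at hw2 hw2'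
              by_cases e : d' = d
              · subst e
                refine (hΞmem _ hξ d' (Prod.ext rfl ?_)).elim
                rw [← hw2]; simp [coset]
              · exact eq_of_two_cosets e (hw2.trans hw2'.symm) (by simp [coset])
      have := card_filter_add_card_filter_not (s := S)
        (fun w => w ≠ pb ∧ ∀ ξ ∈ Ξ, ¬ InVLine ξ w)
      simp only [hpiece, ← hS]
      omega
    calc A.card * (m - 1 - Kb.card) = ∑ _d ∈ A, (m - 1 - Kb.card) := by simp
      _ ≤ ∑ d ∈ A, (piece d).card := sum_le_sum hlow
      _ = (A.biUnion piece).card := by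
          refine (card_biUnion fun d _ d' _ hne => disjoint_left.2 fun w hw hw' => ?_).symm
          exact (mem_filter.1 hw).2.1 (eq_of_two_cosets hne (hin d w hw) (hin d' w hw'))
      _ ≤ _ := card_le_card fun w hw => by
          obtain ⟨d, hd, hw⟩ := mem_biUnion.1 hw
          exact mem_filter.2 ⟨mem_univ _, (mem_filter.1 hw).2.1, ⟨d, hd, hin d w hw⟩,
            (mem_filter.1 hw).2.2⟩
  set Y := (D.linePts l).filter fun p => D.lab (partner a) p ∈ region pb A Ξ with hY
  have hYc : Y.card ≤ 1 + (R.card * (κ + 21) + 8 * κ) := by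
    refine le_trans (card_le_card (t := Ex ∪ (R.filter fun b => D.traceOn a l b = none).biUnion
      fun b => (D.trace b).filter fun p => p ∈ D.linePts l) ?_)
      (le_trans (card_union_le _ _) (Nat.add_le_add hEx (le_trans card_biUnion_le
        (le_trans (sum_le_sum fun b hb =>
          traceOn_none_card hq h hl (mem_filter.1 hb).2) ?_))))
    · intro p hp
      obtain ⟨hpl, hpr⟩ := mem_filter.1 hp
      by_cases hpE : p ∈ Ex
      · exact mem_union_left _ hpE
      obtain ⟨b, hb, hpb'⟩ := hcov p hpl hpE
      refine mem_union_right _ (mem_biUnion.2 ⟨b, mem_filter.2 ⟨hb, ?_⟩,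
        mem_filter.2 ⟨mem_trace.2 ⟨(mem_linePts.1 hpl).1, hpb'⟩, hpl⟩⟩)
      by_contra hne
      obtain ⟨ξ, hξ⟩ := Option.ne_none_iff_exists'.1 hne
      have hin' := traceOn_spec hq h.toDesign hl hpl hpb' hξ
      obtain ⟨-, hpne, ⟨d, hd, hcd⟩, hout⟩ := mem_filter.1 hpr
      by_cases hst : ∃ d', star v (cGrp a) d' = b
      · obtain ⟨d', rfl⟩ := hst
        rw [traceOn_star hv] at hξ
        cases hξ
        exact hpne (eq_of_two_cosets (fun e => (mem_filter.1 hd).2 (by rw [e]; exact hb)) hcd hin')
      · exact hout ξ (mem_biUnion.2 ⟨b, mem_filter.2 ⟨hb, by simp [hξ], hst⟩, by simp [hξ]⟩) hin'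
    · rw [sum_add_distrib, sum_const, smul_eq_mul, sum_ite_eq']
      refine Nat.add_le_add (Nat.mul_le_mul_right _ (card_filter_le _ _)) ?_
      split_ifs <;> omega
  have hsp : q * (region pb A Ξ).card ≤ 32 * m ^ 2 * (Y.card + err) := by
    convert h.spread a l pb A Ξ hl (by have := hs.m_big; have : 20 ≤ m := le_trans (le_trans
      (le_trans (by norm_num) (Nat.le_mul_of_pos_right _ (by omega)))
      (Nat.le_mul_of_pos_right _ (by omega))) hs.m_big; omega) using 6
  have hm20 : 1000 ≤ m := le_trans
      (le_trans (Nat.le_mul_of_pos_right _ (by omega)) (Nat.le_mul_of_pos_right _ (by omega)))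
      hs.m_big
  have e0 : Y.card + err ≤ 4 * m * (κ + 10) + err := by
    have e1 : R.card * (κ + 21) ≤ (2 * m + 20) * (κ + 21) := Nat.mul_le_mul_right _ hR
    have e2 : 30 * m ≤ κ * m := Nat.mul_le_mul_right _ hs.κ_big
    have e3 : 1000 * κ ≤ m * κ := Nat.mul_le_mul_right _ hm20
    have : 2 * m * κ + 28 * κ + 42 * m + 421 ≤ 4 * m * (κ + 10) := by linarith
    linarith
  have e4 : q * (A.card * (m - 1 - Kb.card)) ≤ q * (m * kk) :=
    calc q * (A.card * (m - 1 - Kb.card)) ≤ q * (region pb A Ξ).card :=
          Nat.mul_le_mul_left _ hreg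
      _ ≤ 32 * m ^ 2 * (Y.card + err) := hsp
      _ ≤ 32 * m ^ 2 * (4 * m * (κ + 10) + err) := Nat.mul_le_mul_left _ e0
      _ = m * (32 * m * (4 * m * (κ + 10) + err)) := by ring
      _ ≤ m * (q * kk) := Nat.mul_le_mul_left _ hs.kk_def
      _ = q * (m * kk) := by ring
  exact Nat.le_of_mul_le_mul_left e4 (by omega)

/-- With few other blocks, a surviving band through the centre value forces its own block. -/
theorem exact_block {T κ g Dl err kk : ℕ} (hq : 1000 ≤ q) (h : Good D T κ g Dl err)
    (hs : Sizes q (Fintype.card K) T κ g Dl err kk) {a : Fin 4} {l : Line q} (hl : Role a l)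
    {v : Fin 4 → K × K} (hv : v a = D.L a l.1) {R : Finset (Blk q K (modM K))}
    {Ex : Finset (Pt q)} (hEx : Ex.card ≤ 1) {E : ℕ} (hE : E ≤ 60 * kk + 500)
    (hfew : ∃ S : Finset (Blk q K (modM K)), S.card ≤ E ∧ ∀ b ∈ R, IsForced v b ∨ b ∈ S)
    (hcov : ∀ p ∈ D.linePts l, p ∉ Ex → ∃ b ∈ R, D.InBlk p b) {ξ : Option K × K}
    (hξ : InVLine ξ (v (partner a))) (hkill : ¬ D.Killed a l.1 ξ) :
    ∃ b ∈ R, D.traceOn a l b = some ξ := by
  classical
  by_contra hno
  push Not at hno
  obtain ⟨S, hS, hmem⟩ := hfew
  set pb := v (partner a)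
  set γ' := 1 - cGrp a with hγ'
  have hne' : cGrp a ≠ γ' := by rw [hγ']; generalize cGrp a = c; fin_cases c <;> decide
  obtain ⟨n1, n2⟩ := cGrp_ne hne'
  set S' := S.filter fun b => D.traceOn a l b = none with hS'
  set S₁ := S.filter fun b => D.traceOn a l b ≠ none with hS₁
  set band := (D.linePts l).filter fun p => InVLine ξ (D.lab (partner a) p) with hband
  have hone : ∀ p ∈ D.linePts l, InVLine ξ (D.lab (partner a) p) → ∀ b ∈ R, D.InBlk p b →
      ∀ ξ', D.traceOn a l b = some ξ' → InVLine ξ' pb → D.lab (partner a) p = pb := by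
    intro p hpl hin b hb hpb ξ' hξ' hthru
    have hin' := traceOn_spec hq h.toDesign hl hpl hpb hξ'
    have hne : ξ' ≠ ξ := fun e => hno b hb (e ▸ hξ')
    obtain ⟨_ | d, c⟩ := ξ <;> obtain ⟨_ | d', c'⟩ := ξ' <;>
      simp only [InVLine] at hξ hthru hin hin' ⊢
    · exact (hne (Prod.ext rfl (hthru.symm.trans hξ))).elim
    · refine Prod.ext (hin.trans hξ.symm) ?_
      have := hin'.trans hthru.symm
      simp only [coset] at this
      linear_combination this + d' * (hin.trans hξ.symm)
    · refine Prod.ext (hin'.trans hthru.symm) ?_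
      have := hin.trans hξ.symm
      simp only [coset] at this
      linear_combination this + d * (hin'.trans hthru.symm)
    · by_cases e : d = d'
      · subst e
        exact (hne (Prod.ext rfl (hthru.symm.trans hξ))).elim
      · exact eq_of_two_cosets e (hin.trans hξ.symm) (hin'.trans hthru.symm)
  have hupper : band.card ≤ 1 + κ + κ + (S.card * (κ + 21) + 8 * κ) := by
    set P1 := (D.linePts l).filter fun p => D.lab (partner a) p = pb with hP1
    set P2 := (D.linePts l).filter fun p => InVLine ξ (D.lab (partner a) p) ∧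
      ∃ d, coset d (D.lab (fstC γ') p) = coset d (v (fstC γ')) ∧
        coset d (D.lab (sndC γ') p) = coset d (v (sndC γ')) with hP2
    set P3 := (S.filter fun b => b ∈ R).biUnion fun b => if D.traceOn a l b = none then
        (D.trace b).filter fun p => p ∈ D.linePts l
      else band.filter fun p => InVLine ((D.traceOn a l b).getD ξ) (D.lab (partner a) p) with hP3
    have hP3c : P3.card ≤ S.card * (κ + 21) + 8 * κ := by
      refine le_trans card_biUnion_le (le_trans (sum_le_sum
        (g := fun b => κ + 21 + (if b = .tag l.1 then 8 * κ else 0)) fun b hb => ?_)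
        (by
          rw [sum_add_distrib, sum_const, smul_eq_mul, sum_ite_eq']
          refine Nat.add_le_add (Nat.mul_le_mul_right _ (card_filter_le _ _)) ?_
          split_ifs <;> omega))
      by_cases e : D.traceOn a l b = none
      · rw [if_pos e]; exact traceOn_none_card hq h hl e
      · rw [if_neg e]
        obtain ⟨ξ', hξ'⟩ := Option.ne_none_iff_exists'.1 e
        rw [hξ', Option.getD_some]
        by_cases heq : ξ' = ξ
        · subst heq
          exact absurd hξ' (hno b (mem_filter.1 hb).2)
        · refine le_trans ?_ (Nat.le_add_right _ _)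
          refine le_trans ?_ (Nat.le_add_right κ 21)
          obtain ⟨w, hw⟩ : ∃ w, ∀ p ∈ band.filter fun p => InVLine ξ' (D.lab (partner a) p),
              D.lab (partner a) p = w := by
            by_cases hnon : (band.filter fun p => InVLine ξ' (D.lab (partner a) p)).Nonempty
            · obtain ⟨p₀, hp₀⟩ := hnon
              refine ⟨D.lab (partner a) p₀, fun p hp => ?_⟩
              obtain ⟨hp, i2⟩ := mem_filter.1 hp
              obtain ⟨-, i1⟩ := mem_filter.1 hp
              obtain ⟨hp₀, j2⟩ := mem_filter.1 hp₀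
              obtain ⟨-, j1⟩ := mem_filter.1 hp₀
              obtain ⟨_ | d, c⟩ := ξ <;> obtain ⟨_ | d', c'⟩ := ξ' <;>
                simp only [InVLine] at i1 i2 j1 j2
              · exact (heq (Prod.ext rfl (i2.symm.trans i1))).elim
              · refine Prod.ext (i1.trans j1.symm) ?_
                have := i2.trans j2.symm
                simp only [coset] at this
                linear_combination this + d' * (i1.trans j1.symm)
              · refine Prod.ext (i2.trans j2.symm) ?_
                have := i1.trans j1.symm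
                simp only [coset] at this
                linear_combination this + d * (i2.trans j2.symm)
              · by_cases e : d = d'
                · subst e
                  exact (heq (Prod.ext rfl (i2.symm.trans i1))).elim
                · exact eq_of_two_cosets e (i1.trans j1.symm) (i2.trans j2.symm)
            · exact ⟨pb, fun p hp => absurd ⟨p, hp⟩ hnon⟩
          refine le_trans (card_le_card fun p hp => ?_) (linePts_label_card h hl w)
          exact mem_filter.2 ⟨(mem_filter.1 (mem_filter.1 hp).1).1, hw p hp⟩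
    have hsub : band ⊆ Ex ∪ (P1 ∪ (P2 ∪ P3)) := by
      intro p hp
      obtain ⟨hpl, hin⟩ := mem_filter.1 hp
      by_cases hpE : p ∈ Ex
      · exact mem_union_left _ hpE
      refine mem_union_right _ ?_
      obtain ⟨b, hb, hpb⟩ := hcov p hpl hpE
      rcases hmem b hb with (⟨γ, d, rfl⟩ | ⟨i, μ, x, rfl⟩) | hbS
      · by_cases e : γ = cGrp a
        · subst e
          exact mem_union_left _ (mem_filter.2 ⟨hpl, hone p hpl hin _ hb hpb _
            (traceOn_star hv d) (by simp [InVLine, pb])⟩)
        · have : γ = γ' := by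
            rw [hγ']; revert e; generalize cGrp a = c
            fin_cases c <;> fin_cases γ <;> decide
          subst this
          obtain ⟨-, e1, e2⟩ := inBlk_cell hpb
          exact mem_union_right _ (mem_union_left _ (mem_filter.2 ⟨hpl, hin, d, e1, e2⟩))
      · exact absurd (inBlk_spec hq h.toDesign (mem_linePts.1 hpl).1 hpb).1
          (fun ho => (mem_linePts.1 hpl).2.2 (Or.inl ⟨i, isOm_onLine h.toDesign ho⟩))
      · refine mem_union_right _ (mem_union_right _ (mem_biUnion.2 ⟨b, mem_filter.2 ⟨hbS, hb⟩, ?_⟩))
        split_ifs with e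
        · exact mem_filter.2 ⟨mem_trace.2 ⟨(mem_linePts.1 hpl).1, hpb⟩, hpl⟩
        · obtain ⟨ξ', hξ'⟩ := Option.ne_none_iff_exists'.1 e
          rw [hξ', Option.getD_some]
          exact mem_filter.2 ⟨hp, traceOn_spec hq h.toDesign hl hpl hpb hξ'⟩
    have h2 : P2.card ≤ κ := by
      convert h.starBand a γ' l ξ (v (fstC γ')) (v (sndC γ')) hl n1 n2 using 3
    have h1 : P1.card ≤ κ := linePts_label_card h hl pb
    have := card_le_card hsub
    have := card_union_le Ex (P1 ∪ (P2 ∪ P3))
    have := card_union_le P1 (P2 ∪ P3)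
    have := card_union_le P2 P3
    omega
  have hlow : g ≤ band.card := by convert h.band a l ξ hl hkill using 2
  have hg := hs.g_big
  have hκ := hs.κ_big
  have e1 : S.card * (κ + 21) ≤ (60 * kk + 500) * (κ + 21) :=
    Nat.mul_le_mul_right _ (le_trans hS hE)
  have e2 : 30 * kk ≤ κ * kk := Nat.mul_le_mul_right _ hκ
  linarith

end Data

end Vale.Agent.P045
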