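import Mathlib
import Vale.Agent.P045.CoverLine

/-!
# P045: the cost of a group at a point, and the special point sets
-/

set_option linter.unusedSectionVars false

namespace Vale.Agent.P045

open Finset

variable {q : ℕ} [Fact q.Prime] {K : Type*} [Field K] [Fintype K] [DecidableEq K]

/-- A point on a line through one centre, seen as a colour group at a point with label vector `v`. -/
def Seen (D : Data q K) (v : Fin 4 → K × K) (a : Fin 4) (l : Line q) : Prop :=
  Role a l ∧ v a = D.L a l.1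

namespace Data

variable {D : Data q K}

lemma isSome_line_piece {a : Fin 4} {l l' : Line q} {π : Piece K}
    (h : (D.traceOn a l (.line l' π)).isSome) : l' = l := by
  cases π <;> simp [traceOn] at h ⊢
  exact h

lemma isSome_cell_grp {a : Fin 4} {l : Line q} {γ : Fin 2} {d c₁ c₂ : K}
    (h : (D.traceOn a l (.cell γ d c₁ c₂)).isSome) : cGrp a = γ := by
  simp only [traceOn] at h
  split_ifs at h with h1 h2
  · exact cGrp_unique (Or.inl h1.1)
  · exact cGrp_unique (Or.inr h2.1)
  · simp at h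

lemma disjoint_stars_bigs (R : Finset (Blk q K (modM K))) (v : Fin 4 → K × K) (γ : Fin 2)
    (a : Fin 4) (l : Line q) : Disjoint (stars R v γ) (D.bigs R v a l) := by
  classical
  refine disjoint_left.2 fun b hb hb' => ?_
  obtain ⟨-, d, rfl⟩ := mem_filter.1 hb
  obtain ⟨-, hsome, hns⟩ := mem_filter.1 hb'
  exact hns ⟨d, by rw [isSome_cell_grp hsome]⟩

lemma disjoint_stars_stars (R : Finset (Blk q K (modM K))) (v : Fin 4 → K × K) :
    Disjoint (stars R v 0) (stars R v 1) := by
  classical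
  refine disjoint_left.2 fun b hb hb' => ?_
  obtain ⟨-, d, rfl⟩ := mem_filter.1 hb
  obtain ⟨-, d', h⟩ := mem_filter.1 hb'
  exact absurd (star_inj h).1 (by decide)

lemma disjoint_bigs_bigs (R : Finset (Blk q K (modM K))) {v : Fin 4 → K × K} {a a' : Fin 4}
    {l l' : Line q} (ha : Seen D v a l) (ha' : Seen D v a' l') (hne : a ≠ a') :
    Disjoint (D.bigs R v a l) (D.bigs R v a' l') := by
  classical
  refine disjoint_left.2 fun b hb hb' => ?_
  obtain ⟨-, h1, hns⟩ := mem_filter.1 hb
  obtain ⟨-, h2, -⟩ := mem_filter.1 hb'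
  cases b with
  | tag s => simp [traceOn] at h1
  | spec i μ x => simp [traceOn] at h1
  | line l'' π =>
      obtain rfl := isSome_line_piece h1
      obtain rfl := isSome_line_piece h2
      exact ha'.1.2 a hne ha.1.1
  | cell γ d c₁ c₂ =>
      have g1 := isSome_cell_grp h1
      have g2 := isSome_cell_grp h2
      simp only [traceOn] at h1 h2
      split_ifs at h1 with p1 p2 <;> split_ifs at h2 with r1 r2 <;> try simp at h1 h2
      · exact hne (p1.1.trans r1.1.symm)
      · refine hns ⟨d, ?_⟩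
        rw [g1, star, ← p1.1, ← r2.1, ha.2, ha'.2, ← p1.2, ← r2.2]
      · refine hns ⟨d, ?_⟩
        rw [g1, star, ← r1.1, ← p2.1, ha.2, ha'.2, ← r1.2, ← p2.2]
      · exact hne (p2.1.trans r2.1.symm)

/-- One line of a group: few stars omitted, or many blocks, or many big blocks. -/
theorem single_regime {T κ g Dl err kk : ℕ} (hq : 1000 ≤ q) (h : Good D T κ g Dl err)
    (hs : Sizes q (Fintype.card K) T κ g Dl err kk) {v : Fin 4 → K × K} {a : Fin 4} {l : Line q}
    (hl : Seen D v a l) {R : Finset (Blk q K (modM K))}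
    (hR : R.card ≤ 2 * Fintype.card K + 20) {Ex : Finset (Pt q)} (hEx : Ex.card ≤ 1)
    (hcov : ∀ p ∈ D.linePts l, p ∉ Ex → ∃ b ∈ R, D.InBlk p b) :
    (omitted R v (cGrp a)).card ≤ 8 * kk ∨
      5 * ((stars R v (cGrp a)).card + (D.bigs R v a l).card) + 10 ≥ 6 * Fintype.card K ∨
      (D.bigs R v a l).card + 2 * kk + 1 ≥ Fintype.card K := by
  have h0 := omitted_mul_le hq h hs hl.1 hl.2 hR hEx hcov
  have h1 := stars_card R v (cGrp a)
  set m := Fintype.card K
  set A := (omitted R v (cGrp a)).card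
  set k := (D.bigs R v a l).card
  set st := (stars R v (cGrp a)).card
  by_cases hA : A ≤ 8 * kk
  · exact Or.inl hA
  right
  by_cases h2 : 2 * A ≤ m
  · left
    have h3 : 8 * (m - 1 - k) ≤ m := by
      by_contra hlt
      push Not at hlt
      have e1 : (8 * kk + 1) * (m - 1 - k) ≤ m * kk :=
        le_trans (Nat.mul_le_mul_right _ (by omega)) h0
      have e2 : kk * (m + 1) ≤ kk * (8 * (m - 1 - k)) := Nat.mul_le_mul_left _ (by omega)
      nlinarith
    omega
  · right
    have h3 : m - 1 - k ≤ 2 * kk := by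
      by_contra hlt
      push Not at hlt
      have e1 : (m + 1) * (m - 1 - k) ≤ 2 * A * (m - 1 - k) :=
        Nat.mul_le_mul_right _ (by omega)
      have e2 : (m + 1) * (2 * kk + 1) ≤ (m + 1) * (m - 1 - k) := Nat.mul_le_mul_left _ (by omega)
      nlinarith
    omega

/-- Both lines of a group: few stars omitted, or almost two blocks for each direction. -/
theorem pair_regime {T κ g Dl err kk : ℕ} (hq : 1000 ≤ q) (h : Good D T κ g Dl err)
    (hs : Sizes q (Fintype.card K) T κ g Dl err kk) {v : Fin 4 → K × K} {a : Fin 4}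
    {l l' : Line q} (hl : Seen D v a l) (hl' : Seen D v (partner a) l')
    {R : Finset (Blk q K (modM K))} (hR : R.card ≤ 2 * Fintype.card K + 20)
    {Ex : Finset (Pt q)} (hEx : Ex.card ≤ 1)
    (hcov : ∀ p ∈ D.linePts l, p ∉ Ex → ∃ b ∈ R, D.InBlk p b)
    (hcov' : ∀ p ∈ D.linePts l', p ∉ Ex → ∃ b ∈ R, D.InBlk p b) :
    (omitted R v (cGrp a)).card ≤ 8 * kk ∨
      4 * ((stars R v (cGrp a)).card + (D.bigs R v a l).card + (D.bigs R v (partner a) l').card)
        + 10 ≥ 7 * Fintype.card K := by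
  have h0 := omitted_mul_le hq h hs hl.1 hl.2 hR hEx hcov
  have h0' := omitted_mul_le hq h hs hl'.1 hl'.2 hR hEx hcov'
  have hg : cGrp (partner a) = cGrp a := by fin_cases a <;> rfl
  rw [hg] at h0'
  have h1 := stars_card R v (cGrp a)
  set m := Fintype.card K
  set A := (omitted R v (cGrp a)).card
  set k := (D.bigs R v a l).card
  set k' := (D.bigs R v (partner a) l').card
  set st := (stars R v (cGrp a)).card
  by_cases hA : A ≤ 8 * kk
  · exact Or.inl hA
  right
  have key : ∀ x, A * (m - 1 - x) ≤ m * kk → 8 * (m - 1 - x) ≤ m := by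
    intro x hx
    by_contra hlt
    push Not at hlt
    have e1 : (8 * kk + 1) * (m - 1 - x) ≤ m * kk :=
      le_trans (Nat.mul_le_mul_right _ (by omega)) hx
    have e2 : kk * (m + 1) ≤ kk * (8 * (m - 1 - x)) := Nat.mul_le_mul_left _ (by omega)
    nlinarith
  have := key k h0
  have := key k' h0'
  omega

/-- With few other blocks every surviving star and the piece of the line are chosen. -/
theorem seen_forced {T κ g Dl err kk : ℕ} (hq : 1000 ≤ q) (h : Good D T κ g Dl err)
    (hs : Sizes q (Fintype.card K) T κ g Dl err kk) {v : Fin 4 → K × K} {a : Fin 4} {l : Line q}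
    (hl : Seen D v a l) {R : Finset (Blk q K (modM K))} {Ex : Finset (Pt q)} (hEx : Ex.card ≤ 1)
    {E : ℕ} (hE : E ≤ 60 * kk + 500)
    (hfew : ∃ S : Finset (Blk q K (modM K)), S.card ≤ E ∧ ∀ b ∈ R, IsForced v b ∨ b ∈ S)
    (hcov : ∀ p ∈ D.linePts l, p ∉ Ex → ∃ b ∈ R, D.InBlk p b) :
    (Blk.line l (.one (v (partner a)).1) : Blk q K (modM K)) ∈ R ∧
      ∀ d, ¬ D.Killed a l.1 (some d, coset d (v (partner a))) → star v (cGrp a) d ∈ R := by
  refine ⟨?_, fun d hd => ?_⟩
  · obtain ⟨b, hb, hbt⟩ := exact_block hq h hs hl.1 hl.2 hEx hE hfew hcov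
      (ξ := (none, (v (partner a)).1)) rfl (by rintro (⟨-, -, e⟩ | ⟨-, s', -, -, e⟩) <;> simp at e)
    rwa [← eq_piece_of_trace hbt]
  · obtain ⟨b, hb, hbt⟩ := exact_block hq h hs hl.1 hl.2 hEx hE hfew hcov
      (ξ := (some d, coset d (v (partner a)))) rfl hd
    rwa [← eq_star_of_trace hl.2 hbt]

end Data

section Char2

variable [CharP K 2]

lemma sq_injective_char2 : Function.Injective fun x : K => x ^ 2 := by
  intro x y e
  have h : (x - y) ^ 2 = 0 := by
    rw [sub_pow_char, sub_eq_zero]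
    exact e
  exact sub_eq_zero.1 (pow_eq_zero_iff (by norm_num) |>.1 h)

end Char2

lemma fin2_other {i j : Fin 2} (h : j ≠ i) : j = 1 - i := by
  revert h; revert i j; decide

/-- A nonzero quadratic takes a value at most twice. -/
lemma card_quadratic_le {ι : Type*} (s : Finset ι) (f : ι → K) (hf : Set.InjOn f s)
    (u w : K) (h : ∀ i ∈ s, f i ^ 2 = u * f i + w) : s.card ≤ 2 := by
  classical
  by_contra hlt
  push Not at hlt
  obtain ⟨x, y, z, hx, hy, hz, hxy, hxz, hyz⟩ := two_lt_card_iff.1 hlt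
  have e1 : f x + f y = u := by
    have : (f x - f y) * (f x + f y - u) = 0 := by linear_combination h x hx - h y hy
    exact sub_eq_zero.1 ((mul_eq_zero.1 this).resolve_left
      (sub_ne_zero.2 fun e => hxy (hf hx hy e)))
  have e2 : f x + f z = u := by
    have : (f x - f z) * (f x + f z - u) = 0 := by linear_combination h x hx - h z hz
    exact sub_eq_zero.1 ((mul_eq_zero.1 this).resolve_left
      (sub_ne_zero.2 fun e => hxz (hf hx hz e)))
  exact hyz (hf hy hz (add_left_cancel (e1.trans e2.symm)))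

namespace Data

variable {D : Data q K}

lemma isW_wp (l : Fin 6) (k : Fin 12) (x : K) : D.IsW (D.wp l k x) := ⟨l, k, x, rfl⟩

lemma wp_mem_pts (l : Fin 6) (k : Fin 12) (x : K) : D.wp l k x ∈ D.pts :=
  mem_pts.2 (Or.inr (Or.inr (Or.inl ⟨l, k, x, rfl⟩)))

lemma wp_lab_snd (h : Design D) (γ : Fin 2) (l : Fin 6) (k : Fin 12) (x : K) :
    D.lab (fstC γ) (D.wp l k x) = (x, x ^ 2 + D.sh (.inr (l, k)) ^ 2) ∧
    D.lab (sndC γ) (D.wp l k x) = (x, x ^ 2 + D.sh (.inr (l, k)) ^ 2 +
      D.sh (.inr (l, if γ = 0 then 0 else k))) := by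
  fin_cases γ
  · exact ⟨h.wp_lab0 l k x, h.wp_lab1 l k x⟩
  · exact ⟨h.wp_lab2 l k x, h.wp_lab3 l k x⟩

open Classical in
/-- Some column of an auxiliary line keeps eight points outside all stars. -/
theorem wp_column (hm : 30 ≤ Fintype.card K) (h : Design D) (v : Fin 4 → K × K) (l : Fin 6)
    {Ex : Finset (Pt q)} (hEx : Ex.card ≤ 1) :
    ∃ x, 8 ≤ (univ.filter fun k => D.wp l k x ∉ Ex ∧
      ∀ γ d, ¬ D.InBlk (D.wp l k x) (star v γ d)).card := by
  haveI := h.char2
  have hcov : ∀ γ k x, (∃ d, D.InBlk (D.wp l k x) (star v γ d)) → ∃ d,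
      x ^ 2 + D.sh (.inr (l, k)) ^ 2 - d * x = coset d (v (fstC γ)) ∧
      D.sh (.inr (l, if γ = 0 then 0 else k)) =
        coset d (v (sndC γ)) - coset d (v (fstC γ)) := by
    rintro γ k x ⟨d, hd⟩
    obtain ⟨-, e1, e2⟩ := inBlk_cell hd
    obtain ⟨l1, l2⟩ := wp_lab_snd h γ l k x
    rw [l1] at e1
    rw [l2] at e2
    simp only [coset] at e1 e2
    refine ⟨d, ?_, ?_⟩
    · simp only [coset]; linear_combination e1
    · simp only [coset]; linear_combination e2 - e1
  have hsh : Function.Injective fun k => D.sh (.inr (l, k)) := fun k k' e =>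
    (Prod.ext_iff.1 (Sum.inr.inj (h.sh_inj e))).2
  have g1 : ∀ x, (univ.filter fun k => ∃ d, D.InBlk (D.wp l k x) (star v 1 d)).card ≤ 2 := by
    intro x
    set ΔX := (v 3).1 - (v 2).1 with hΔX
    set ΔY := (v 3).2 - (v 2).2 with hΔY
    have hmem : ∀ k ∈ univ.filter fun k => ∃ d, D.InBlk (D.wp l k x) (star v 1 d),
        ∃ d, x ^ 2 + D.sh (.inr (l, k)) ^ 2 - d * x = coset d (v 2) ∧
          D.sh (.inr (l, k)) = ΔY - d * ΔX := by
      intro k hk
      obtain ⟨d, e1, e2⟩ := hcov 1 k x (mem_filter.1 hk).2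
      refine ⟨d, e1, ?_⟩
      simp only [if_neg (show (1 : Fin 2) ≠ 0 by decide)] at e2
      rw [e2]
      simp only [coset, hΔX, hΔY, fstC, sndC]
      simp
      ring
    by_cases hX : ΔX = 0
    · refine le_trans (card_le_one.2 fun k hk k' hk' => ?_) (by norm_num)
      obtain ⟨d, -, e⟩ := hmem k hk
      obtain ⟨d', -, e'⟩ := hmem k' hk'
      refine hsh ?_
      simp only [hX] at e e'
      simp [e, e']
    · refine card_quadratic_le _ (fun k => D.sh (.inr (l, k))) hsh.injOn
        (((v 2).1 - x) / ΔX) ((v 2).2 - x ^ 2 - ((v 2).1 - x) * ΔY / ΔX) fun k hk => ?_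
      obtain ⟨d, e1, e2⟩ := hmem k hk
      simp only [coset] at e1
      simp only [e2] at e1 ⊢
      field_simp
      linear_combination ΔX * e1
  obtain ⟨x, hx⟩ : ∃ x,
      (univ.filter fun k => ∃ d, D.InBlk (D.wp l k x) (star v 0 d)).card ≤ 1 := by
    set ΔX := (v 1).1 - (v 0).1 with hΔX
    set ΔY := (v 1).2 - (v 0).2 with hΔY
    have hmem : ∀ k x, (∃ d, D.InBlk (D.wp l k x) (star v 0 d)) →
        ∃ d, x ^ 2 + D.sh (.inr (l, k)) ^ 2 - d * x = coset d (v 0) ∧
          D.sh (.inr (l, 0)) = ΔY - d * ΔX := by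
      intro k x hk
      obtain ⟨d, e1, e2⟩ := hcov 0 k x hk
      refine ⟨d, e1, ?_⟩
      simp only [if_pos] at e2
      rw [e2]
      simp only [coset, hΔX, hΔY, fstC, sndC]
      simp
      ring
    by_cases hX : ΔX = 0
    · refine ⟨(v 0).1, card_le_one.2 fun k hk k' hk' => ?_⟩
      obtain ⟨d, e1, -⟩ := hmem k _ (mem_filter.1 hk).2
      obtain ⟨d', e1', -⟩ := hmem k' _ (mem_filter.1 hk').2
      simp only [coset] at e1 e1'
      exact hsh (sq_injective_char2 (by linear_combination e1 - e1'))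
    · by_contra hall
      push Not at hall
      set d₀ := (ΔY - D.sh (.inr (l, 0))) / ΔX with hd₀
      set C := (univ : Finset (Fin 12 × K)).filter fun z =>
        ∃ d, D.InBlk (D.wp l z.1 z.2) (star v 0 d)
      have hC : C.card ≤ 24 := by
        refine le_trans (card_le_mul_card_image (f := Prod.fst) C 2 fun k _ => ?_)
          (le_trans (Nat.mul_le_mul_left 2 (card_le_univ _)) (by simp))
        refine card_quadratic_le _ Prod.snd ?_ d₀
          (coset d₀ (v 0) - D.sh (.inr (l, k)) ^ 2) fun z hz => ?_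
        · intro z hz z' hz' e
          exact Prod.ext ((mem_filter.1 hz).2.trans (mem_filter.1 hz').2.symm) e
        · obtain ⟨hzC, rfl⟩ := mem_filter.1 hz
          obtain ⟨d, e1, e2⟩ := hmem z.1 z.2 (mem_filter.1 hzC).2
          have : d = d₀ := by rw [hd₀, e2, eq_div_iff hX]; ring
          subst this
          linear_combination e1
      have hbig : Fintype.card K ≤ C.card := by
        rw [← card_univ]
        refine card_le_card_of_surjOn Prod.snd fun x _ => ?_
        obtain ⟨k, hk, -⟩ := exists_mem_ne (hall x) 0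
        exact ⟨(k, x), Finset.mem_coe.2 (mem_filter.2 ⟨mem_univ _, (mem_filter.1 hk).2⟩), rfl⟩
      omega
  refine ⟨x, ?_⟩
  set good := univ.filter fun k => D.wp l k x ∉ Ex ∧ ∀ γ d, ¬ D.InBlk (D.wp l k x) (star v γ d)
  set b0 := univ.filter fun k => ∃ d, D.InBlk (D.wp l k x) (star v 0 d)
  set b1 := univ.filter fun k => ∃ d, D.InBlk (D.wp l k x) (star v 1 d)
  set bE := univ.filter fun k => D.wp l k x ∈ Ex
  have hbE : bE.card ≤ 1 := le_trans (card_le_card_of_injOn (fun k => D.wp l k x)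
    (fun k hk => (mem_filter.1 hk).2)
    (fun k _ k' _ e => (congrArg (fun z => z.2.1) (@h.wp_inj (l, k, x) (l, k', x) e)))) hEx
  have hsub : (univ : Finset (Fin 12)) ⊆ good ∪ (b0 ∪ (b1 ∪ bE)) := by
    intro k _
    by_cases hE : D.wp l k x ∈ Ex
    · exact mem_union_right _ (mem_union_right _ (mem_union_right _
        (mem_filter.2 ⟨mem_univ _, hE⟩)))
    by_cases hst : ∀ γ d, ¬ D.InBlk (D.wp l k x) (star v γ d)
    · exact mem_union_left _ (mem_filter.2 ⟨mem_univ _, hE, hst⟩)
    push Not at hst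
    obtain ⟨γ, d, hd⟩ := hst
    refine mem_union_right _ ?_
    fin_cases γ
    · exact mem_union_left _ (mem_filter.2 ⟨mem_univ _, d, hd⟩)
    · exact mem_union_right _ (mem_union_left _ (mem_filter.2 ⟨mem_univ _, d, hd⟩))
  have := card_le_card hsub
  have := card_union_le good (b0 ∪ (b1 ∪ bE))
  have := card_union_le b0 (b1 ∪ bE)
  have := card_union_le b1 bE
  have h1x : b1.card ≤ 2 := by convert g1 x using 2
  simp only [card_univ, Fintype.card_fin] at *
  omega

/-- Only a column piece holds two points of one column. -/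
theorem wp_twins (hq : 1000 ≤ q) (h : Design D) {l : Fin 6} {k k' : Fin 12} {x : K}
    (hne : k ≠ k') {b : Blk q K (modM K)} (hb : D.InBlk (D.wp l k x) b)
    (hb' : D.InBlk (D.wp l k' x) b) : b = .line (wLine l) (.one x) := by
  haveI := h.char2
  cases b with
  | spec i μ a =>
      exact absurd (isOm_onLine h (inBlk_spec hq h (wp_mem_pts l k x) hb).1)
        fun hh => (h.wp_line l k x).2.1 (Or.inl ⟨i, hh⟩)
  | tag s => exact absurd ⟨l, (h.wp_line l k x).1⟩ (inBlk_tag hb).1.1.2
  | cell γ d c₁ c₂ =>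
      obtain ⟨-, e1, -⟩ := inBlk_cell hb
      obtain ⟨-, e1', -⟩ := inBlk_cell hb'
      rw [(wp_lab_snd h γ l k x).1] at e1
      rw [(wp_lab_snd h γ l k' x).1] at e1'
      simp only [coset] at e1 e1'
      have : D.sh (.inr (l, k)) = D.sh (.inr (l, k')) :=
        sq_injective_char2 (by linear_combination e1 - e1')
      exact absurd (Prod.ext_iff.1 (Sum.inr.inj (h.sh_inj this))).2 hne
  | line l' π =>
      obtain ⟨k1, k2⟩ := inBlk_line hb
      obtain ⟨k1', -⟩ := inBlk_line hb'
      obtain rfl : l' = wLine l := line_eq_of_two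
        (fun e => hne (congrArg (fun z => z.2.1) (@h.wp_inj (l, k, x) (l, k', x) e)))
        k1' k1 (h.wp_line l k' x).1 (h.wp_line l k x).1
      rw [block_wLine hq k1, h.wp_lab0] at k2
      injection k2 with _ e
      rw [← e]

/-- If few blocks cover the points outside the stars, every auxiliary line gets a column piece. -/
theorem wp_piece (hq : 1000 ≤ q) (hm : 30 ≤ Fintype.card K) (h : Design D)
    (v : Fin 4 → K × K) (l : Fin 6) {Ex : Finset (Pt q)} (hEx : Ex.card ≤ 1)
    {R S : Finset (Blk q K (modM K))} (hS : S.card ≤ 7)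
    (hcov : ∀ k x, D.wp l k x ∉ Ex → ∃ b ∈ R, D.InBlk (D.wp l k x) b)
    (hR : ∀ b ∈ R, ∀ k x, D.wp l k x ∉ Ex → D.InBlk (D.wp l k x) b →
      (∃ γ d, star v γ d = b) ∨ b ∈ S) :
    ∃ x, (Blk.line (wLine l) (.one x) : Blk q K (modM K)) ∈ S := by
  classical
  obtain ⟨x, hx⟩ := wp_column hm h v l hEx
  refine ⟨x, ?_⟩
  set U := univ.filter (fun k => D.wp l k x ∉ Ex ∧ ∀ γ d, ¬ D.InBlk (D.wp l k x) (star v γ d))
    with hU
  have hch : ∀ k ∈ U, ∃ b ∈ S, D.InBlk (D.wp l k x) b := by
    intro k hk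
    obtain ⟨-, hkE, hks⟩ := mem_filter.1 hk
    obtain ⟨b, hb, hin⟩ := hcov k x hkE
    rcases hR b hb k x hkE hin with ⟨γ, d, rfl⟩ | hbS
    · exact absurd hin (hks γ d)
    · exact ⟨b, hbS, hin⟩
  choose f hf hf' using hch
  obtain ⟨k, hk, k', hk', hne, he⟩ := exists_ne_map_eq_of_card_lt_of_maps_to
    (s := U) (t := S) (f := fun k => if hk : k ∈ U then f k hk else .tag none)
    (by omega) (fun k hk => by
      rw [Finset.mem_coe] at hk ⊢
      simp only [dif_pos hk]; exact hf k hk)
  rw [dif_pos hk, dif_pos hk'] at he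
  rw [← wp_twins hq h hne (hf' k hk) (by rw [he]; exact hf' k' hk')]
  exact hf k hk

open Classical in
/-- A block of another kind meets few points of the special set of a side. -/
theorem om_trace_le (hq : 1000 ≤ q) (h : Design D) (i : Fin 2) {b : Blk q K (modM K)}
    (hb : ∀ μ a, b ≠ .spec i μ a) (hm : 2 ≤ Fintype.card K) :
    (Finset.univ.filter fun z : Fin 21 × Option K =>
      D.InBlk (D.om i z.1 z.2) b).card ≤ 3 := by
  classical
  haveI := h.char2
  have hpts : ∀ g z, D.om i g z ∈ D.pts := fun g z =>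
    mem_pts.2 (Or.inr (Or.inl ⟨i, g, z, rfl⟩))
  cases b with
  | spec i' μ a =>
      refine le_trans (le_of_eq (card_eq_zero.2 (filter_eq_empty_iff.2 fun z _ hz => ?_))) (by omega)
      have hon := isOm_onLine h (inBlk_spec hq h (hpts z.1 z.2) hz).1
      by_cases e : i' = i
      · subst e; exact hb μ a rfl
      · exact (h.om_off i z.1 z.2).2.2.2 i' e hon
  | tag s =>
      refine le_trans (le_of_eq (card_eq_zero.2 (filter_eq_empty_iff.2 fun z _ hz => ?_))) (by omega)
      exact (inBlk_tag hz).1.1.1 (Or.inl ⟨i, h.om_side i z.1 z.2⟩)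
  | line l π =>
      refine le_trans (card_le_one.2 fun z hz z' hz' => ?_) (by omega)
      obtain ⟨k1, k2⟩ := inBlk_line (mem_filter.1 hz).2
      obtain ⟨k1', -⟩ := inBlk_line (mem_filter.1 hz').2
      by_contra hne
      have hpne : D.om i z.1 z.2 ≠ D.om i z'.1 z'.2 := fun e => hne (by
        have := @h.om_inj (i, z.1, z.2) (i, z'.1, z'.2) e
        exact congrArg Prod.snd this)
      obtain rfl := line_eq_of_two hpne k1' k1 (h.om_side i z'.1 z'.2) (h.om_side i z.1 z.2)
      have h1 : ∃ i', lineThru (D.om i z.1 z.2) (sameSide i).1 = sameSide i' :=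
        ⟨i, lineThru_eq k1⟩
      simp only [block, dif_pos h1, specAt] at k2
      cases k2
  | cell γ d c₁ c₂ =>
      have hz : ∀ z ∈ univ.filter (fun z : Fin 21 × Option K =>
          D.InBlk (D.om i z.1 z.2) (.cell γ d c₁ c₂)),
          D.sh (.inl z.1) = c₂ - c₁ ∧ (z.2.getD 0) ^ 2 = d * z.2.getD 0 + c₁ := by
        intro z hz
        obtain ⟨hno, e1, e2⟩ := inBlk_cell (mem_filter.1 hz).2
        have hγ : γ = 1 - i := by
          have : γ ≠ i := fun e => hno (e ▸ ⟨z.1, z.2, rfl⟩)
          exact fin2_other this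
        subst hγ
        rw [h.om_fst] at e1
        rw [h.om_snd] at e2
        simp only [coset] at e1 e2
        exact ⟨by linear_combination e2 - e1, by linear_combination e1⟩
      set S := univ.filter fun z : Fin 21 × Option K =>
        D.InBlk (D.om i z.1 z.2) (.cell γ d c₁ c₂)
      have hsplit := card_filter_add_card_filter_not (s := S) (fun z => z.2 = none)
      have h1 : (S.filter fun z => z.2 = none).card ≤ 1 := card_le_one.2 fun z hz1 z' hz2 => by
        obtain ⟨a1, b1⟩ := mem_filter.1 hz1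
        obtain ⟨a2, b2⟩ := mem_filter.1 hz2
        exact Prod.ext (Sum.inl.inj (h.sh_inj ((hz z a1).1.trans (hz z' a2).1.symm)))
          (b1.trans b2.symm)
      have h2 : (S.filter fun z => ¬ z.2 = none).card ≤ 2 := by
        refine card_quadratic_le _ (fun z => z.2.getD 0) ?_ d c₁ fun z hz1 =>
          (hz z (mem_filter.1 hz1).1).2
        intro z hz1 z' hz2 e
        obtain ⟨a1, b1⟩ := mem_filter.1 hz1
        obtain ⟨a2, b2⟩ := mem_filter.1 hz2
        refine Prod.ext (Sum.inl.inj (h.sh_inj ((hz z a1).1.trans (hz z' a2).1.symm))) ?_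
        obtain ⟨g, _ | u⟩ := z
        · exact absurd rfl b1
        obtain ⟨g', _ | u'⟩ := z'
        · exact absurd rfl b2
        exact congrArg some e
      refine le_trans (le_of_eq ?_) (show (S.filter fun z => z.2 = none).card +
        (S.filter fun z => ¬ z.2 = none).card ≤ 3 by omega)
      exact hsplit.symm

open Classical in
/-- The count on the special set of a side: specials cover one point of each group. -/
theorem om_count (hq : 1000 ≤ q) (hm : 2 ≤ Fintype.card K) (h : Design D) (i : Fin 2)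
    (v : Fin 4 → K × K) (G : Finset (Fin 21))
    (hG : ∀ g ∈ G, ∀ d, coset d (v (sndC (1 - i))) - coset d (v (fstC (1 - i))) ≠ D.sh (.inl g))
    {R : Finset (Blk q K (modM K))} {Ex : Finset (Pt q)}
    (hEx : ∀ g ∈ G, ∀ z, D.om i g z ∉ Ex)
    (hcov : ∀ g ∈ G, ∀ z, D.om i g z ∉ Ex → ∃ b ∈ R, D.InBlk (D.om i g z) b) :
    G.card * (Fintype.card K + 1) ≤
      G.card * (R.filter fun b => ∃ μ a, b = .spec i μ a).card +
      3 * (R.filter fun b => ¬ (∃ μ a, b = .spec i μ a) ∧ ¬ ∃ γ d, star v γ d = b).card := by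
  set Sp := R.filter fun b => ∃ μ a, b = .spec i μ a
  set Ot := R.filter fun b => ¬ (∃ μ a, b = .spec i μ a) ∧ ¬ ∃ γ d, star v γ d = b
  set U := G ×ˢ (univ : Finset (Option K))
  have hU : U.card = G.card * (Fintype.card K + 1) := by simp [U]
  have hsub : U ⊆ (Sp.biUnion fun b => U.filter fun z => D.InBlk (D.om i z.1 z.2) b) ∪
      Ot.biUnion fun b => univ.filter fun z => D.InBlk (D.om i z.1 z.2) b := by
    intro z hz
    have hg := (mem_product.1 hz).1
    obtain ⟨b, hb, hin⟩ := hcov z.1 hg z.2 (hEx z.1 hg z.2)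
    by_cases hsp : ∃ μ a, b = .spec i μ a
    · exact mem_union_left _ (mem_biUnion.2 ⟨b, mem_filter.2 ⟨hb, hsp⟩,
        mem_filter.2 ⟨hz, hin⟩⟩)
    refine mem_union_right _ (mem_biUnion.2 ⟨b, mem_filter.2 ⟨hb, hsp, ?_⟩,
      mem_filter.2 ⟨mem_univ _, hin⟩⟩)
    rintro ⟨γ, d, rfl⟩
    obtain ⟨hno, e1, e2⟩ := inBlk_cell hin
    have hγ : γ = 1 - i := by
      have : γ ≠ i := fun e => hno (e ▸ ⟨z.1, z.2, rfl⟩)
      exact fin2_other this
    subst hγ
    refine hG z.1 hg d ?_
    rw [h.om_fst] at e1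
    rw [h.om_snd] at e2
    rw [← e1, ← e2]
    simp [coset]
  have h1 : ∀ b ∈ Sp, (U.filter fun z => D.InBlk (D.om i z.1 z.2) b).card ≤ G.card := by
    intro b hb
    obtain ⟨-, μ, a, rfl⟩ := mem_filter.1 hb
    refine card_le_card_of_injOn Prod.fst
      (fun z hz => (mem_product.1 (mem_filter.1 hz).1).1) ?_
    intro z hz z' hz' e
    have a1 := (inBlk_spec hq h (mem_pts.2 (Or.inr (Or.inl ⟨i, _, _, rfl⟩)))
      (mem_filter.1 hz).2).2
    have a2 := (inBlk_spec hq h (mem_pts.2 (Or.inr (Or.inl ⟨i, _, _, rfl⟩)))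
      (mem_filter.1 hz').2).2
    rw [omIdx_om h] at a1 a2
    simp only at a1 a2 e
    rw [e, ← a2] at a1
    exact Prod.ext e (h.num_bij.1 (sub_left_injective a1))
  have h2 : ∀ b ∈ Ot, ((univ : Finset (Fin 21 × Option K)).filter fun z =>
      D.InBlk (D.om i z.1 z.2) b).card ≤ 3 := fun b hb => by
    convert om_trace_le hq h i (b := b)
      (fun μ a e => (mem_filter.1 hb).2.1 ⟨μ, a, e⟩) hm using 3
  calc G.card * (Fintype.card K + 1) = U.card := hU.symm
    _ ≤ _ := card_le_card hsub
    _ ≤ _ := card_union_le _ _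
    _ ≤ G.card * Sp.card + 3 * Ot.card := Nat.add_le_add
        (le_trans card_biUnion_le (le_trans (sum_le_sum h1) (by simp [mul_comm])))
        (le_trans card_biUnion_le (le_trans (sum_le_sum h2) (by simp [mul_comm])))

end Data

end Vale.Agent.P045
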