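import Mathlib
import Vale.Agent.P045.CoverGroup

/-!
# P045: tools shared by the cases
-/

set_option linter.unusedSectionVars false

namespace Vale.Agent.P045

open Finset

variable {q : ℕ} [Fact q.Prime] {K : Type*} [Field K] [Fintype K] [DecidableEq K]

lemma role_of_not_onSide (hq : 1000 ≤ q) {a : Fin 4} {l : Line q} (ha : OnLine (cen a) l)
    {P : Pt q} (hP : OnLine P l) (hns : ¬ OnSide P) : Role a l := by
  refine ⟨ha, fun a' hne ha' => hns ?_⟩
  rcases two_cen hq hne ha' ha with ⟨i, rfl⟩ | ⟨j, rfl⟩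
  · exact Or.inl ⟨i, hP⟩
  · exact Or.inr ⟨j, hP⟩

lemma role_of_slope (hq : 1000 ≤ q) {a : Fin 4} {l : Line q} (ha : OnLine (cen a) l)
    (hs : ¬ IsSideSlope l.1) : Role a l := by
  refine ⟨ha, fun a' hne ha' => hs ?_⟩
  rcases two_cen hq hne ha' ha with ⟨i, rfl⟩ | ⟨j, rfl⟩
  · exact Or.inl ⟨i, rfl⟩
  · exact Or.inr ⟨j, rfl⟩

lemma mem_desig_of_cen {Λ : Finset (Line q)} {l : Line q} (hl : l ∈ Λ) {a : Fin 4}
    (ha : OnLine (cen a) l) : l ∈ desig Λ := by
  classical exact mem_filter.2 ⟨hl, fun h => h.1 a ha⟩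

lemma mem_desig_wLine {Λ : Finset (Line q)} {i : Fin 6} (hl : wLine i ∈ Λ) :
    wLine i ∈ desig Λ := by
  classical exact mem_filter.2 ⟨hl, fun h => h.2 i rfl⟩

lemma role_ne {a a' : Fin 4} {l l' : Line q} (h : Role a l) (h' : Role a' l') (hne : a ≠ a') :
    l ≠ l' := fun e => h'.2 a hne (e ▸ h.1)

namespace Data

variable {D : Data q K}

lemma m_large {T κ g Dl err kk : ℕ} (hs : Sizes q (Fintype.card K) T κ g Dl err kk) :
    1000 * (kk + 10) ≤ Fintype.card K :=
  le_trans (Nat.le_mul_of_pos_right _ (by omega)) hs.m_big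

lemma g_le_T {T κ g Dl err : ℕ} (hq : 1000 ≤ q) (h : Good D T κ g Dl err) : g ≤ T := by
  classical
  have ha : OnLine (cen (q := q) 0) (crossSide (0, 0)) :=
    (cen_on_crossSide hq _ _).2 (Or.inl rfl)
  refine le_trans (h.cross_band (0, 0) 0 0 (Or.inl rfl)) (le_trans
    (card_le_card_of_injOn (slopeTo (cen (partner 0))) ?_ ?_) (h.load (partner 0) (none, 0)))
  · intro p hp
    obtain ⟨hp, hx⟩ := mem_filter.1 hp
    obtain ⟨hm, hon⟩ := mem_filter.1 hp
    rw [(lab_cross_pair hq hon (crossPts_unique hq h.toDesign hm hon) ha).1] at hx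
    exact Finset.mem_coe.2 (mem_filter.2 ⟨mem_univ _, hx⟩)
  · intro p hp p' hp' e
    exact slopeTo_injOn (partner_mem_crossSide hq ha) (mem_filter.1 (mem_filter.1 hp).1).2
      (mem_filter.1 (mem_filter.1 hp').1).2 e

lemma inBlk_cell_not_tag {p : Pt q} {γ : Fin 2} {d c₁ c₂ : K}
    (hb : D.InBlk p (.cell γ d c₁ c₂)) : ¬ (γ = 0 ∧ D.Tagged p ∧ d = D.dir (row p)) := by
  obtain ⟨c, hc⟩ := hb
  rcases c with s | ⟨γ', d'⟩
  · simp only [block, specAt] at hc
    split_ifs at hc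
  · simp only [block, specAt] at hc
    split_ifs at hc with h1 h2
    injection hc with e1 e2
    subst e1; subst e2
    exact h2

/-- A kept tagged point of a row outside all stars and the piece, when the row's band is killed. -/
theorem exists_witness {T κ g Dl err : ℕ} (hq : 1000 ≤ q) (hκ : 2 ≤ κ)
    (h : Good D T κ g Dl err) {v : Fin 4 → K × K} {l : Line q} (hl : Role 1 l)
    (hns : ¬ IsSideSlope l.1)
    (hc : coset (D.dir l.1) (v 0) = coset (D.dir l.1) (D.L 0 l.1))
    {Ex : Finset (Pt q)} (hEx : Ex.card ≤ 1) :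
    ∃ w ∈ D.linePts l, w ∉ Ex ∧ D.Tagged w ∧ row w = l.1 ∧
      (∀ γ d, ¬ D.InBlk w (star v γ d)) ∧ (D.lab 0 w).1 ≠ (v 0).1 := by
  classical
  set S := D.pts.filter fun p => D.Tagged p ∧ row p = l.1 with hS
  have hSl : ∀ p ∈ S, p ∈ D.linePts l := by
    intro p hp
    obtain ⟨hm, ht, hr⟩ := mem_filter.1 hp
    refine mem_linePts.2 ⟨hm, ?_, ht.1.1⟩
    have := onLine_slopeTo (cen 1) p
    rw [show slopeTo (cen 1) p = l.1 from hr, lineThru_eq hl.1] at this
    exact this
  set B1 := (D.linePts l).filter fun p => D.lab 0 p = v 0 with hB1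
  set B2 := (D.linePts l).filter fun p =>
    InVLine (some (D.dir l.1), coset (D.dir l.1) (v 0)) (D.lab (partner 1) p) ∧
      ∃ d, coset d (D.lab (fstC 1) p) = coset d (v (fstC 1)) ∧
        coset d (D.lab (sndC 1) p) = coset d (v (sndC 1)) with hB2
  have h1 : B1.card ≤ κ := linePts_label_card h hl (v 0)
  have h2 : B2.card ≤ κ := by
    convert h.starBand 1 1 l _ _ _ hl (by decide) (by decide) using 3
  have h4 : 4 * κ ≤ S.card := by convert h.witness l.1 hns
  obtain ⟨w, hw, hwn⟩ := exists_mem_notMem_of_card_lt_card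
    (show (Ex ∪ (B1 ∪ B2)).card < S.card by
      have := card_union_le Ex (B1 ∪ B2); have := card_union_le B1 B2; omega)
  simp only [mem_union, not_or] at hwn
  obtain ⟨hwE, hw1, hw2⟩ := hwn
  obtain ⟨hm, ht, hr⟩ := mem_filter.1 hw
  have hwl := hSl w hw
  have hnc := linePts_not_cross hwl
  have hco : coset (D.dir l.1) (D.lab 0 w) = coset (D.dir l.1) (v 0) := by
    rw [hc, lab_of_not_cross hnc]
    exact (h.Z_coset l.1 hns _ (hr ▸ ht.2.2)).1
  have hne : D.lab 0 w ≠ v 0 := fun e => hw1 (mem_filter.2 ⟨hwl, e⟩)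
  refine ⟨w, hwl, hwE, ht, hr, ?_, fun e => hne (Prod.ext e ?_)⟩
  · intro γ d hd
    obtain ⟨-, e1, e2⟩ := inBlk_cell hd
    fin_cases γ
    · by_cases e : d = D.dir l.1
      · exact inBlk_cell_not_tag hd ⟨rfl, ht, by rw [e, hr]⟩
      · exact hne (eq_of_two_cosets e e1 hco)
    · exact hw2 (mem_filter.2 ⟨hwl, hco, d, e1, e2⟩)
  · simp only [coset] at hco
    linear_combination hco + D.dir l.1 * e

lemma inBlk_piece_eq (hq : 1000 ≤ q) {a : Fin 4} {l : Line q} (hl : Role a l) {p : Pt q}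
    {x : K} (hb : D.InBlk p (.line l (.one x))) :
    OnLine p l ∧ (D.lab (partner a) p).1 = x := by
  obtain ⟨h1, h2⟩ := inBlk_line hb
  rw [block_role hq hl h1] at h2
  injection h2 with _ e
  injection e with e
  exact ⟨h1, e⟩

open Classical in
/-- A block covers at most 24 points of the auxiliary lines, other than through ordinary lines. -/
theorem wp_cell_le (h : Design D) (γ : Fin 2) (d c₁ c₂ : K) :
    (univ.filter fun z : Fin 6 × Fin 12 × K =>
      D.InBlk (D.wp z.1 z.2.1 z.2.2) (.cell γ d c₁ c₂)).card ≤ 24 := by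
  classical
  haveI := h.char2
  set S := univ.filter fun z : Fin 6 × Fin 12 × K =>
    D.InBlk (D.wp z.1 z.2.1 z.2.2) (.cell γ d c₁ c₂)
  have hz : ∀ z ∈ S, D.sh (.inr (z.1, if γ = 0 then 0 else z.2.1)) = c₂ - c₁ ∧
      z.2.2 ^ 2 = d * z.2.2 + (c₁ - D.sh (.inr (z.1, z.2.1)) ^ 2) := by
    intro z hz
    obtain ⟨-, e1, e2⟩ := inBlk_cell (mem_filter.1 hz).2
    rw [(wp_lab_snd h γ z.1 z.2.1 z.2.2).1] at e1
    rw [(wp_lab_snd h γ z.1 z.2.1 z.2.2).2] at e2
    simp only [coset] at e1 e2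
    exact ⟨by linear_combination e2 - e1, by linear_combination e1⟩
  refine le_trans (card_le_mul_card_image (f := fun z => z.2.1) S 2 fun k _ => ?_)
    (le_trans (Nat.mul_le_mul_left 2 (card_le_univ _)) (by simp))
  have hl : ∀ z ∈ S, ∀ z' ∈ S, z.1 = z'.1 := fun z hz1 z' hz2 =>
    (Prod.ext_iff.1 (Sum.inr.inj (h.sh_inj ((hz z hz1).1.trans (hz z' hz2).1.symm)))).1
  by_cases hne : (S.filter fun z => z.2.1 = k).Nonempty
  · obtain ⟨z₀, hz₀⟩ := hne
    refine card_quadratic_le _ (fun z => z.2.2) ?_ d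
      (c₁ - D.sh (.inr (z₀.1, k)) ^ 2) fun z hz1 => ?_
    · intro z hz1 z' hz2 e
      obtain ⟨a1, b1⟩ := mem_filter.1 (Finset.mem_coe.1 hz1)
      obtain ⟨a2, b2⟩ := mem_filter.1 (Finset.mem_coe.1 hz2)
      exact Prod.ext (hl z a1 z' a2) (Prod.ext (b1.trans b2.symm) e)
    · obtain ⟨a1, b1⟩ := mem_filter.1 hz1
      rw [hl z₀ (mem_filter.1 hz₀).1 z a1, ← b1]
      exact (hz z a1).2
  · rw [not_nonempty_iff_eq_empty.1 hne]; simp

open Classical in
/-- Every block covers at most 24 points of one auxiliary line. -/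
theorem wp_trace_le (hq : 1000 ≤ q) (h : Design D) (l : Fin 6) (b : Blk q K (modM K)) :
    (univ.filter fun z : Fin 12 × K => D.InBlk (D.wp l z.1 z.2) b).card ≤ 24 := by
  classical
  cases b with
  | cell γ d c₁ c₂ =>
      refine le_trans (card_le_card_of_injOn (fun z => ((l, z) : Fin 6 × Fin 12 × K)) ?_ ?_)
        (wp_cell_le h γ d c₁ c₂)
      · intro z hz
        exact Finset.mem_coe.2 (mem_filter.2 ⟨mem_univ _, (mem_filter.1 hz).2⟩)
      · intro z _ z' _ e; exact (Prod.ext_iff.1 e).2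
  | spec i μ a =>
      refine le_trans (le_of_eq (card_eq_zero.2 (filter_eq_empty_iff.2 fun z _ hz => ?_))) (by omega)
      exact (h.wp_line l z.1 z.2).2.1
        (Or.inl ⟨i, isOm_onLine h (inBlk_spec hq h (wp_mem_pts _ _ _) hz).1⟩)
  | tag s =>
      refine le_trans (le_of_eq (card_eq_zero.2 (filter_eq_empty_iff.2 fun z _ hz => ?_))) (by omega)
      exact (inBlk_tag hz).1.1.2 ⟨l, (h.wp_line l z.1 z.2).1⟩
  | line l' π =>
      by_cases e : l' = wLine l
      · subst e
        refine le_trans (card_le_card_of_injOn Prod.fst (t := (univ : Finset (Fin 12)))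
          (fun z _ => mem_univ _) ?_) (by simp)
        intro z hz z' hz' e
        obtain ⟨k1, k2⟩ := inBlk_line (mem_filter.1 hz).2
        obtain ⟨k1', k2'⟩ := inBlk_line (mem_filter.1 hz').2
        rw [block_wLine hq k1, h.wp_lab0] at k2
        rw [block_wLine hq k1', h.wp_lab0] at k2'
        injection k2.trans k2'.symm with _ e2
        injection e2 with e3
        exact Prod.ext e e3
      · refine le_trans (card_le_one.2 fun z hz z' hz' => ?_) (by omega)
        obtain ⟨k1, -⟩ := inBlk_line (mem_filter.1 hz).2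
        obtain ⟨k1', -⟩ := inBlk_line (mem_filter.1 hz').2
        have := pt_eq_of_two e k1' k1 (h.wp_line l z'.1 z'.2).1 (h.wp_line l z.1 z.2).1
        exact congrArg Prod.snd (@h.wp_inj (l, z.1, z.2) (l, z'.1, z'.2) this)

/-- Covering an auxiliary line costs at least half of `m` blocks outside any set missing it. -/
theorem wp_count (hq : 1000 ≤ q) (h : Design D) (l : Fin 6) {R F : Finset (Blk q K (modM K))}
    {Ex : Finset (Pt q)} (hEx : ∀ k x, D.wp l k x ∉ Ex)
    (hcov : ∀ k x, D.wp l k x ∉ Ex → ∃ b ∈ R, D.InBlk (D.wp l k x) b)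
    (hF : ∀ b ∈ F, ∀ k x, ¬ D.InBlk (D.wp l k x) b) :
    Fintype.card K ≤ 2 * (R \ F).card := by
  classical
  have h1 : (univ : Finset (Fin 12 × K)) ⊆
      (R \ F).biUnion fun b => univ.filter fun z => D.InBlk (D.wp l z.1 z.2) b := by
    intro z _
    obtain ⟨b, hb, hin⟩ := hcov z.1 z.2 (hEx z.1 z.2)
    exact mem_biUnion.2 ⟨b, mem_sdiff.2 ⟨hb, fun hf => hF b hf _ _ hin⟩,
      mem_filter.2 ⟨mem_univ _, hin⟩⟩
  have h2 := le_trans (card_le_card h1) (le_trans card_biUnion_le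
    (le_trans (sum_le_sum (g := fun _ => 24) fun b _ => by convert wp_trace_le hq h l b using 3)
      (by simp : ∑ _b ∈ R \ F, 24 ≤ (R \ F).card * 24)))
  simp only [card_univ, Fintype.card_prod, Fintype.card_fin] at h2
  omega

/-- A star of a group at equal values in both slots misses all auxiliary points. -/
lemma wp_not_star (h : Design D) {v : Fin 4 → K × K} {γ : Fin 2}
    (hv : v (fstC γ) = v (sndC γ)) (d : K) (l : Fin 6) (k : Fin 12) (x : K) :
    ¬ D.InBlk (D.wp l k x) (star v γ d) := by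
  intro hb
  obtain ⟨-, e1, e2⟩ := inBlk_cell hb
  rw [(wp_lab_snd h γ l k x).1] at e1
  rw [(wp_lab_snd h γ l k x).2] at e2
  rw [hv] at e1
  simp only [coset] at e1 e2
  exact h.sh_ne (.inr (l, if γ = 0 then 0 else k)) (by linear_combination e2 - e1)

end Data

end Vale.Agent.P045
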