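import Mathlib
import Vale.Agent.P045.CoverCommon

/-!
# P045: the three points where two sides meet, other than centres
-/

set_option linter.unusedSectionVars false

namespace Vale.Agent.P045

open Finset

variable {q : ℕ} [Fact q.Prime] {K : Type*} [Field K] [Fintype K] [DecidableEq K]

lemma diag_all {j j' : Fin 2 × Fin 2} (hA : crossA j ≠ crossA j') (hC : crossC j ≠ crossC j')
    (a : Fin 4) : a = crossA j ∨ a = crossC j ∨ a = crossA j' ∨ a = crossC j' := by
  revert hA hC; revert a j j'; decide

lemma same_all (a : Fin 4) : (a = fstC 0 ∨ a = sndC 0) ∨ (a = fstC 1 ∨ a = sndC 1) := by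
  revert a; decide

lemma cross_slot (γ : Fin 2) (j : Fin 2 × Fin 2) :
    (fstC γ = crossA j ∨ fstC γ = crossC j) ∨ (sndC γ = crossA j ∨ sndC γ = crossC j) := by
  revert γ j; decide

namespace Data

variable {D : Data q K}

lemma diag_piece (j : Fin 2 × Fin 2) : crossA j = 0 ∨ partner (crossA j) = 0 := by
  revert j; decide

/-- A cell with a point of a cross side has equal cosets in both slots. -/
lemma cell_diag (hq : 1000 ≤ q) (h : Design D) {j : Fin 2 × Fin 2} {p : Pt q}
    (hp : p ∈ D.crossPts j) {γ : Fin 2} {d c₁ c₂ : K} (hb : D.InBlk p (.cell γ d c₁ c₂)) :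
    c₁ = c₂ := by
  obtain ⟨hm, hon⟩ : p ∈ D.pts ∧ OnLine p (crossSide j) := by simpa [crossPts] using hp
  obtain ⟨-, e1, e2⟩ := inBlk_cell hb
  have hu := crossPts_unique hq h hm hon
  rcases cross_slot γ j with hs | hs
  · obtain ⟨k1, k2⟩ := lab_cross_pair (D := D) hq hon hu ((cen_on_crossSide hq _ j).2 hs)
    have hpn : partner (fstC γ) = sndC γ := by fin_cases γ <;> rfl
    rw [hpn] at k1 k2
    rw [← e1, ← e2, k1, k2]
  · obtain ⟨k1, k2⟩ := lab_cross_pair (D := D) hq hon hu ((cen_on_crossSide hq _ j).2 hs)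
    have hpn : partner (sndC γ) = fstC γ := by fin_cases γ <;> rfl
    rw [hpn] at k1 k2
    rw [← e1, ← e2, k1, k2]

open Classical in
/-- A cell or piece takes few points of one cross side. -/
lemma cross_trace_le {T κ g Dl err : ℕ} (hq : 1000 ≤ q) (h : Good D T κ g Dl err)
    (hT : 1 ≤ T) (j : Fin 2 × Fin 2) (b : Blk q K (modM K)) :
    ((D.crossPts j).filter fun p => D.InBlk p b).card ≤ T := by
  rcases ((D.crossPts j).filter fun p => D.InBlk p b).eq_empty_or_nonempty with e | ⟨p₀, hp₀⟩
  · simp [e]
  obtain ⟨hc₀, hin₀⟩ := mem_filter.1 hp₀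
  obtain ⟨hm₀, hon₀⟩ : p₀ ∈ D.pts ∧ OnLine p₀ (crossSide j) := by simpa [crossPts] using hc₀
  have hmem : ∀ p ∈ D.crossPts j, p ∈ D.pts ∧ OnLine p (crossSide j) := fun p hp => by
    simpa [crossPts] using hp
  cases b with
  | tag s => exact absurd (Or.inr ⟨j, hon₀⟩) (inBlk_tag hin₀).1.1.1
  | spec i μ x =>
      exact absurd ⟨j, hon₀⟩ (isOm_off h.toDesign (inBlk_spec hq h.toDesign hm₀ hin₀).1).2.1
  | line l π =>
      by_cases e : l = crossSide j
      · subst e
        obtain ⟨a, ha, hlab⟩ : ∃ a, (a = crossA j ∨ a = crossC j) ∧ ∀ p ∈ D.crossPts j,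
            D.lab 0 p = D.L (partner a) (slopeTo (cen (partner a)) p) := by
          refine ⟨crossA j, Or.inl rfl, fun p hp => ?_⟩
          obtain ⟨hm, hon⟩ := hmem p hp
          obtain ⟨k1, k2⟩ := lab_cross_pair (D := D) hq hon
            (crossPts_unique hq h.toDesign hm hon) ((cen_on_crossSide hq _ j).2 (Or.inl rfl))
          rcases diag_piece j with e0 | e0
          · rw [← e0]; exact k1
          · rw [e0] at k1 k2 ⊢; exact k2
        refine le_trans (card_le_card_of_injOn (slopeTo (cen (partner a))) ?_ ?_)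
          (h.load (partner a) (none, (D.lab 0 p₀).1))
        · intro p hp
          obtain ⟨hc, hin⟩ := mem_filter.1 hp
          obtain ⟨k1, k2⟩ := inBlk_line hin
          obtain ⟨-, k2'⟩ := inBlk_line hin₀
          rw [block_crossSide hq k1] at k2
          rw [block_crossSide hq hon₀] at k2'
          injection k2.trans k2'.symm with _ e3
          injection e3 with e4 _
          refine Finset.mem_coe.2 (mem_filter.2 ⟨mem_univ _, ?_⟩)
          show (D.L (partner a) (slopeTo (cen (partner a)) p)).1 = (D.lab 0 p₀).1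
          rw [← hlab p hc]; exact e4
        · intro p hp p' hp' e
          exact slopeTo_injOn (partner_mem_crossSide hq ((cen_on_crossSide hq a j).2 ha))
            (hmem p (mem_filter.1 hp).1).2 (hmem p' (mem_filter.1 hp').1).2 e
      · refine le_trans (card_le_one.2 fun p hp p' hp' => ?_) hT
        exact pt_eq_of_two e (inBlk_line (mem_filter.1 hp').2).1
          (inBlk_line (mem_filter.1 hp).2).1 (hmem p' (mem_filter.1 hp').1).2
          (hmem p (mem_filter.1 hp).1).2
  | cell γ d c₁ c₂ =>
      obtain ⟨a, c, ha, hval⟩ : ∃ a c, (a = crossA j ∨ a = crossC j) ∧ ∀ p,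
          D.InBlk p (.cell γ d c₁ c₂) → coset d (D.lab a p) = c := by
        rcases cross_slot γ j with hs | hs
        · exact ⟨_, c₁, hs, fun p hb => (inBlk_cell hb).2.1⟩
        · exact ⟨_, c₂, hs, fun p hb => (inBlk_cell hb).2.2⟩
      refine le_trans (card_le_card_of_injOn (slopeTo (cen (partner a))) ?_ ?_)
        (h.load (partner a) (some d, c))
      · intro p hp
        obtain ⟨hc, hin⟩ := mem_filter.1 hp
        obtain ⟨hm, hon⟩ := hmem p hc
        refine Finset.mem_coe.2 (mem_filter.2 ⟨mem_univ _, ?_⟩)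
        show coset d (D.L (partner a) (slopeTo (cen (partner a)) p)) = c
        rw [← (lab_cross_pair (D := D) hq hon (crossPts_unique hq h.toDesign hm hon)
          ((cen_on_crossSide hq a j).2 ha)).1]
        exact hval p hin
      · intro p hp p' hp' e
        exact slopeTo_injOn (partner_mem_crossSide hq ((cen_on_crossSide hq a j).2 ha))
          (hmem p (mem_filter.1 hp).1).2 (hmem p' (mem_filter.1 hp').1).2 e

/-- A diagonal point on two cross sides. -/
theorem case_diag {T κ g Dl err kk : ℕ} (hq : 1000 ≤ q) (h : Good D T κ g Dl err)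
    (hs : Sizes q (Fintype.card K) T κ g Dl err kk) {P : Pt q} (hPc : ¬ IsCen P)
    {j j' : Fin 2 × Fin 2} (hjj : j ≠ j') (hj : OnLine P (crossSide j))
    (hj' : OnLine P (crossSide j'))
    {R : Finset (Blk q K (modM K))} (hR : D.Remainder (linesThru P) {P} R) : False := by
  classical
  obtain ⟨-, hu, -, hA, hC, hW3⟩ := crossSide_meet hq hPc hjj hj hj'
  set ln := fun a => lineThru P (slopeTo (cen a) P) with hln
  have hne' : ∀ a, P ≠ cen a := fun a e => hPc ⟨a, e.symm⟩
  have hcen : ∀ a, OnLine (cen a) (ln a) := fun a => by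
    have h1 := onLine_slopeTo (cen a) P
    have h2 := lineThru_eq h1
    rw [lineThru_fst] at h2
    simp only [hln, h2]
    exact onLine_lineThru _ _
  have himg : (univ.image ln).card ≤ 2 := by
    refine le_trans (card_le_card (t := {crossSide j, crossSide j'}) ?_)
      (le_trans (card_insert_le _ _) (by simp))
    intro l hl
    obtain ⟨a, -, rfl⟩ := mem_image.1 hl
    rcases diag_all hA hC a with ha | ha | ha | ha
    · exact mem_insert.2 (Or.inl (line_eq_of_two (hne' a) (hcen a) (onLine_lineThru P _)
        ((cen_on_crossSide hq a j).2 (Or.inl ha)) hj))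
    · exact mem_insert.2 (Or.inl (line_eq_of_two (hne' a) (hcen a) (onLine_lineThru P _)
        ((cen_on_crossSide hq a j).2 (Or.inr ha)) hj))
    · exact mem_insert.2 (Or.inr (mem_singleton.2 (line_eq_of_two (hne' a) (hcen a)
        (onLine_lineThru P _) ((cen_on_crossSide hq a j').2 (Or.inl ha)) hj')))
    · exact mem_insert.2 (Or.inr (mem_singleton.2 (line_eq_of_two (hne' a) (hcen a)
        (onLine_lineThru P _) ((cen_on_crossSide hq a j').2 (Or.inr ha)) hj')))
  obtain ⟨hcard, hcov⟩ := hR
  have hdes := desig_card_le hq (Λ := linesThru P) ln fun l hl a hon => by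
    simp only [hln]
    rw [slopeTo_eq (hne' a) hon (mem_linesThru.1 hl), lineThru_eq (mem_linesThru.1 hl)]
  set J := univ.filter fun i => OnLine P (wLine i) with hJ
  have hJ3 : J.card = 3 := by convert hW3 using 2
  have hJ' : (univ.filter fun i => wLine i ∈ linesThru P).card ≤ J.card :=
    card_le_card fun i hi => mem_filter.2 ⟨mem_univ _, mem_linesThru.1 (mem_filter.1 hi).2⟩
  rw [card_linesThru] at hcard
  have hR2 : R.card ≤ 2 * Fintype.card K + 4 := by omega
  -- the two families of points
  set WS := J ×ˢ (univ : Finset (Fin 12 × K)) with hWS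
  set CS := (D.crossPts j ∪ D.crossPts j').filter fun p => p ≠ P with hCS
  have hWSc : WS.card = 3 * (12 * Fintype.card K) := by simp [hWS, hJ3]
  have hCSc : 2 * q ≤ CS.card + 33 := by
    have hd : Disjoint (D.crossPts j) (D.crossPts j') := disjoint_left.2 fun p hp hp' => by
      simp only [crossPts, mem_filter] at hp hp'
      exact hjj (crossPts_unique hq h.toDesign hp'.1 hp'.2 j hp.2)
    have h1 := h.cross_low j
    have h2 := h.cross_low j'
    have h3 := card_filter_add_card_filter_not (s := D.crossPts j ∪ D.crossPts j')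
      (fun p => p ≠ P)
    have h4 : ((D.crossPts j ∪ D.crossPts j').filter fun p => ¬ p ≠ P).card ≤ 1 :=
      card_le_one.2 fun a ha b hb =>
        (not_not.1 (mem_filter.1 ha).2).trans (not_not.1 (mem_filter.1 hb).2).symm
    rw [card_union_of_disjoint hd] at h3
    simp only [hCS]
    omega
  have hcovW : ∀ z ∈ WS, ∃ b ∈ R, D.InBlk (D.wp z.1 z.2.1 z.2.2) b := by
    intro z hz
    have hi := (mem_filter.1 (mem_product.1 hz).1).2
    refine hcov _ (wp_mem_pts _ _ _) (fun e => ?_)
      ⟨_, mem_desig_wLine (mem_linesThru.2 hi), (h.wp_line _ _ _).1⟩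
    rw [mem_singleton] at e
    exact (h.wp_line z.1 z.2.1 z.2.2).2.1 (Or.inr ⟨j, e ▸ hj⟩)
  have hcovC : ∀ p ∈ CS, ∃ b ∈ R, D.InBlk p b := by
    intro p hp
    obtain ⟨hp, hpP⟩ := mem_filter.1 hp
    rcases mem_union.1 hp with hp | hp <;> simp only [crossPts, mem_filter] at hp
    · exact hcov p hp.1 (by simpa using hpP) ⟨crossSide j, mem_desig_of_cen
        (mem_linesThru.2 hj) ((cen_on_crossSide hq _ j).2 (Or.inl rfl)), hp.2⟩
    · exact hcov p hp.1 (by simpa using hpP) ⟨crossSide j', mem_desig_of_cen
        (mem_linesThru.2 hj') ((cen_on_crossSide hq _ j').2 (Or.inl rfl)), hp.2⟩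
  have hT2 : 2 ≤ T := by
    have h1 := g_le_T hq h
    have h2 := hs.g_big
    have h3 : 2 * 1 ≤ (100 * (kk + 10)) * (κ + 10) := Nat.mul_le_mul (by omega) (by omega)
    omega
  have hblock : ∀ b, T * (WS.filter fun z => D.InBlk (D.wp z.1 z.2.1 z.2.2) b).card +
      12 * (CS.filter fun p => D.InBlk p b).card ≤ 24 * T := by
    intro b
    have hc2 : (CS.filter fun p => D.InBlk p b).card ≤ 2 * T := by
      refine le_trans (card_le_card (t := ((D.crossPts j).filter fun p => D.InBlk p b) ∪
        (D.crossPts j').filter fun p => D.InBlk p b) fun p hp => ?_)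
        (le_trans (card_union_le _ _) (le_trans (Nat.add_le_add
          (cross_trace_le hq h (by omega) j b) (cross_trace_le hq h (by omega) j' b)) (by omega)))
      obtain ⟨hp, hb⟩ := mem_filter.1 hp
      rcases mem_union.1 (mem_filter.1 hp).1 with hp | hp
      · exact mem_union_left _ (mem_filter.2 ⟨hp, hb⟩)
      · exact mem_union_right _ (mem_filter.2 ⟨hp, hb⟩)
    have hT24 := Nat.mul_le_mul_left T (show 2 ≤ 2 by omega)
    rcases (WS.filter fun z => D.InBlk (D.wp z.1 z.2.1 z.2.2) b).eq_empty_or_nonempty with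
      e | ⟨z₀, hz₀⟩
    · rw [e, card_empty]; omega
    obtain ⟨hzW, hz₀⟩ := mem_filter.1 hz₀
    cases b with
    | tag s => exact absurd ⟨_, (h.wp_line _ _ _).1⟩ (inBlk_tag hz₀).1.1.2
    | spec i μ x =>
        exact absurd (Or.inl ⟨i, isOm_onLine h.toDesign
          (inBlk_spec hq h.toDesign (wp_mem_pts _ _ _) hz₀).1⟩) (h.wp_line _ _ _).2.1
    | cell γ d c₁ c₂ =>
        have hw : (WS.filter fun z => D.InBlk (D.wp z.1 z.2.1 z.2.2) (.cell γ d c₁ c₂)).card ≤ 24 :=
          le_trans (card_le_card fun z hz => mem_filter.2 ⟨mem_univ _, (mem_filter.1 hz).2⟩)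
            (wp_cell_le h.toDesign γ d c₁ c₂)
        have hne : c₁ ≠ c₂ := by
          intro ec
          obtain ⟨-, e1, e2⟩ := inBlk_cell hz₀
          rw [(wp_lab_snd h.toDesign γ _ _ _).1] at e1
          rw [(wp_lab_snd h.toDesign γ _ _ _).2] at e2
          simp only [coset] at e1 e2
          exact h.sh_ne (.inr (z₀.1, if γ = 0 then 0 else z₀.2.1))
            (by linear_combination e2 - e1 - ec)
        have hs0 : (CS.filter fun p => D.InBlk p (.cell γ d c₁ c₂)).card = 0 :=
          card_eq_zero.2 (filter_eq_empty_iff.2 fun p hp hb => by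
            rcases mem_union.1 (mem_filter.1 hp).1 with hp | hp <;>
              exact hne (cell_diag hq h.toDesign hp hb))
        rw [hs0]
        have := Nat.mul_le_mul_left T hw
        omega
    | line l π =>
        obtain ⟨k1, k2⟩ := inBlk_line hz₀
        by_cases e : ∃ i, l = wLine i
        · obtain ⟨i, rfl⟩ := e
          have hs0 : (CS.filter fun p => D.InBlk p (.line (wLine i) π)).card = 0 :=
            card_eq_zero.2 (filter_eq_empty_iff.2 fun p hp hb => by
              obtain ⟨k, -⟩ := inBlk_line hb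
              rcases mem_union.1 (mem_filter.1 hp).1 with hp | hp <;>
                simp only [crossPts, mem_filter] at hp <;>
                exact (isW_onW h.toDesign (isW_of_onW h.toDesign hp.1 ⟨i, k⟩)).2
                  (Or.inr ⟨_, hp.2⟩))
          have hw : (WS.filter fun z =>
              D.InBlk (D.wp z.1 z.2.1 z.2.2) (.line (wLine i) π)).card ≤ 24 := by
            refine le_trans (card_le_card (t := (univ.filter fun z : Fin 12 × K =>
              D.InBlk (D.wp i z.1 z.2) (.line (wLine i) π)).image fun z => (i, z)) ?_)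
              (le_trans card_image_le (wp_trace_le hq h.toDesign i _))
            intro z hz
            obtain ⟨-, hb⟩ := mem_filter.1 hz
            have ei : i = z.1 := (h.wp_line z.1 z.2.1 z.2.2).2.2 i (inBlk_line hb).1
            refine mem_image.2 ⟨z.2, mem_filter.2 ⟨mem_univ _, ?_⟩, by rw [ei]⟩
            rw [ei] at hb ⊢; exact hb
          rw [hs0]
          have := Nat.mul_le_mul_left T hw
          omega
        · have hns : ∀ j'' , l ≠ crossSide j'' := fun j'' ee =>
            (h.wp_line z₀.1 z₀.2.1 z₀.2.2).2.1 (Or.inr ⟨j'', ee ▸ k1⟩)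
          have hw : (WS.filter fun z => D.InBlk (D.wp z.1 z.2.1 z.2.2) (.line l π)).card ≤ 6 := by
            refine le_trans (card_le_card_of_injOn Prod.fst (t := (univ : Finset (Fin 6)))
              (fun z _ => mem_univ _) ?_) (by simp)
            intro z hz z' hz' ez
            obtain ⟨-, hb⟩ := mem_filter.1 hz
            obtain ⟨-, hb'⟩ := mem_filter.1 hz'
            have l2 := (h.wp_line z.1 z.2.1 z.2.2).1
            have l2' : OnLine (D.wp z'.1 z'.2.1 z'.2.2) (wLine z.1) := by
              have h' := (h.wp_line z'.1 z'.2.1 z'.2.2).1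
              rw [show z.1 = z'.1 from ez]; exact h'
            have := pt_eq_of_two (fun ee => e ⟨z.1, ee⟩) (inBlk_line hb').1 (inBlk_line hb).1
              l2' l2
            exact h.wp_inj this
          have hs2 : (CS.filter fun p => D.InBlk p (.line l π)).card ≤ 2 := by
            refine le_trans (card_le_card (t := ((D.crossPts j).filter fun p =>
              D.InBlk p (.line l π)) ∪ (D.crossPts j').filter fun p => D.InBlk p (.line l π))
              fun p hp => ?_) (le_trans (card_union_le _ _) ?_)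
            · obtain ⟨hp, hb⟩ := mem_filter.1 hp
              rcases mem_union.1 (mem_filter.1 hp).1 with hp | hp
              · exact mem_union_left _ (mem_filter.2 ⟨hp, hb⟩)
              · exact mem_union_right _ (mem_filter.2 ⟨hp, hb⟩)
            · have key : ∀ j'', ((D.crossPts j'').filter fun p =>
                  D.InBlk p (.line l π)).card ≤ 1 := fun j'' =>
                card_le_one.2 fun p hp p' hp' => by
                  obtain ⟨hp, hb⟩ := mem_filter.1 hp
                  obtain ⟨hp', hb'⟩ := mem_filter.1 hp'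
                  simp only [crossPts, mem_filter] at hp hp'
                  exact pt_eq_of_two (hns j'') (inBlk_line hb').1 (inBlk_line hb).1 hp'.2 hp.2
              have := key j; have := key j'; omega
          have := Nat.mul_le_mul_left T hw
          omega
  have h1 : WS.card ≤ ∑ b ∈ R, (WS.filter fun z => D.InBlk (D.wp z.1 z.2.1 z.2.2) b).card :=
    le_trans (card_le_card fun z hz => by
      obtain ⟨b, hb, hin⟩ := hcovW z hz
      exact mem_biUnion.2 ⟨b, hb, mem_filter.2 ⟨hz, hin⟩⟩) card_biUnion_le
  have h2 : CS.card ≤ ∑ b ∈ R, (CS.filter fun p => D.InBlk p b).card :=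
    le_trans (card_le_card fun p hp => by
      obtain ⟨b, hb, hin⟩ := hcovC p hp
      exact mem_biUnion.2 ⟨b, hb, mem_filter.2 ⟨hp, hin⟩⟩) card_biUnion_le
  have h3 : T * WS.card + 12 * CS.card ≤ R.card * (24 * T) := by
    refine le_trans (Nat.add_le_add (Nat.mul_le_mul_left T h1) (Nat.mul_le_mul_left 12 h2)) ?_
    rw [mul_sum, mul_sum, ← sum_add_distrib]
    exact le_trans (sum_le_sum fun b _ => hblock b) (by simp)
  have h4 : R.card * (24 * T) ≤ (2 * Fintype.card K + 4) * (24 * T) := Nat.mul_le_mul_right _ hR2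
  have hTl := hs.T_lin
  rw [hWSc] at h3
  nlinarith

/-- The point on both sides joining centres of equal groups. -/
theorem case_same_meet {T κ g Dl err kk : ℕ} (hq : 1000 ≤ q) (h : Good D T κ g Dl err)
    (hs : Sizes q (Fintype.card K) T κ g Dl err kk) {P : Pt q} (h0 : OnLine P (sameSide 0))
    (h1 : OnLine P (sameSide 1)) {R : Finset (Blk q K (modM K))}
    (hR : D.Remainder (linesThru P) {P} R) : False := by
  classical
  obtain ⟨hnW, -, hPc⟩ := sameSide_meet hq h0 h1
  have hon : ∀ i, OnLine P (sameSide i) := fun i => by fin_cases i <;> assumption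
  set ln := fun a => lineThru P (slopeTo (cen a) P) with hln
  have hne' : ∀ a, P ≠ cen a := fun a e => hPc ⟨a, e.symm⟩
  have hcen : ∀ a, OnLine (cen a) (ln a) := fun a => by
    have h1 := onLine_slopeTo (cen a) P
    have h2 := lineThru_eq h1
    rw [lineThru_fst] at h2
    simp only [hln, h2]
    exact onLine_lineThru _ _
  have himg : (univ.image ln).card ≤ 2 := by
    refine le_trans (card_le_card (t := univ.image fun i : Fin 2 => sameSide i) ?_)
      (le_trans card_image_le (by simp))
    intro l hl
    obtain ⟨a, -, rfl⟩ := mem_image.1 hl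
    rcases same_all a with ha | ha
    · exact mem_image.2 ⟨0, mem_univ _, (line_eq_of_two (hne' a) (hcen a) (onLine_lineThru P _)
        ((cen_on_sameSide hq a 0).2 ha) h0).symm⟩
    · exact mem_image.2 ⟨1, mem_univ _, (line_eq_of_two (hne' a) (hcen a) (onLine_lineThru P _)
        ((cen_on_sameSide hq a 1).2 ha) h1).symm⟩
  obtain ⟨hcard, hcov⟩ := hR
  have hdes := desig_card_le hq (Λ := linesThru P) ln fun l hl a hon => by
    simp only [hln]
    rw [slopeTo_eq (hne' a) hon (mem_linesThru.1 hl), lineThru_eq (mem_linesThru.1 hl)]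
  have hJ : (univ.filter fun i => wLine i ∈ linesThru P).card = 0 :=
    card_eq_zero.2 (filter_eq_empty_iff.2 fun i _ hi => hnW ⟨i, mem_linesThru.1 hi⟩)
  rw [card_linesThru] at hcard
  set m := Fintype.card K with hm
  have hR2 : R.card ≤ 2 * m + 1 := by omega
  have hml := m_large hs
  set Sp : Fin 2 → Finset (Blk q K (modM K)) :=
    fun i => R.filter fun b => ∃ μ a, b = .spec i μ a with hSp
  set O := R.filter fun b => ∀ i : Fin 2, ¬ ∃ μ a, b = .spec i μ a with hO
  set v : Fin 4 → K × K := fun _ => 0
  have key : ∀ i, 21 * (m + 1) ≤ 21 * (Sp i).card + 3 * O.card := by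
    intro i
    have hc := om_count hq (by omega) h.toDesign i v univ
      (fun g _ d => by simpa [v] using (h.sh_ne (.inl g)).symm)
      (R := R \ Sp (1 - i)) (Ex := {P})
      (fun g _ z e => (h.om_off i g z).2.2.2 (1 - i) (by clear * - i; revert i; decide)
        ((mem_singleton.1 e) ▸ hon (1 - i)))
      (fun g _ z hE => by
        obtain ⟨b, hb, hin⟩ := hcov _ (mem_pts.2 (Or.inr (Or.inl ⟨i, g, z, rfl⟩))) hE
          ⟨sameSide i, mem_desig_of_cen (mem_linesThru.2 (hon i))
            ((cen_on_sameSide hq _ i).2 (Or.inl rfl)), h.om_side i g z⟩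
        refine ⟨b, mem_sdiff.2 ⟨hb, fun hbs => ?_⟩, hin⟩
        obtain ⟨-, μ, a, rfl⟩ := mem_filter.1 hbs
        exact (h.om_off i g z).2.2.2 (1 - i) (by clear * - i; revert i; decide)
          (isOm_onLine h.toDesign (inBlk_spec hq h.toDesign
            (mem_pts.2 (Or.inr (Or.inl ⟨i, g, z, rfl⟩))) hin).1))
    rw [card_univ, Fintype.card_fin] at hc
    refine le_trans hc (Nat.add_le_add (Nat.mul_le_mul_left _ (card_le_card fun b hb =>
      mem_filter.2 ⟨(mem_sdiff.1 (mem_filter.1 hb).1).1, (mem_filter.1 hb).2⟩))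
      (Nat.mul_le_mul_left _ (card_le_card fun b hb => ?_)))
    obtain ⟨hb1, hb2, -⟩ := mem_filter.1 hb
    obtain ⟨hbR, hbn⟩ := mem_sdiff.1 hb1
    refine mem_filter.2 ⟨hbR, fun i' => ?_⟩
    by_cases e : i' = i
    · exact e ▸ hb2
    · exact fin2_other e ▸ fun hx => hbn (mem_filter.2 ⟨hbR, hx⟩)
  have hsum : (Sp 0).card + (Sp 1).card + O.card ≤ R.card := by
    rw [← card_union_of_disjoint, ← card_union_of_disjoint]
    · exact card_le_card (union_subset (union_subset (filter_subset _ _) (filter_subset _ _))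
        (filter_subset _ _))
    · refine disjoint_left.2 fun b hb hb' => ?_
      rcases mem_union.1 hb with hb | hb
      · exact (mem_filter.1 hb').2 0 (mem_filter.1 hb).2
      · exact (mem_filter.1 hb').2 1 (mem_filter.1 hb).2
    · refine disjoint_left.2 fun b hb hb' => ?_
      obtain ⟨-, μ, a, rfl⟩ := mem_filter.1 hb
      obtain ⟨-, μ', a', e⟩ := mem_filter.1 hb'
      injection e with e'
      exact absurd e' (by decide)
  have k0 := key 0
  have k1 := key 1
  omega

end Data

end Vale.Agent.P045
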