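import Mathlib
import Vale.Agent.P045.CoverCommon

/-!
# P045: a point seen along four lines through single centres
-/

set_option linter.unusedSectionVars false

namespace Vale.Agent.P045

open Finset

variable {q : ℕ} [Fact q.Prime] {K : Type*} [Field K] [Fintype K] [DecidableEq K]

namespace Data

variable {D : Data q K}

/-- The points of auxiliary lines outside `Ex` and outside given lines are in no piece of these. -/
lemma wp_not_piece {Ex : Finset (Pt q)} {l : Line q} {i : Fin 6} {k : Fin 12} {x y : K}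
    (hmeet : ∀ p, OnLine p (wLine i) → OnLine p l → p ∈ Ex) (h : Design D)
    (hE : D.wp i k x ∉ Ex) : ¬ D.InBlk (D.wp i k x) (.line l (.one y)) := fun hb =>
  hE (hmeet _ (h.wp_line i k x).1 (inBlk_line hb).1)

/-- Four single-centre lines at one point, with `J` auxiliary lines: too many blocks. -/
theorem four_lines_false {T κ g Dl err kk : ℕ} (hq : 1000 ≤ q) (h : Good D T κ g Dl err)
    (hs : Sizes q (Fintype.card K) T κ g Dl err kk) {v : Fin 4 → K × K} (ln : Fin 4 → Line q)
    (hseen : ∀ a, Seen D v a (ln a)) {R : Finset (Blk q K (modM K))} {Ex : Finset (Pt q)}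
    (hEx : Ex.card ≤ 1) (J : Finset (Fin 6))
    (hcov : ∀ a, ∀ p ∈ D.linePts (ln a), p ∉ Ex → ∃ b ∈ R, D.InBlk p b)
    (hmeet : ∀ a a', a ≠ a' → ∀ p, OnLine p (ln a) → OnLine p (ln a') → p ∈ Ex)
    (hmeetW : ∀ i ∈ J, ∀ a p, OnLine p (wLine i) → OnLine p (ln a) → p ∈ Ex)
    (hcovW : ∀ i ∈ J, ∀ k x, D.wp i k x ∉ Ex → ∃ b ∈ R, D.InBlk (D.wp i k x) b)
    (hsize : R.card ≤ 2 * Fintype.card K + 3 + J.card ∨
      (R.card ≤ 2 * Fintype.card K + 4 + J.card ∧ ¬ IsSideSlope (ln 1).1 ∧
        coset (D.dir (ln 1).1) (v 0) = coset (D.dir (ln 1).1) (D.L 0 (ln 1).1) ∧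
        ∀ d, ¬ D.Killed 0 (ln 0).1 (some d, coset d (v 1)))) : False := by
  classical
  set m := Fintype.card K with hm
  have hJ : J.card ≤ 6 := le_trans (card_le_univ J) (by simp)
  have hR : R.card ≤ 2 * m + 10 := by rcases hsize with h1 | ⟨h1, -⟩ <;> omega
  have hR' : R.card ≤ 2 * m + 20 := by omega
  have hml := m_large hs
  set G0 := stars R v 0 ∪ (D.bigs R v 0 (ln 0) ∪ D.bigs R v 1 (ln 1)) with hG0
  set G1 := stars R v 1 ∪ (D.bigs R v 2 (ln 2) ∪ D.bigs R v 3 (ln 3)) with hG1
  have c0 : G0.card = (stars R v 0).card + ((D.bigs R v 0 (ln 0)).card +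
      (D.bigs R v 1 (ln 1)).card) := by
    rw [hG0, card_union_of_disjoint (disjoint_union_right.2 ⟨disjoint_stars_bigs R v 0 0 (ln 0),
      disjoint_stars_bigs R v 0 1 (ln 1)⟩),
      card_union_of_disjoint (disjoint_bigs_bigs R (hseen 0) (hseen 1) (by decide))]
  have c1 : G1.card = (stars R v 1).card + ((D.bigs R v 2 (ln 2)).card +
      (D.bigs R v 3 (ln 3)).card) := by
    rw [hG1, card_union_of_disjoint (disjoint_union_right.2 ⟨disjoint_stars_bigs R v 1 2 (ln 2),
      disjoint_stars_bigs R v 1 3 (ln 3)⟩),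
      card_union_of_disjoint (disjoint_bigs_bigs R (hseen 2) (hseen 3) (by decide))]
  have hdisj : Disjoint G0 G1 := by
    simp only [hG0, hG1, disjoint_union_left, disjoint_union_right]
    exact ⟨⟨disjoint_stars_stars R v,
        (disjoint_stars_bigs R v 1 0 (ln 0)).symm, (disjoint_stars_bigs R v 1 1 (ln 1)).symm⟩,
      ⟨disjoint_stars_bigs R v 0 2 (ln 2),
        disjoint_bigs_bigs R (hseen 0) (hseen 2) (by decide),
        disjoint_bigs_bigs R (hseen 1) (hseen 2) (by decide)⟩,
      disjoint_stars_bigs R v 0 3 (ln 3),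
        disjoint_bigs_bigs R (hseen 0) (hseen 3) (by decide),
        disjoint_bigs_bigs R (hseen 1) (hseen 3) (by decide)⟩
  have hsub : G0.card + G1.card ≤ R.card := by
    rw [← card_union_of_disjoint hdisj]
    refine card_le_card ?_
    simp only [hG0, hG1, stars, bigs, union_subset_iff, filter_subset, and_self]
  have p0 := pair_regime hq h hs (a := 0) (hseen 0) (hseen 1) hR' hEx (hcov 0) (hcov 1)
  have p1 := pair_regime hq h hs (a := 2) (hseen 2) (hseen 3) hR' hEx (hcov 2) (hcov 3)
  simp only [show cGrp 0 = 0 from rfl, show cGrp 2 = 1 from rfl,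
    show partner 0 = 1 from rfl, show partner 2 = 3 from rfl] at p0 p1
  have s0 := stars_card R v 0
  have s1 := stars_card R v 1
  have small0 : (omitted R v 0).card ≤ 8 * kk := by omega
  have small1 : (omitted R v 1).card ≤ 8 * kk := by omega
  set F1 := stars R v 0 ∪ stars R v 1 with hF1
  have hF1c : F1.card = (stars R v 0).card + (stars R v 1).card :=
    card_union_of_disjoint (disjoint_stars_stars R v)
  have hF1R : F1 ⊆ R := union_subset (filter_subset _ _) (filter_subset _ _)
  have hfew : ∃ S : Finset (Blk q K (modM K)), S.card ≤ 16 * kk + 10 ∧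
      ∀ b ∈ R, IsForced v b ∨ b ∈ S := by
    refine ⟨R \ F1, ?_, fun b hb => ?_⟩
    · rw [card_sdiff_of_subset hF1R]; omega
    · by_cases hb' : b ∈ F1
      · left; left
        rcases mem_union.1 hb' with hb' | hb' <;> obtain ⟨-, d, hd⟩ := mem_filter.1 hb' <;>
          exact ⟨_, d, hd⟩
      · exact Or.inr (mem_sdiff.2 ⟨hb, hb'⟩)
  have hforced := fun a => seen_forced hq h hs (hseen a) hEx
    (show 16 * kk + 10 ≤ 60 * kk + 500 by omega) hfew (hcov a)
  have all1 : ∀ d, star v 1 d ∈ R := by
    intro d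
    refine (hforced 2).2 d ?_
    rintro (⟨e, -⟩ | ⟨e, -⟩) <;> exact absurd e (by decide)
  set W := Blk.line (K := K) (M := modM K) with hW
  set Pc := (univ : Finset (Fin 4)).image fun a => W (ln a) (.one (v (partner a)).1) with hPc
  have hPcc : Pc.card = 4 := by
    rw [hPc, card_image_of_injective, card_univ, Fintype.card_fin]
    intro a a' e
    by_contra hne
    injection e with e1
    exact role_ne (hseen a).1 (hseen a').1 hne e1
  set F := F1 ∪ Pc with hF
  have hFdisj : Disjoint F1 Pc := by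
    refine disjoint_left.2 fun b hb hb' => ?_
    obtain ⟨a, -, rfl⟩ := mem_image.1 hb'
    rcases mem_union.1 hb with hb | hb <;> obtain ⟨-, d, hd⟩ := mem_filter.1 hb <;>
      simp [hW, star] at hd
  have hFR : F ⊆ R := union_subset hF1R fun b hb => by
    obtain ⟨a, -, rfl⟩ := mem_image.1 hb
    exact (hforced a).1
  have hFc : F.card + (omitted R v 0).card = 2 * m + 4 := by
    rw [hF, card_union_of_disjoint hFdisj, hPcc, hF1c]
    have : (omitted R v 1).card = 0 :=
      card_eq_zero.2 (filter_eq_empty_iff.2 fun d _ hd => hd (all1 d))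
    omega
  set S := R \ F with hS
  have hSc : S.card + F.card = R.card := card_sdiff_add_card_eq_card hFR
  -- the witness
  have key : ((omitted R v 0).card = 0 ∧ ∀ d, ¬ D.Killed 1 (ln 1).1 (some d, coset d (v 0))) ∨
      ((omitted R v 0).card ≤ 1 ∧ ¬ IsSideSlope (ln 1).1 ∧
        coset (D.dir (ln 1).1) (v 0) = coset (D.dir (ln 1).1) (D.L 0 (ln 1).1)) := by
    by_cases hk : ∀ d, ¬ D.Killed 1 (ln 1).1 (some d, coset d (v 0))
    · exact Or.inl ⟨card_eq_zero.2 (filter_eq_empty_iff.2 fun d _ hd =>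
        hd ((hforced 1).2 d (hk d))), hk⟩
    · push Not at hk
      obtain ⟨d, hd⟩ := hk
      rcases hd with ⟨-, hns, e⟩ | ⟨e, -⟩
      · simp only [Prod.mk.injEq, Option.some.injEq] at e
        refine Or.inr ⟨card_le_one.2 fun x hx y hy => ?_, hns, by rw [← e.1, e.2, e.1]⟩
        have aux : ∀ z ∈ omitted R v 0, z = D.dir (ln 1).1 := by
          intro z hz
          by_contra hne
          refine (mem_filter.1 hz).2 ((hforced 1).2 z ?_)
          rintro (⟨-, -, e'⟩ | ⟨e', -⟩)
          · simp only [Prod.mk.injEq, Option.some.injEq] at e'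
            exact hne e'.1
          · exact absurd e' (by decide)
        rw [aux x hx, aux y hy]
      · exact absurd e (by decide)
  have hwit : ¬ IsSideSlope (ln 1).1 →
      coset (D.dir (ln 1).1) (v 0) = coset (D.dir (ln 1).1) (D.L 0 (ln 1).1) →
      ∃ b ∈ S, ∀ i x, b ≠ W (wLine i) (.one x) := by
    intro hns hc
    obtain ⟨w, hwl, hwE, ht, -, hstar, hX⟩ :=
      exists_witness hq (by have := hs.κ_big; omega) h (hseen 1).1 hns hc hEx
    obtain ⟨b, hb, hin⟩ := hcov 1 w hwl hwE
    refine ⟨b, mem_sdiff.2 ⟨hb, fun hbF => ?_⟩, ?_⟩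
    · rcases mem_union.1 hbF with hbF | hbF
      · rcases mem_union.1 hbF with hbF | hbF <;> obtain ⟨-, d, rfl⟩ := mem_filter.1 hbF <;>
          exact hstar _ d hin
      · obtain ⟨a, -, rfl⟩ := mem_image.1 hbF
        obtain ⟨k1, k2⟩ := inBlk_piece_eq hq (hseen a).1 hin
        by_cases e : a = 1
        · subst e; exact hX k2
        · exact hwE (hmeet a 1 e w k1 (mem_linePts.1 hwl).2.1)
    · intro i x e
      subst e
      exact ht.1.2 ⟨i, (inBlk_line hin).1⟩
  have hWin : S.card ≤ 7 → ∀ i ∈ J, ∃ x, W (wLine i) (.one x) ∈ S := by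
    intro hS7 i hi
    refine wp_piece hq (by omega) h.toDesign v i hEx hS7 (hcovW i hi) fun b hb k x hE hin => ?_
    by_cases hbF : b ∈ F
    · rcases mem_union.1 hbF with hbF | hbF
      · rcases mem_union.1 hbF with hbF | hbF <;> obtain ⟨-, d, hd⟩ := mem_filter.1 hbF <;>
          exact Or.inl ⟨_, d, hd⟩
      · obtain ⟨a, -, rfl⟩ := mem_image.1 hbF
        exact absurd hin (wp_not_piece (hmeetW i hi a) h.toDesign hE)
    · exact Or.inr (mem_sdiff.2 ⟨hb, hbF⟩)
  have hWle : S.card ≤ 7 → J.card ≤ S.card ∧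
      ((∃ b ∈ S, ∀ i x, b ≠ W (wLine i) (.one x)) → J.card + 1 ≤ S.card) := by
    intro hS7
    choose x hx using hWin hS7
    set img := J.attach.image fun i => W (wLine i.1) (.one (x i.1 i.2)) with himg
    have hc : img.card = J.card := by
      rw [himg, card_image_of_injective, card_attach]
      intro i i' e
      injection e with e1
      exact Subtype.ext (wLine_injective hq e1)
    have hsub : img ⊆ S := fun b hb => by
      obtain ⟨i, -, rfl⟩ := mem_image.1 hb; exact hx i.1 i.2
    refine ⟨hc ▸ card_le_card hsub, fun ⟨b, hb, hbne⟩ => ?_⟩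
    have : b ∉ img := fun hbi => by
      obtain ⟨i, -, rfl⟩ := mem_image.1 hbi; exact hbne _ _ rfl
    have := card_le_card (insert_subset hb hsub)
    rw [card_insert_of_notMem ‹b ∉ img›] at this
    omega
  rcases hsize with hsz | ⟨hsz, hns, hc, hcol⟩
  · rcases key with ⟨h0, -⟩ | ⟨h0, hns, hc⟩
    · obtain ⟨h1, -⟩ := hWle (by omega)
      omega
    · obtain ⟨-, h2⟩ := hWle (by omega)
      have := h2 (hwit hns hc)
      omega
  · have h0 : (omitted R v 0).card = 0 :=
      card_eq_zero.2 (filter_eq_empty_iff.2 fun d _ hd => hd ((hforced 0).2 d (hcol d)))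
    obtain ⟨-, h2⟩ := hWle (by omega)
    have := h2 (hwit hns hc)
    omega

/-- An affine point on no side. -/
theorem case_plain {T κ g Dl err kk : ℕ} (hq : 1000 ≤ q) (h : Good D T κ g Dl err)
    (hs : Sizes q (Fintype.card K) T κ g Dl err kk) {P : Pt q} (hPc : ¬ IsCen P)
    (hP : ¬ OnSide P) {R : Finset (Blk q K (modM K))}
    (hR : D.Remainder (linesThru P) {P} R) : False := by
  classical
  set ln := fun a => lineThru P (slopeTo (cen a) P) with hln
  have hne : ∀ a, P ≠ cen a := fun a e => hPc ⟨a, e.symm⟩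
  have hcen : ∀ a, OnLine (cen a) (ln a) := fun a => by
    have h1 := onLine_slopeTo (cen a) P
    have h2 := lineThru_eq h1
    rw [lineThru_fst] at h2
    simp only [hln, h2]
    exact onLine_lineThru _ _
  have hmem : ∀ a, ln a ∈ linesThru P := fun a => mem_linesThru.2 (onLine_lineThru P _)
  have hseen : ∀ a, Seen D (fun a => D.lab a P) a (ln a) := fun a =>
    ⟨role_of_not_onSide hq (hcen a) (onLine_lineThru P _) hP, by
      simp only [hln, lineThru_fst]
      exact lab_of_not_cross (fun hc => hP (Or.inr hc)) a⟩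
  set J := univ.filter fun i => wLine i ∈ linesThru P with hJ
  obtain ⟨hcard, hcov⟩ := hR
  have hdes := desig_card_le hq (Λ := linesThru P) ln fun l hl a hon => by
    simp only [hln]
    rw [slopeTo_eq (hne a) hon (mem_linesThru.1 hl), lineThru_eq (mem_linesThru.1 hl)]
  have himg : (univ.image ln).card ≤ 4 := le_trans card_image_le (by simp)
  rw [card_linesThru] at hcard
  refine four_lines_false hq h hs ln hseen (Ex := {P}) (by simp) J
    (fun a p hp hpE => hcov p (mem_linePts.1 hp).1 hpE
      ⟨ln a, mem_desig_of_cen (hmem a) (hcen a), (mem_linePts.1 hp).2.1⟩)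
    (fun a a' haa p h1 h2 => mem_singleton.2
      (pt_eq_of_two (role_ne (hseen a).1 (hseen a').1 haa) (onLine_lineThru P _) h1
        (onLine_lineThru P _) h2))
    (fun i hi a p h1 h2 => mem_singleton.2
      (pt_eq_of_two (fun e => cen_not_on_wLine hq a i (by rw [e]; exact hcen a))
        (mem_linesThru.1 (mem_filter.1 hi).2) h1 (onLine_lineThru P _) h2))
    (fun i hi k x hE => hcov _ (wp_mem_pts i k x) hE
      ⟨wLine i, mem_desig_wLine (mem_filter.1 hi).2, (h.wp_line i k x).1⟩)
    (Or.inl (by simp only [hJ] at *; omega))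

/-- A point at infinity of no side. -/
theorem case_dir {T κ g Dl err kk : ℕ} (hq : 1000 ≤ q) (h : Good D T κ g Dl err)
    (hs : Sizes q (Fintype.card K) T κ g Dl err kk) {σ : Slope q} (hσ : ¬ IsSideSlope σ)
    {R : Finset (Blk q K (modM K))} (hR : D.Remainder (linesDir σ) ∅ R) : False := by
  classical
  set ln := fun a => lineThru (cen a) σ with hln
  have hfst : ∀ a, (ln a).1 = σ := fun a => lineThru_fst _ _
  have hseen : ∀ a, Seen D (fun a => D.L a σ) a (ln a) := fun a =>
    ⟨role_of_slope hq (onLine_lineThru _ _) (by rw [hfst]; exact hσ), by simp [hfst]⟩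
  obtain ⟨hcard, hcov⟩ := hR
  have hdes := desig_card_le hq (Λ := linesDir σ) ln fun l hl a hon => by
    simp only [hln]
    rw [← (mem_filter.1 hl).2, lineThru_eq hon]
  have himg : (univ.image ln).card ≤ 4 := le_trans card_image_le (by simp)
  have hJ : (univ.filter fun i => wLine i ∈ linesDir σ).card = 0 :=
    card_eq_zero.2 (filter_eq_empty_iff.2 fun i _ hi =>
      hσ ((isSideSlope_iff_wLine hq σ).2 ⟨i, (mem_filter.1 hi).2⟩))
  rw [card_linesDir] at hcard
  have hmem : ∀ a, ln a ∈ linesDir σ := fun a => mem_filter.2 ⟨mem_univ _, hfst a⟩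
  refine four_lines_false hq h hs ln hseen (Ex := ∅) (by simp) ∅
    (fun a p hp hpE => hcov p (mem_linePts.1 hp).1 hpE
      ⟨ln a, mem_desig_of_cen (hmem a) (onLine_lineThru _ _), (mem_linePts.1 hp).2.1⟩)
    (fun a a' haa p h1 h2 => absurd h2 (not_onLine_of_parallel
      (role_ne (hseen a).1 (hseen a').1 haa) ((hfst a).trans (hfst a').symm) h1))
    (fun i hi => absurd hi (notMem_empty i)) (fun i hi => absurd hi (notMem_empty i))
    (Or.inr ⟨by simp only [card_empty]; omega, by rw [hfst]; exact hσ, by rw [hfst], ?_⟩)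
  intro d
  rw [hfst]
  rintro (⟨e, -⟩ | ⟨-, s', hs', hZ, e⟩)
  · exact absurd e (by decide)
  · simp only [Prod.mk.injEq, Option.some.injEq] at e
    obtain ⟨rfl, e⟩ := e
    exact (h.Z_coset s' hs' σ hZ).2.2 e

end Data

end Vale.Agent.P045
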