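import Mathlib
import Vale.Agent.P045.CoverFull

/-!
# P045: points of one cross side
-/

set_option linter.unusedSectionVars false

namespace Vale.Agent.P045

open Finset

variable {q : ℕ} [Fact q.Prime] {K : Type*} [Field K] [Fintype K] [DecidableEq K]

lemma cross_groups (j : Fin 2 × Fin 2) :
    cGrp (crossA j) = 0 ∧ cGrp (crossC j) = 1 ∧ cGrp (partner (crossA j)) = 0 ∧
      cGrp (partner (crossC j)) = 1 ∧ partner (partner (crossA j)) = crossA j ∧
      partner (partner (crossC j)) = crossC j := by
  revert j; decide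

lemma cross_all (j : Fin 2 × Fin 2) (a : Fin 4) :
    a = crossA j ∨ a = crossC j ∨ a = partner (crossA j) ∨ a = partner (crossC j) := by
  revert a j; decide

lemma cross_not_partner (j : Fin 2 × Fin 2) (b : Fin 4) (hb : b = crossA j ∨ b = crossC j) :
    ¬ (partner b = crossA j ∨ partner b = crossC j) := by
  revert b j; decide

namespace Data

variable {D : Data q K}

lemma inBlk_cell_slot {p : Pt q} {γ : Fin 2} {d c₁ c₂ : K} (hb : D.InBlk p (.cell γ d c₁ c₂))
    {a : Fin 4} (ha : cGrp a = γ) :
    coset d (D.lab a p) = if a = fstC γ then c₁ else c₂ := by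
  obtain ⟨-, e1, e2⟩ := inBlk_cell hb
  subst ha
  rcases cGrp_spec a with ⟨k, -⟩ | ⟨k, -⟩
  · rw [if_pos k, ← e1, ← k]
  · rw [if_neg (fun k' => slopeTo_fst_snd _ (k'.symm.trans k)), ← e2, ← k]

lemma inBlk_star_slot {p : Pt q} {v : Fin 4 → K × K} {γ : Fin 2} {d : K}
    (hb : D.InBlk p (star v γ d)) {a : Fin 4} (ha : cGrp a = γ) :
    coset d (D.lab a p) = coset d (v a) := by
  rw [inBlk_cell_slot hb ha]
  subst ha
  rcases cGrp_spec a with ⟨k, -⟩ | ⟨k, -⟩
  · rw [if_pos k, ← k]
  · rw [if_neg (fun k' => slopeTo_fst_snd _ (k'.symm.trans k)), ← k]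

lemma cell_eq_star {v : Fin 4 → K × K} {a : Fin 4} {d c₁ c₂ : K}
    (h1 : (if a = fstC (cGrp a) then c₁ else c₂) = coset d (v a))
    (h2 : (if partner a = fstC (cGrp a) then c₁ else c₂) = coset d (v (partner a))) :
    (star v (cGrp a) d : Blk q K (modM K)) = .cell (cGrp a) d c₁ c₂ := by
  rcases cGrp_spec a with ⟨k, k'⟩ | ⟨k, k'⟩
  · rw [if_pos k] at h1
    rw [if_neg (fun e => slopeTo_fst_snd _ (e.symm.trans k'))] at h2
    rw [star, ← k, ← k', h1, h2]
  · rw [if_neg (fun e => slopeTo_fst_snd _ (e.symm.trans k))] at h1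
    rw [if_pos k'] at h2
    rw [star, ← k, ← k', h1, h2]

lemma traceOn_cell_slot {a : Fin 4} {l : Line q} {γ : Fin 2} {d c₁ c₂ : K}
    (h : (D.traceOn a l (.cell γ d c₁ c₂)).isSome) :
    (if a = fstC γ then c₁ else c₂) = coset d (D.L a l.1) := by
  simp only [traceOn] at h
  split_ifs at h with r1 r2
  · rw [if_pos r1.1]; exact r1.2
  · rw [if_neg (fun e => slopeTo_fst_snd _ (e.symm.trans r2.1))]; exact r2.2
  · simp at h

lemma mem_crossPts {j : Fin 2 × Fin 2} {p : Pt q} :
    p ∈ D.crossPts j ↔ p ∈ D.pts ∧ OnLine p (crossSide j) := by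
  simp [crossPts]

lemma crossPts_lab (hq : 1000 ≤ q) (h : Design D) {j : Fin 2 × Fin 2} {p : Pt q}
    (hp : p ∈ D.crossPts j) {a : Fin 4} (ha : a = crossA j ∨ a = crossC j) :
    D.lab a p = D.L (partner a) (slopeTo (cen (partner a)) p) ∧
      D.lab (partner a) p = D.lab a p := by
  obtain ⟨hm, hon⟩ := mem_crossPts.1 hp
  have := lab_cross_pair (D := D) hq hon (crossPts_unique hq h hm hon)
    ((cen_on_crossSide hq a j).2 ha)
  exact ⟨this.1, this.2.trans this.1.symm⟩

lemma crossPts_label_card {T κ g Dl err : ℕ} (hq : 1000 ≤ q) (h : Good D T κ g Dl err)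
    {j : Fin 2 × Fin 2} {a : Fin 4} (ha : a = crossA j ∨ a = crossC j) (w : K × K) :
    ((D.crossPts j).filter fun p => D.lab a p = w).card ≤ κ := by
  classical
  refine le_trans (card_le_card_of_injOn (slopeTo (cen (partner a))) ?_ ?_) (h.mult (partner a) w)
  · intro p hp
    obtain ⟨hp, hv⟩ := mem_filter.1 hp
    rw [(crossPts_lab hq h.toDesign hp ha).1] at hv
    exact Finset.mem_coe.2 (mem_filter.2 ⟨mem_univ _, hv⟩)
  · intro p hp p' hp' e
    exact slopeTo_injOn (partner_mem_crossSide hq ((cen_on_crossSide hq a j).2 ha))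
      (mem_crossPts.1 (mem_filter.1 hp).1).2 (mem_crossPts.1 (mem_filter.1 hp').1).2 e

/-- If one group spends almost all of its budget on big blocks, the band of the other is open. -/
theorem band_false {T κ g Dl err kk : ℕ} (hq : 1000 ≤ q) (h : Good D T κ g Dl err)
    (hs : Sizes q (Fintype.card K) T κ g Dl err kk) {v : Fin 4 → K × K} {j : Fin 2 × Fin 2}
    {a c : Fin 4} (hac : (a = crossA j ∧ c = crossC j) ∨ (a = crossC j ∧ c = crossA j))
    {la lc : Line q} (hla : Seen D v (partner a) la) (hlc : Seen D v (partner c) lc)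
    (hva : v (partner a) = v a) (hvc : v (partner c) = v c)
    {R : Finset (Blk q K (modM K))} {Ex : Finset (Pt q)} (hEx : Ex.card ≤ 1)
    (hma : ∀ p, OnLine p la → OnLine p (crossSide j) → p ∈ Ex)
    (hmc : ∀ p, OnLine p lc → OnLine p (crossSide j) → p ∈ Ex)
    (hcov : ∀ p ∈ D.crossPts j, p ∉ Ex → ∃ b ∈ R, D.InBlk p b)
    (hbudget : R.card ≤ (stars R v (cGrp a)).card + (D.bigs R v (partner a) la).card +
      (D.bigs R v (partner c) lc).card + (12 * kk + 30)) : False := by
  classical
  have ha : a = crossA j ∨ a = crossC j := by rcases hac with ⟨e, -⟩ | ⟨e, -⟩ <;> simp [e]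
  have hc : c = crossA j ∨ c = crossC j := by rcases hac with ⟨-, e⟩ | ⟨-, e⟩ <;> simp [e]
  have hgrp : cGrp a ≠ cGrp c ∧ cGrp (partner a) = cGrp a ∧ partner (partner a) = a ∧
      cGrp (partner c) = cGrp c ∧ partner (partner c) = c ∧ a ≠ c := by
    obtain ⟨e1, e2, e3, e4, e5, e6⟩ := cross_groups j
    rcases hac with ⟨rfl, rfl⟩ | ⟨rfl, rfl⟩ <;>
      refine ⟨?_, ?_, ?_, ?_, ?_, fun e => ?_⟩ <;> simp_all
  obtain ⟨hg, hga, hpa, hgc, hpc, hne⟩ := hgrp
  set A := stars R v (cGrp a) ∪ (D.bigs R v (partner a) la ∪ D.bigs R v (partner c) lc) with hA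
  have hAc : A.card = (stars R v (cGrp a)).card + ((D.bigs R v (partner a) la).card +
      (D.bigs R v (partner c) lc).card) := by
    rw [hA, card_union_of_disjoint (disjoint_union_right.2 ⟨disjoint_stars_bigs R v _ _ la,
      disjoint_stars_bigs R v _ _ lc⟩), card_union_of_disjoint (disjoint_bigs_bigs R hla hlc
        (fun e => hne (by rw [← hpa, e, hpc])))]
  have hAR : A ⊆ R := by
    simp only [hA, stars, bigs, union_subset_iff, filter_subset, and_self]
  set band := (D.crossPts j).filter fun p => (D.lab a p).1 = (v a).1 with hband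
  set E1 := (D.crossPts j).filter fun p => D.lab a p = v a with hE1
  -- blocks of `A` miss the band
  have hmiss : ∀ p ∈ band, p ∉ Ex → p ∉ E1 → ∀ b ∈ A, ¬ D.InBlk p b := by
    intro p hp hpE hp1 b hb hin
    obtain ⟨hpc', hX⟩ := mem_filter.1 hp
    obtain ⟨-, lab_a⟩ := crossPts_lab hq h.toDesign hpc' ha
    have hY : ∀ d, coset d (D.lab a p) = coset d (v a) → False := by
      intro d e
      refine hp1 (mem_filter.2 ⟨hpc', Prod.ext hX ?_⟩)
      simp only [coset] at e
      rw [hX] at e
      exact add_right_cancel (a := (D.lab a p).2) (b := -(d * (v a).1)) (c := (v a).2)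
        (by rw [← sub_eq_add_neg, ← sub_eq_add_neg]; exact e)
    have hstar : ∀ d, ¬ D.InBlk p (star v (cGrp a) d) := fun d hd =>
      hY d (inBlk_star_slot hd rfl)
    have hbig : ∀ (a' : Fin 4) (la' : Line q), (a' = a ∨ a' = c) → Seen D v (partner a') la' →
        (∀ p, OnLine p la' → OnLine p (crossSide j) → p ∈ Ex) → v (partner a') = v a' →
        b ∈ D.bigs R v (partner a') la' → False := by
      intro a' la' haa hla' hma' hv' hb
      obtain ⟨-, hsome, hns⟩ := mem_filter.1 hb
      have ha' : a' = crossA j ∨ a' = crossC j := by rcases haa with rfl | rfl <;> assumption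
      obtain ⟨-, lab'⟩ := crossPts_lab hq h.toDesign hpc' ha'
      have hpa' : partner (partner a') = a' := by fin_cases a' <;> rfl
      cases b with
      | tag s => simp [traceOn] at hsome
      | spec i μ x => simp [traceOn] at hsome
      | line l' π =>
          obtain rfl := isSome_line_piece hsome
          exact hpE (hma' p (inBlk_line hin).1 (mem_crossPts.1 hpc').2)
      | cell γ d c₁ c₂ =>
          obtain rfl := isSome_cell_grp hsome
          refine hns ⟨d, ?_⟩
          have e1 := traceOn_cell_slot hsome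
          rw [← hla'.2] at e1
          have hgg : cGrp a' = cGrp (partner a') := by fin_cases a' <;> rfl
          have e2 := inBlk_cell_slot hin hgg
          have e3 := inBlk_cell_slot hin (a := partner a') rfl
          refine cell_eq_star e1 ?_
          rw [hpa', ← e2, ← lab', e3, e1, hv']
    rcases mem_union.1 hb with hb | hb
    · obtain ⟨-, d, rfl⟩ := mem_filter.1 hb
      exact hstar d hin
    · rcases mem_union.1 hb with hb | hb
      · exact hbig a la (Or.inl rfl) hla hma hva hb
      · exact hbig c lc (Or.inr rfl) hlc hmc hvc hb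
  have hone : ∀ b, (band.filter fun p => D.InBlk p b).card ≤ κ := by
    intro b
    rcases (band.filter fun p => D.InBlk p b).eq_empty_or_nonempty with e | ⟨p₀, hp₀⟩
    · simp [e]
    obtain ⟨hb₀, hin₀⟩ := mem_filter.1 hp₀
    obtain ⟨hc₀, hX₀⟩ := mem_filter.1 hb₀
    obtain ⟨hm₀, hon₀⟩ := mem_crossPts.1 hc₀
    cases b with
    | tag s => exact absurd (Or.inr ⟨j, hon₀⟩) (inBlk_tag hin₀).1.1.1
    | spec i μ x =>
        exact absurd ⟨j, hon₀⟩ (isOm_off h.toDesign (inBlk_spec hq h.toDesign hm₀ hin₀).1).2.1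
    | line l π =>
        by_cases e : l = crossSide j
        · subst e
          refine le_trans (card_le_card ?_)
            (h.cross_piece j (D.lab (crossA j) p₀).1 (D.lab (crossC j) p₀).1)
          intro p hp
          obtain ⟨hb', hin⟩ := mem_filter.1 hp
          have hc' := (mem_filter.1 hb').1
          obtain ⟨k1, k2⟩ := inBlk_line hin
          obtain ⟨-, k2'⟩ := inBlk_line hin₀
          rw [block_crossSide hq k1] at k2
          rw [block_crossSide hq hon₀] at k2'
          injection k2.trans k2'.symm with _ e3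
          injection e3 with e4 e5
          have kk1 : ∀ r ∈ D.crossPts j, (D.lab (crossA j) r).1 = (D.lab 0 r).1 ∧
              (D.lab (crossC j) r).1 = (D.lab 2 r).1 := by
            intro r hr
            obtain ⟨-, a1⟩ := crossPts_lab hq h.toDesign hr (Or.inl rfl)
            obtain ⟨-, a2⟩ := crossPts_lab hq h.toDesign hr (Or.inr rfl)
            have hk : (crossA j = 0 ∨ partner (crossA j) = 0) ∧
                (crossC j = 2 ∨ partner (crossC j) = 2) := by
              clear * - j
              revert j; decide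
            refine ⟨?_, ?_⟩
            · rcases hk.1 with e | e
              · rw [e]
              · rw [← a1, e]
            · rcases hk.2 with e | e
              · rw [e]
              · rw [← a2, e]
          obtain ⟨f1, f2⟩ := kk1 p hc'
          obtain ⟨f3, f4⟩ := kk1 p₀ hc₀
          exact mem_filter.2 ⟨hc', by rw [f1, f3, e4], by rw [f2, f4, e5]⟩
        · refine le_trans (card_le_one.2 fun p hp p' hp' => ?_) (by have := hs.κ_big; omega)
          obtain ⟨hb', hin⟩ := mem_filter.1 hp
          obtain ⟨hb'', hin'⟩ := mem_filter.1 hp'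
          exact pt_eq_of_two e (inBlk_line hin').1 (inBlk_line hin).1
            (mem_crossPts.1 (mem_filter.1 hb'').1).2 (mem_crossPts.1 (mem_filter.1 hb').1).2
    | cell γ d c₁ c₂ =>
        by_cases e : γ = cGrp a
        · subst e
          refine le_trans (card_le_card ?_) (crossPts_label_card hq h ha (D.lab a p₀))
          intro p hp
          obtain ⟨hb', hin⟩ := mem_filter.1 hp
          obtain ⟨hc', hX⟩ := mem_filter.1 hb'
          refine mem_filter.2 ⟨hc', Prod.ext (hX.trans hX₀.symm) ?_⟩
          have := (inBlk_cell_slot hin rfl).trans (inBlk_cell_slot hin₀ (a := a) rfl).symm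
          simp only [coset] at this
          rw [hX, hX₀] at this
          linear_combination this
        · have hγ : γ = cGrp c := by
            revert e hg; generalize cGrp a = x; generalize cGrp c = y
            fin_cases x <;> fin_cases y <;> fin_cases γ <;> decide
          subst hγ
          refine le_trans (card_le_card ?_)
            (h.cross_band_line j a c (v a).1 d (if c = fstC (cGrp c) then c₁ else c₂) hac)
          intro p hp
          obtain ⟨hb', hin⟩ := mem_filter.1 hp
          obtain ⟨hc', hX⟩ := mem_filter.1 hb'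
          exact mem_filter.2 ⟨hc', hX, inBlk_cell_slot hin rfl⟩
  have hsub : band ⊆ (Ex ∪ E1) ∪ (R \ A).biUnion fun b => band.filter fun p => D.InBlk p b := by
    intro p hp
    by_cases h1 : p ∈ Ex ∪ E1
    · exact mem_union_left _ h1
    simp only [mem_union, not_or] at h1
    obtain ⟨b, hb, hin⟩ := hcov p (mem_filter.1 hp).1 h1.1
    exact mem_union_right _ (mem_biUnion.2 ⟨b, mem_sdiff.2 ⟨hb, fun hbA =>
      hmiss p hp h1.1 h1.2 b hbA hin⟩, mem_filter.2 ⟨hp, hin⟩⟩)
  have h1 : E1.card ≤ κ := crossPts_label_card hq h ha (v a)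
  have h2 := le_trans (card_biUnion_le (s := R \ A) (t := fun b => band.filter fun p => D.InBlk p b))
    (le_trans (sum_le_sum (g := fun _ => κ) fun b _ => hone b)
      (le_of_eq (by simp : ∑ _b ∈ R \ A, κ = (R \ A).card * κ)))
  have h3 : g ≤ band.card := by convert h.cross_band j a (v a).1 ha using 2
  have h4 : (R \ A).card * κ ≤ (12 * kk + 30) * κ := by
    refine Nat.mul_le_mul_right _ ?_
    rw [card_sdiff_of_subset hAR]; omega
  have h5 := card_le_card hsub
  have h6 := card_union_le (Ex ∪ E1) ((R \ A).biUnion fun b => band.filter fun p => D.InBlk p b)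
  have h7 := card_union_le Ex E1
  have hg' := hs.g_big
  nlinarith [Nat.zero_le (kk * κ)]

/-- On a cross side both groups omit few stars. -/
theorem cross_small {T κ g Dl err kk : ℕ} (hq : 1000 ≤ q) (h : Good D T κ g Dl err)
    (hs : Sizes q (Fintype.card K) T κ g Dl err kk) {v : Fin 4 → K × K} {j : Fin 2 × Fin 2}
    {la lc : Line q} (hla : Seen D v (partner (crossA j)) la)
    (hlc : Seen D v (partner (crossC j)) lc)
    (hva : v (partner (crossA j)) = v (crossA j)) (hvc : v (partner (crossC j)) = v (crossC j))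
    {R : Finset (Blk q K (modM K))} (hR : R.card ≤ 2 * Fintype.card K + 10) {Ex : Finset (Pt q)}
    (hEx : Ex.card ≤ 1)
    (hma : ∀ p, OnLine p la → OnLine p (crossSide j) → p ∈ Ex)
    (hmc : ∀ p, OnLine p lc → OnLine p (crossSide j) → p ∈ Ex)
    (hcova : ∀ p ∈ D.linePts la, p ∉ Ex → ∃ b ∈ R, D.InBlk p b)
    (hcovc : ∀ p ∈ D.linePts lc, p ∉ Ex → ∃ b ∈ R, D.InBlk p b)
    (hcov : ∀ p ∈ D.crossPts j, p ∉ Ex → ∃ b ∈ R, D.InBlk p b) :
    (omitted R v 0).card ≤ 8 * kk ∧ (omitted R v 1).card ≤ 8 * kk := by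
  classical
  obtain ⟨g1, g2, g3, g4, -, -⟩ := cross_groups j
  have rA := single_regime hq h hs hla (R := R) (by omega) hEx hcova
  have rC := single_regime hq h hs hlc (R := R) (by omega) hEx hcovc
  rw [g3] at rA
  rw [g4] at rC
  have s0 := stars_card R v 0
  have s1 := stars_card R v 1
  set bA := D.bigs R v (partner (crossA j)) la
  set bC := D.bigs R v (partner (crossC j)) lc
  have hne : partner (crossA j) ≠ partner (crossC j) := fun e => by
    rw [e, g4] at g3; exact absurd g3 (by decide)
  have hsum : (stars R v 0).card + bA.card + ((stars R v 1).card + bC.card) ≤ R.card := by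
    rw [← card_union_of_disjoint (disjoint_stars_bigs R v 0 _ la),
      ← card_union_of_disjoint (disjoint_stars_bigs R v 1 _ lc),
      ← card_union_of_disjoint]
    · refine card_le_card ?_
      simp only [bA, bC, stars, bigs, union_subset_iff, filter_subset, and_self]
    · simp only [disjoint_union_left, disjoint_union_right]
      exact ⟨⟨disjoint_stars_stars R v, (disjoint_stars_bigs R v 1 _ la).symm⟩,
        disjoint_stars_bigs R v 0 _ lc, disjoint_bigs_bigs R hla hlc hne⟩
  have hml := m_large hs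
  refine ⟨?_, ?_⟩
  · by_contra hA'
    refine band_false hq h hs (a := crossC j) (c := crossA j) (Or.inr ⟨rfl, rfl⟩)
      hlc hla hvc hva hEx hmc hma hcov ?_
    rw [g2]
    show R.card ≤ _ + bC.card + bA.card + _
    omega
  · by_contra hC'
    refine band_false hq h hs (a := crossA j) (c := crossC j) (Or.inl ⟨rfl, rfl⟩)
      hla hlc hva hvc hEx hma hmc hcov ?_
    rw [g1]
    show R.card ≤ _ + bA.card + bC.card + _
    omega

lemma few_outside_stars {R : Finset (Blk q K (modM K))} (v : Fin 4 → K × K) {kk : ℕ}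
    (h0 : (omitted R v 0).card ≤ 8 * kk) (h1 : (omitted R v 1).card ≤ 8 * kk)
    (hR : R.card ≤ 2 * Fintype.card K + 10) :
    (R \ (stars R v 0 ∪ stars R v 1)).card ≤ 16 * kk + 10 ∧
      ∀ b ∈ R, IsForced v b ∨ b ∈ R \ (stars R v 0 ∪ stars R v 1) := by
  classical
  refine ⟨?_, fun b hb => ?_⟩
  · have hs0 : stars R v 0 ⊆ R := filter_subset _ _
    have hs1 : stars R v 1 ⊆ R := filter_subset _ _
    rw [card_sdiff_of_subset (union_subset hs0 hs1),
      card_union_of_disjoint (disjoint_stars_stars R v)]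
    have := stars_card R v 0
    have := stars_card R v 1
    omega
  · by_cases hb' : b ∈ stars R v 0 ∪ stars R v 1
    · left; left
      rcases mem_union.1 hb' with hb' | hb' <;> obtain ⟨-, d, hd⟩ := mem_filter.1 hb' <;>
        exact ⟨_, d, hd⟩
    · exact Or.inr (mem_sdiff.2 ⟨hb, hb'⟩)

/-- An affine point of exactly one cross side. -/
theorem case_cross {T κ g Dl err kk : ℕ} (hq : 1000 ≤ q) (h : Good D T κ g Dl err)
    (hs : Sizes q (Fintype.card K) T κ g Dl err kk) {P : Pt q} (hPc : ¬ IsCen P)
    {j : Fin 2 × Fin 2} (hj : OnLine P (crossSide j))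
    (hu : ∀ j', OnLine P (crossSide j') → j' = j)
    {R : Finset (Blk q K (modM K))} (hR : D.Remainder (linesThru P) {P} R) : False := by
  classical
  obtain ⟨g1, g2, g3, g4, g5, g6⟩ := cross_groups j
  set ln := fun a => lineThru P (slopeTo (cen a) P) with hln
  set v := fun a => D.lab a P with hv
  have hne : ∀ a, P ≠ cen a := fun a e => hPc ⟨a, e.symm⟩
  have hcen : ∀ a, OnLine (cen a) (ln a) := fun a => by
    have h1 := onLine_slopeTo (cen a) P
    have h2 := lineThru_eq h1
    rw [lineThru_fst] at h2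
    simp only [hln, h2]
    exact onLine_lineThru _ _
  have hside : ∀ a, a = crossA j ∨ a = crossC j → ln a = crossSide j := fun a ha =>
    line_eq_of_two (hne a) (hcen a) (onLine_lineThru P _) ((cen_on_crossSide hq a j).2 ha) hj
  have hnot : ∀ b, b = crossA j ∨ b = crossC j →
      Seen D v (partner b) (ln (partner b)) ∧ v (partner b) = v b ∧
        ∀ p, OnLine p (ln (partner b)) → OnLine p (crossSide j) → p ∈ ({P} : Finset (Pt q)) := by
    intro b hb
    have hb' := (cen_on_crossSide hq b j).2 hb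
    have hnb : ln (partner b) ≠ crossSide j := fun e =>
      partner_mem_crossSide hq hb' (e ▸ hcen _)
    obtain ⟨k1, k2⟩ := lab_cross_pair (D := D) hq hj hu hb'
    refine ⟨⟨⟨hcen _, fun a' hne' ha' => ?_⟩, ?_⟩, k2.trans k1.symm, fun p h1 h2 =>
      mem_singleton.2 (pt_eq_of_two hnb (onLine_lineThru P _) h1 hj h2)⟩
    · rcases two_cen hq hne' ha' (hcen _) with ⟨i, e⟩ | ⟨j', e⟩
      · exact sameSide_cross hq hPc (e ▸ onLine_lineThru P _ : OnLine P (sameSide i)) ⟨j, hj⟩
      · exact hnb (hu j' (e ▸ onLine_lineThru P _) ▸ e)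
    · simp only [hln, lineThru_fst]
      exact k2
  obtain ⟨hsA, hvA, hmA⟩ := hnot (crossA j) (Or.inl rfl)
  obtain ⟨hsC, hvC, hmC⟩ := hnot (crossC j) (Or.inr rfl)
  set la := ln (partner (crossA j)) with hla
  set lc := ln (partner (crossC j)) with hlc
  obtain ⟨hcard, hcov⟩ := hR
  have hmem : ∀ a, ln a ∈ linesThru P := fun a => mem_linesThru.2 (onLine_lineThru P _)
  set J := univ.filter fun i => wLine i ∈ linesThru P with hJ
  have hJ6 : J.card ≤ 6 := le_trans (card_le_univ J) (by simp)
  have hdes := desig_card_le hq (Λ := linesThru P) ln fun l hl a hon => by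
    simp only [hln]
    rw [slopeTo_eq (hne a) hon (mem_linesThru.1 hl), lineThru_eq (mem_linesThru.1 hl)]
  have himg : (univ.image ln).card ≤ 3 := by
    refine le_trans (card_le_card (t := {crossSide j, la, lc}) ?_)
      (le_trans (card_insert_le _ _) (Nat.succ_le_succ (le_trans (card_insert_le _ _) (by simp))))
    intro l hl
    obtain ⟨a, -, rfl⟩ := mem_image.1 hl
    have := cross_all j a
    rcases this with rfl | rfl | rfl | rfl
    · simp [hside _ (Or.inl rfl)]
    · simp [hside _ (Or.inr rfl)]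
    · simp [hla]
    · simp [hlc]
  rw [card_linesThru] at hcard
  have hR2 : R.card ≤ 2 * Fintype.card K + 2 + J.card := by
    simp only [hJ] at *; omega
  have hcova : ∀ p ∈ D.linePts la, p ∉ ({P} : Finset (Pt q)) → ∃ b ∈ R, D.InBlk p b :=
    fun p hp hpE => hcov p (mem_linePts.1 hp).1 hpE
      ⟨la, mem_desig_of_cen (hmem _) (hcen _), (mem_linePts.1 hp).2.1⟩
  have hcovc : ∀ p ∈ D.linePts lc, p ∉ ({P} : Finset (Pt q)) → ∃ b ∈ R, D.InBlk p b :=
    fun p hp hpE => hcov p (mem_linePts.1 hp).1 hpE
      ⟨lc, mem_desig_of_cen (hmem _) (hcen _), (mem_linePts.1 hp).2.1⟩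
  have hcovj : ∀ p ∈ D.crossPts j, p ∉ ({P} : Finset (Pt q)) → ∃ b ∈ R, D.InBlk p b :=
    fun p hp hpE => hcov p (mem_crossPts.1 hp).1 hpE
      ⟨crossSide j, mem_desig_of_cen (mem_linesThru.2 hj)
        ((cen_on_crossSide hq _ j).2 (Or.inl rfl)), (mem_crossPts.1 hp).2⟩
  obtain ⟨h0, h1⟩ := cross_small hq h hs hsA hsC hvA hvC (R := R) (by omega) (Ex := {P})
    (by simp) hmA hmC hcova hcovc hcovj
  obtain ⟨hfc, hfew⟩ := few_outside_stars v h0 h1 (by omega : R.card ≤ 2 * Fintype.card K + 10)
  set S₁ := R \ (stars R v 0 ∪ stars R v 1)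
  have nk : ∀ b, b = crossA j ∨ b = crossC j → ∀ d,
      ¬ D.Killed (partner b) (ln (partner b)).1 (some d, coset d (v (partner (partner b)))) := by
    intro b hb d
    obtain ⟨⟨-, hvv⟩, hvb, -⟩ := hnot b hb
    have hpp : partner (partner b) = b := by fin_cases b <;> rfl
    rw [hpp, ← hvb, hvv]
    rintro (⟨e, hns, hk⟩ | ⟨e, s', hs', hZ, hk⟩) <;> rw [e] at * <;>
      simp only [Prod.mk.injEq, Option.some.injEq] at hk <;> obtain ⟨rfl, hk⟩ := hk
    · exact h.dir_ok _ hns hk.symm
    · exact h.dir_ok s' hs' ((h.Z_coset s' hs' _ hZ).1.symm.trans hk)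
  obtain ⟨pA, fA⟩ := seen_forced hq h hs hsA (R := R) (Ex := {P}) (by simp)
    (show 16 * kk + 10 ≤ 60 * kk + 500 by omega) ⟨S₁, hfc, hfew⟩ hcova
  obtain ⟨pC, fC⟩ := seen_forced hq h hs hsC (R := R) (Ex := {P}) (by simp)
    (show 16 * kk + 10 ≤ 60 * kk + 500 by omega) ⟨S₁, hfc, hfew⟩ hcovc
  rw [g3] at fA
  rw [g4] at fC
  have all0 : ∀ d, star v 0 d ∈ R := fun d => fA d (nk _ (Or.inl rfl) d)
  have all1 : ∀ d, star v 1 d ∈ R := fun d => fC d (nk _ (Or.inr rfl) d)
  set F := (stars R v 0 ∪ stars R v 1) ∪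
    {Blk.line la (.one (v (partner (partner (crossA j)))).1),
     Blk.line lc (.one (v (partner (partner (crossC j)))).1)} with hF
  have hFR : F ⊆ R := by
    refine union_subset (union_subset (filter_subset _ _) (filter_subset _ _)) ?_
    intro b hb
    rcases mem_insert.1 hb with rfl | hb
    · exact pA
    · rw [mem_singleton.1 hb]; exact pC
  have hFc : F.card = 2 * Fintype.card K + 2 := by
    have e0 : (omitted R v 0).card = 0 :=
      card_eq_zero.2 (filter_eq_empty_iff.2 fun d _ hd => hd (all0 d))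
    have e1 : (omitted R v 1).card = 0 :=
      card_eq_zero.2 (filter_eq_empty_iff.2 fun d _ hd => hd (all1 d))
    have s0 := stars_card R v 0
    have s1 := stars_card R v 1
    rw [hF, card_union_of_disjoint, card_union_of_disjoint (disjoint_stars_stars R v), card_pair]
    · omega
    · intro e
      injection e with e'
      exact role_ne hsA.1 hsC.1 (fun ee => by rw [ee, g4] at g3; exact absurd g3 (by decide)) e'
    · refine disjoint_left.2 fun b hb hb' => ?_
      rcases mem_union.1 hb with hb | hb <;> obtain ⟨-, d, rfl⟩ := mem_filter.1 hb <;>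
        simp [star] at hb'
  set S := R \ F with hS
  have hSc : S.card + F.card = R.card := card_sdiff_add_card_eq_card hFR
  obtain ⟨y, hy, hyP, xA, yA, xC, yC⟩ := h.mate j P hj hPc hu
  obtain ⟨hym, hyj⟩ := mem_crossPts.1 hy
  obtain ⟨b, hb, hin⟩ := hcovj y hy (by simpa using hyP)
  have hbS : b ∈ S := by
    refine mem_sdiff.2 ⟨hb, fun hbF => ?_⟩
    rcases mem_union.1 hbF with hbF | hbF
    · rcases mem_union.1 hbF with hbF | hbF <;> obtain ⟨-, d, rfl⟩ := mem_filter.1 hbF
      · have key : coset d (D.lab (crossA j) y) = coset d (v (crossA j)) := inBlk_star_slot hin g1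
        simp only [coset, hv, xA] at key
        exact yA (by linear_combination key)
      · have key : coset d (D.lab (crossC j) y) = coset d (v (crossC j)) := inBlk_star_slot hin g2
        simp only [coset, hv, xC] at key
        exact yC (by linear_combination key)
    · rcases mem_insert.1 hbF with rfl | hbF
      · exact hyP (mem_singleton.1 (hmA y (inBlk_line hin).1 hyj))
      · rw [mem_singleton.1 hbF] at hin
        exact hyP (mem_singleton.1 (hmC y (inBlk_line hin).1 hyj))
  have hW : ∀ i ∈ J, ∃ x, (Blk.line (wLine i) (.one x) : Blk q K (modM K)) ∈ S := by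
    intro i hi
    have hiP := (mem_filter.1 hi).2
    refine wp_piece hq (by have := m_large hs; omega) h.toDesign v i (Ex := {P}) (by simp)
      (by omega) (fun k x hE => hcov _ (wp_mem_pts i k x) hE
        ⟨wLine i, mem_desig_wLine hiP, (h.wp_line i k x).1⟩) fun b' hb' k x hE hin' => ?_
    by_cases hbF : b' ∈ F
    · rcases mem_union.1 hbF with hbF | hbF
      · rcases mem_union.1 hbF with hbF | hbF <;> obtain ⟨-, d, hd⟩ := mem_filter.1 hbF <;>
          exact Or.inl ⟨_, d, hd⟩
      · exfalso
        have hl : ∀ a, OnLine (D.wp i k x) (ln a) → False := fun a hon =>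
          hE (mem_singleton.2 (pt_eq_of_two
            (fun e => cen_not_on_wLine hq a i (by rw [e]; exact hcen a))
            (mem_linesThru.1 hiP) (h.wp_line i k x).1 (onLine_lineThru P _) hon))
        rcases mem_insert.1 hbF with rfl | hbF
        · exact hl _ (inBlk_line hin').1
        · rw [mem_singleton.1 hbF] at hin'
          exact hl _ (inBlk_line hin').1
    · exact Or.inr (mem_sdiff.2 ⟨hb', hbF⟩)
  choose x hx using hW
  set img := J.attach.image fun i => (Blk.line (wLine i.1) (.one (x i.1 i.2)) : Blk q K (modM K))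
    with himgd
  have hc : img.card = J.card := by
    rw [himgd, card_image_of_injective, card_attach]
    intro i i' e
    injection e with e1
    exact Subtype.ext (wLine_injective hq e1)
  have hsub : img ⊆ S := fun b' hb' => by
    obtain ⟨i, -, rfl⟩ := mem_image.1 hb'; exact hx i.1 i.2
  have hbn : b ∉ img := fun hbi => by
    obtain ⟨i, -, rfl⟩ := mem_image.1 hbi
    exact (isW_onW h.toDesign (isW_of_onW h.toDesign hym ⟨i.1, (inBlk_line hin).1⟩)).2
      (Or.inr ⟨j, hyj⟩)
  have := card_le_card (insert_subset hbS hsub)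
  rw [card_insert_of_notMem hbn] at this
  omega

/-- The point at infinity of a cross side. -/
theorem case_dir_cross {T κ g Dl err kk : ℕ} (hq : 1000 ≤ q) (h : Good D T κ g Dl err)
    (hs : Sizes q (Fintype.card K) T κ g Dl err kk) (j : Fin 2 × Fin 2)
    {R : Finset (Blk q K (modM K))} (hR : D.Remainder (linesDir (crossSide j).1) ∅ R) : False := by
  classical
  obtain ⟨g1, g2, g3, g4, g5, g6⟩ := cross_groups j
  set σ := (crossSide (q := q) j).1 with hσ
  set v := fun a => D.L (if a = crossA j ∨ a = crossC j then partner a else a) σ with hv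
  set ln := fun a => lineThru (cen a) σ with hln
  have hside : ∀ a, a = crossA j ∨ a = crossC j → ln a = crossSide j := fun a ha =>
    lineThru_eq ((cen_on_crossSide hq a j).2 ha)
  have hno := cross_not_partner j
  have hnot : ∀ b, b = crossA j ∨ b = crossC j →
      Seen D v (partner b) (ln (partner b)) ∧ v (partner b) = v b ∧
        ∀ p, OnLine p (ln (partner b)) → OnLine p (crossSide j) → p ∈ (∅ : Finset (Pt q)) := by
    intro b hb
    have hb' := (cen_on_crossSide hq b j).2 hb
    have hnb : ln (partner b) ≠ crossSide j := fun e =>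
      partner_mem_crossSide hq hb' (e ▸ onLine_lineThru _ _)
    refine ⟨⟨⟨onLine_lineThru _ _, fun a' hne' ha' => ?_⟩, ?_⟩, ?_, fun p h1 h2 =>
      absurd h2 (not_onLine_of_parallel hnb (by simp only [hln, lineThru_fst, hσ]) h1)⟩
    · rcases two_cen hq hne' ha' (onLine_lineThru _ _) with ⟨i, e⟩ | ⟨j', e⟩
      · exact slope_sameSide_ne_crossSide hq i j (by rw [← e, lineThru_fst])
      · have : j' = j := slope_crossSide_injective hq (show (crossSide (q := q) j').1 = _ by rw [← e]; simp only [hln, lineThru_fst, hσ])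
        exact hnb (this ▸ e)
    · simp only [hv, hln, lineThru_fst, if_neg (hno b hb)]
    · simp only [hv, if_neg (hno b hb), if_pos hb]
  obtain ⟨hsA, hvA, hmA⟩ := hnot (crossA j) (Or.inl rfl)
  obtain ⟨hsC, hvC, hmC⟩ := hnot (crossC j) (Or.inr rfl)
  obtain ⟨hcard, hcov⟩ := hR
  have hmem : ∀ a, ln a ∈ linesDir σ := fun a => mem_filter.2 ⟨mem_univ _, lineThru_fst _ _⟩
  have hdes := desig_card_le hq (Λ := linesDir σ) ln fun l hl a hon => by
    simp only [hln]
    rw [← (mem_filter.1 hl).2, lineThru_eq hon]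
  have himg : (univ.image ln).card ≤ 3 := by
    refine le_trans (card_le_card
      (t := {crossSide j, ln (partner (crossA j)), ln (partner (crossC j))}) ?_)
      (le_trans (card_insert_le _ _) (Nat.succ_le_succ (le_trans (card_insert_le _ _) (by simp))))
    intro l hl
    obtain ⟨a, -, rfl⟩ := mem_image.1 hl
    have := cross_all j a
    rcases this with rfl | rfl | rfl | rfl
    · simp [hside _ (Or.inl rfl)]
    · simp [hside _ (Or.inr rfl)]
    · simp
    · simp
  have hJ : (univ.filter fun i => wLine i ∈ linesDir σ).card ≤ 1 :=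
    card_le_one.2 fun i hi i' hi' => slope_wLine_injective hq
      ((mem_filter.1 (mem_filter.1 hi).2).2.trans (mem_filter.1 (mem_filter.1 hi').2).2.symm)
  rw [card_linesDir] at hcard
  have hR2 : R.card ≤ 2 * Fintype.card K + 10 := by omega
  obtain ⟨h0, h1⟩ := cross_small hq h hs hsA hsC hvA hvC (R := R) hR2 (Ex := ∅)
    (by simp) hmA hmC
    (fun p hp hpE => hcov p (mem_linePts.1 hp).1 hpE
      ⟨_, mem_desig_of_cen (hmem _) (onLine_lineThru _ _), (mem_linePts.1 hp).2.1⟩)
    (fun p hp hpE => hcov p (mem_linePts.1 hp).1 hpE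
      ⟨_, mem_desig_of_cen (hmem _) (onLine_lineThru _ _), (mem_linePts.1 hp).2.1⟩)
    (fun p hp hpE => hcov p (mem_crossPts.1 hp).1 hpE
      ⟨crossSide j, mem_desig_of_cen (mem_filter.2 ⟨mem_univ _, rfl⟩)
        ((cen_on_crossSide hq _ j).2 (Or.inl rfl)), (mem_crossPts.1 hp).2⟩)
  obtain ⟨hfc, -⟩ := few_outside_stars v h0 h1 hR2
  obtain ⟨i, hi⟩ := (isSideSlope_iff_wLine hq σ).1 (Or.inr ⟨j, rfl⟩)
  have hcnt := wp_count hq h.toDesign i (R := R) (F := stars R v 0 ∪ stars R v 1) (Ex := ∅)
    (fun k x => notMem_empty _)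
    (fun k x hE => hcov _ (wp_mem_pts i k x) hE
      ⟨wLine i, mem_desig_wLine (mem_filter.2 ⟨mem_univ _, hi⟩), (h.wp_line i k x).1⟩)
    (fun b hb k x => by
      rcases mem_union.1 hb with hb | hb <;> obtain ⟨-, d, rfl⟩ := mem_filter.1 hb
      · refine wp_not_star h.toDesign ?_ d i k x
        obtain ⟨k1, k2⟩ | ⟨k1, k2⟩ := cGrp_spec (crossA j) <;> rw [g1] at k1 k2 <;>
          rw [← k1, ← k2] <;> first | exact hvA.symm | exact hvA
      · refine wp_not_star h.toDesign ?_ d i k x
        obtain ⟨k1, k2⟩ | ⟨k1, k2⟩ := cGrp_spec (crossC j) <;> rw [g2] at k1 k2 <;>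
          rw [← k1, ← k2] <;> first | exact hvC.symm | exact hvC)
  have := m_large hs
  omega

end Data

end Vale.Agent.P045
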