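import Mathlib
import Vale.Agent.P045.CoverCross

/-!
# P045: points of one side joining centres of the same group
-/

set_option linter.unusedSectionVars false

namespace Vale.Agent.P045

open Finset

variable {q : ℕ} [Fact q.Prime] {K : Type*} [Field K] [Fintype K] [DecidableEq K]

lemma same_centres (i : Fin 2) (a : Fin 4) :
    a = fstC i ∨ a = sndC i ∨ a = fstC (1 - i) ∨ a = sndC (1 - i) := by
  revert a i; decide

lemma same_other (i : Fin 2) :
    partner (fstC (1 - i)) = sndC (1 - i) ∧ partner (sndC (1 - i)) = fstC (1 - i) ∧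
      cGrp (fstC (1 - i)) = 1 - i ∧ cGrp (sndC (1 - i)) = 1 - i ∧
      fstC (1 - i) ≠ sndC (1 - i) := by
  revert i; decide

namespace Data

variable {D : Data q K}

open Classical in
/-- The groups of special points not met by the stars. -/
noncomputable def openGroups (D : Data q K) (e : K) : Finset (Fin 21) :=
  univ.filter fun g => D.sh (.inl g) ≠ e

lemma openGroups_card (h : Design D) (e : K) : 20 ≤ (openGroups D e).card := by
  classical
  have h1 : (univ.filter fun g : Fin 21 => ¬ D.sh (.inl g) ≠ e).card ≤ 1 :=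
    card_le_one.2 fun g hg g' hg' => Sum.inl.inj (h.sh_inj
      ((not_not.1 (mem_filter.1 hg).2).trans (not_not.1 (mem_filter.1 hg').2).symm))
  have h2 := card_filter_add_card_filter_not (s := (univ : Finset (Fin 21)))
    (fun g => D.sh (.inl g) ≠ e)
  have h3 : (openGroups D e).card = (univ.filter fun g => D.sh (.inl g) ≠ e).card := by
    simp only [openGroups]
  simp only [card_univ, Fintype.card_fin] at h2
  omega

/-- The shift seen by a star of the other group is constant. -/
lemma openGroups_shift {i : Fin 2} {v : Fin 4 → K × K}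
    (hX : (v (fstC (1 - i))).1 = (v (sndC (1 - i))).1) :
    ∀ g ∈ openGroups D ((v (sndC (1 - i))).2 - (v (fstC (1 - i))).2), ∀ d,
      coset d (v (sndC (1 - i))) - coset d (v (fstC (1 - i))) ≠ D.sh (.inl g) := by
  classical
  intro g hg d e
  refine (mem_filter.1 hg).2 ?_
  rw [← e]
  simp only [coset, hX]
  ring

open Classical in
/-- The counts on a side seen along two lines of the other group: few stars are omitted. -/
theorem same_small {T κ g Dl err kk : ℕ} (hq : 1000 ≤ q) (h : Good D T κ g Dl err)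
    (hs : Sizes q (Fintype.card K) T κ g Dl err kk) {i : Fin 2} {v : Fin 4 → K × K}
    {la lc : Line q} (hla : Seen D v (fstC (1 - i)) la) (hlc : Seen D v (sndC (1 - i)) lc)
    (hX : (v (fstC (1 - i))).1 = (v (sndC (1 - i))).1)
    {R : Finset (Blk q K (modM K))} (hR : R.card ≤ 2 * Fintype.card K + 8)
    {Ex : Finset (Pt q)} (hEx : Ex.card ≤ 1)
    (hExom : ∀ g ∈ openGroups D ((v (sndC (1 - i))).2 - (v (fstC (1 - i))).2), ∀ z,
      D.om i g z ∉ Ex)
    (hcova : ∀ p ∈ D.linePts la, p ∉ Ex → ∃ b ∈ R, D.InBlk p b)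
    (hcovc : ∀ p ∈ D.linePts lc, p ∉ Ex → ∃ b ∈ R, D.InBlk p b)
    (hcovi : ∀ g z, D.om i g z ∉ Ex → ∃ b ∈ R, D.InBlk (D.om i g z) b) :
    (omitted R v (1 - i)).card ≤ 8 * kk ∧
      (R \ (stars R v (1 - i) ∪ R.filter fun b => ∃ μ a, b = .spec i μ a)).card ≤ 10 * kk + 20 := by
  classical
  obtain ⟨e1, e2, e3, e4, hne⟩ := same_other i
  set G := openGroups D ((v (sndC (1 - i))).2 - (v (fstC (1 - i))).2) with hG
  have hG20 := openGroups_card h.toDesign ((v (sndC (1 - i))).2 - (v (fstC (1 - i))).2)
  have hml := m_large hs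
  have hcount := om_count hq (by omega) h.toDesign i v G (openGroups_shift hX) (R := R)
    (Ex := Ex) hExom (fun g _ z hz => hcovi g z hz)
  set Sp := R.filter fun b => ∃ μ a, b = .spec i μ a with hSp
  set Ot := R.filter fun b => ¬ (∃ μ a, b = .spec i μ a) ∧ ¬ ∃ γ d, star v γ d = b with hOt
  set st := stars R v (1 - i) with hst
  have hdSp : Disjoint st Sp := disjoint_left.2 fun b hb hb' => by
    obtain ⟨-, d, rfl⟩ := mem_filter.1 hb
    obtain ⟨-, μ, a, e⟩ := mem_filter.1 hb'
    simp [star] at e
  have hpr := pair_regime hq h hs (a := fstC (1 - i)) (l := la) (l' := lc) hla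
    (by rw [e1]; exact hlc) (R := R) (by omega) hEx hcova hcovc
  rw [e3] at hpr
  rw [e1] at hpr
  set bA := D.bigs R v (fstC (1 - i)) la
  set bC := D.bigs R v (sndC (1 - i)) lc
  have hS := stars_card R v (1 - i)
  have hOtsub : Ot.card + (st.card + Sp.card) ≤ R.card := by
    rw [← card_union_of_disjoint hdSp, ← card_union_of_disjoint]
    · exact card_le_card (union_subset (filter_subset _ _)
        (union_subset (filter_subset _ _) (filter_subset _ _)))
    · refine disjoint_left.2 fun b hb hb' => ?_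
      obtain ⟨-, n1, n2⟩ := mem_filter.1 hb
      rcases mem_union.1 hb' with hb' | hb'
      · obtain ⟨-, d, hd⟩ := mem_filter.1 hb'; exact n2 ⟨_, d, hd⟩
      · exact n1 (mem_filter.1 hb').2
  have hsum : Sp.card + (st.card + bA.card + bC.card) ≤ R.card := by
    rw [← card_union_of_disjoint (disjoint_stars_bigs R v (1 - i) _ la),
      ← card_union_of_disjoint, ← card_union_of_disjoint]
    · refine card_le_card ?_
      simp only [Sp, bA, bC, stars, bigs, union_subset_iff, filter_subset, and_self]
    · refine disjoint_left.2 fun b hb hb' => ?_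
      obtain ⟨-, μ, a, rfl⟩ := mem_filter.1 hb
      rcases mem_union.1 hb' with hb' | hb'
      · rcases mem_union.1 hb' with hb' | hb'
        · obtain ⟨-, d, e⟩ := mem_filter.1 hb'; simp [star] at e
        · obtain ⟨-, hsome, -⟩ := mem_filter.1 hb'; simp [traceOn] at hsome
      · obtain ⟨-, hsome, -⟩ := mem_filter.1 hb'; simp [traceOn] at hsome
    · simp only [disjoint_union_left]
      exact ⟨disjoint_stars_bigs R v _ _ lc, disjoint_bigs_bigs R hla hlc hne⟩
  have hGm : 20 * (Fintype.card K + 1) ≤ 20 * Sp.card + 3 * Ot.card := by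
    by_contra hlt
    push Not at hlt
    have hk : Sp.card ≤ Fintype.card K := by omega
    have h1 : G.card * (Fintype.card K + 1) ≤ G.card * Sp.card + 3 * Ot.card := hcount
    have e : G.card * (Fintype.card K + 1) =
        G.card * (Fintype.card K - Sp.card + 1) + G.card * Sp.card := by
      rw [← Nat.mul_add]; congr 1; omega
    have e' : 20 * (Fintype.card K - Sp.card + 1) ≤ G.card * (Fintype.card K - Sp.card + 1) :=
      Nat.mul_le_mul_right _ hG20
    omega
  have hS' : st.card = (stars R v (1 - i)).card := rfl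
  have hsmall : (omitted R v (1 - i)).card ≤ 8 * kk := by omega
  refine ⟨hsmall, ?_⟩
  have hs0 : st ⊆ R := filter_subset _ _
  have hs1 : Sp ⊆ R := filter_subset _ _
  rw [card_sdiff_of_subset (union_subset hs0 hs1), card_union_of_disjoint hdSp]
  omega

/-- An affine point of exactly one side of this kind. -/
theorem case_same {T κ g Dl err kk : ℕ} (hq : 1000 ≤ q) (h : Good D T κ g Dl err)
    (hs : Sizes q (Fintype.card K) T κ g Dl err kk) {P : Pt q} (hPc : ¬ IsCen P)
    {i : Fin 2} (hi : OnLine P (sameSide i)) (hu : ¬ OnLine P (sameSide (1 - i)))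
    {R : Finset (Blk q K (modM K))} (hR : D.Remainder (linesThru P) {P} R) : False := by
  classical
  obtain ⟨e1, e2, e3, e4, hne⟩ := same_other i
  set m := Fintype.card K with hm
  have hml := m_large hs
  set ln := fun a => lineThru P (slopeTo (cen a) P) with hln
  set v := fun a => D.lab a P with hv
  have hnc : ¬ OnCross P := sameSide_cross hq hPc hi
  have hne' : ∀ a, P ≠ cen a := fun a e => hPc ⟨a, e.symm⟩
  have hcen : ∀ a, OnLine (cen a) (ln a) := fun a => by
    have h1 := onLine_slopeTo (cen a) P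
    have h2 := lineThru_eq h1
    rw [lineThru_fst] at h2
    simp only [hln, h2]
    exact onLine_lineThru _ _
  have hside : ∀ a, a = fstC i ∨ a = sndC i → ln a = sameSide i := fun a ha =>
    line_eq_of_two (hne' a) (hcen a) (onLine_lineThru P _) ((cen_on_sameSide hq a i).2 ha) hi
  have hno : ∀ a, a = fstC (1 - i) ∨ a = sndC (1 - i) → ¬ (a = fstC i ∨ a = sndC i) := by
    clear * - i
    revert i; decide
  have hnot : ∀ a, a = fstC (1 - i) ∨ a = sndC (1 - i) →
      Seen D v a (ln a) ∧ ∀ p, OnLine p (ln a) → OnLine p (sameSide i) →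
        p ∈ ({P} : Finset (Pt q)) := by
    intro a ha
    have hna : ln a ≠ sameSide i := fun e =>
      hno a ha ((cen_on_sameSide hq a i).1 (e ▸ hcen a))
    refine ⟨⟨⟨hcen a, fun a' hne'' ha' => ?_⟩, ?_⟩, fun p h1 h2 =>
      mem_singleton.2 (pt_eq_of_two hna (onLine_lineThru P _) h1 hi h2)⟩
    · rcases two_cen hq hne'' ha' (hcen a) with ⟨i', e⟩ | ⟨j, e⟩
      · by_cases ee : i' = i
        · exact hna (ee ▸ e)
        · exact hu (fin2_other ee ▸ e ▸ onLine_lineThru P _)
      · exact hnc ⟨j, e ▸ onLine_lineThru P _⟩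
    · simp only [hln, lineThru_fst, hv]
      exact lab_of_not_cross hnc a
  obtain ⟨hsa, hma⟩ := hnot (fstC (1 - i)) (Or.inl rfl)
  obtain ⟨hsc, hmc⟩ := hnot (sndC (1 - i)) (Or.inr rfl)
  set la := ln (fstC (1 - i)) with hla
  set lc := ln (sndC (1 - i)) with hlc
  have hX : (v (fstC (1 - i))).1 = (v (sndC (1 - i))).1 := h.side_X i P hi hPc
  obtain ⟨hcard, hcov⟩ := hR
  have hmem : ∀ a, ln a ∈ linesThru P := fun a => mem_linesThru.2 (onLine_lineThru P _)
  set J := univ.filter fun k => wLine k ∈ linesThru P with hJ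
  have hJ6 : J.card ≤ 6 := le_trans (card_le_univ J) (by simp)
  have hdes := desig_card_le hq (Λ := linesThru P) ln fun l hl a hon => by
    simp only [hln]
    rw [slopeTo_eq (hne' a) hon (mem_linesThru.1 hl), lineThru_eq (mem_linesThru.1 hl)]
  have himg : (univ.image ln).card ≤ 3 := by
    refine le_trans (card_le_card (t := {sameSide i, la, lc}) ?_)
      (le_trans (card_insert_le _ _) (Nat.succ_le_succ (le_trans (card_insert_le _ _) (by simp))))
    intro l hl
    obtain ⟨a, -, rfl⟩ := mem_image.1 hl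
    rcases same_centres i a with rfl | rfl | rfl | rfl
    · simp [hside _ (Or.inl rfl)]
    · simp [hside _ (Or.inr rfl)]
    · simp [hla]
    · simp [hlc]
  rw [card_linesThru] at hcard
  have hR2 : R.card ≤ 2 * m + 2 + J.card := by
    simp only [hJ] at *; omega
  set G := openGroups D ((v (sndC (1 - i))).2 - (v (fstC (1 - i))).2) with hG
  have hExom : ∀ g ∈ G, ∀ z, D.om i g z ∉ ({P} : Finset (Pt q)) := by
    intro g hg z e
    rw [mem_singleton] at e
    refine (mem_filter.1 hg).2 ?_
    show D.sh (.inl g) = (D.lab (sndC (1 - i)) P).2 - (D.lab (fstC (1 - i)) P).2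
    rw [← e, h.om_fst, h.om_snd]
    simp
  have hcovi : ∀ g z, D.om i g z ∉ ({P} : Finset (Pt q)) → ∃ b ∈ R, D.InBlk (D.om i g z) b :=
    fun g z hE => hcov _ (mem_pts.2 (Or.inr (Or.inl ⟨i, g, z, rfl⟩))) hE
      ⟨sameSide i, mem_desig_of_cen (mem_linesThru.2 hi)
        ((cen_on_sameSide hq _ i).2 (Or.inl rfl)), h.om_side i g z⟩
  have hcova : ∀ p ∈ D.linePts la, p ∉ ({P} : Finset (Pt q)) → ∃ b ∈ R, D.InBlk p b :=
    fun p hp hpE => hcov p (mem_linePts.1 hp).1 hpE
      ⟨la, mem_desig_of_cen (hmem _) (hcen _), (mem_linePts.1 hp).2.1⟩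
  have hcovc : ∀ p ∈ D.linePts lc, p ∉ ({P} : Finset (Pt q)) → ∃ b ∈ R, D.InBlk p b :=
    fun p hp hpE => hcov p (mem_linePts.1 hp).1 hpE
      ⟨lc, mem_desig_of_cen (hmem _) (hcen _), (mem_linePts.1 hp).2.1⟩
  obtain ⟨hsmall, hfew⟩ := same_small hq h hs hsa hsc hX (R := R) (by omega) (Ex := {P})
    (by simp) hExom hcova hcovc hcovi
  set Sp := R.filter fun b => ∃ μ a, b = .spec i μ a with hSp
  set E0 := R \ (stars R v (1 - i) ∪ Sp) with hE0
  have hfewE : ∃ S : Finset (Blk q K (modM K)), S.card ≤ 10 * kk + 20 ∧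
      ∀ b ∈ R, IsForced v b ∨ b ∈ S := by
    refine ⟨E0, hfew, fun b hb => ?_⟩
    by_cases hb' : b ∈ stars R v (1 - i) ∪ Sp
    · left
      rcases mem_union.1 hb' with hb' | hb'
      · obtain ⟨-, d, hd⟩ := mem_filter.1 hb'; exact Or.inl ⟨_, d, hd⟩
      · obtain ⟨-, μ, a, e⟩ := mem_filter.1 hb'; exact Or.inr ⟨i, μ, a, e⟩
    · exact Or.inr (mem_sdiff.2 ⟨hb, hb'⟩)
  obtain ⟨pA, fA⟩ := seen_forced hq h hs hsa (Ex := {P}) (by simp)
    (show 10 * kk + 20 ≤ 60 * kk + 500 by omega) hfewE hcova
  obtain ⟨pC, fC⟩ := seen_forced hq h hs hsc (Ex := {P}) (by simp)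
    (show 10 * kk + 20 ≤ 60 * kk + 500 by omega) hfewE hcovc
  rw [e3, e1] at fA
  rw [e4, e2] at fC
  rw [e1] at pA
  rw [e2] at pC
  set Pc : Finset (Blk q K (modM K)) := {Blk.line la (.one (v (sndC (1 - i))).1),
    Blk.line lc (.one (v (fstC (1 - i))).1)} with hPc'
  have hPcR : Pc ⊆ R := by
    intro b hb
    rcases mem_insert.1 hb with rfl | hb
    · exact pA
    · rw [mem_singleton.1 hb]; exact pC
  have hPcc : Pc.card = 2 := card_pair fun e => by
    injection e with e'
    exact role_ne hsa.1 hsc.1 hne e'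
  set F := stars R v (1 - i) ∪ Pc with hF
  have hFR : F ⊆ R := union_subset (filter_subset _ _) hPcR
  have hFd : Disjoint (stars R v (1 - i)) Pc := by
    refine disjoint_left.2 fun b hb hb' => ?_
    obtain ⟨-, d, rfl⟩ := mem_filter.1 hb
    simp [hPc', star] at hb'
  have hSpd : Disjoint F Sp := by
    refine disjoint_left.2 fun b hb hb' => ?_
    obtain ⟨-, μ, a, rfl⟩ := mem_filter.1 hb'
    rcases mem_union.1 hb with hb | hb
    · obtain ⟨-, d, e⟩ := mem_filter.1 hb; simp [star] at e
    · simp [hPc'] at hb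
  set S := R \ (F ∪ Sp) with hS
  have hSc : S.card + ((stars R v (1 - i)).card + 2 + Sp.card) = R.card := by
    have e0 : (stars R v (1 - i)).card + 2 = F.card := by
      rw [hF, card_union_of_disjoint hFd, hPcc]
    rw [e0, ← card_union_of_disjoint hSpd]
    exact card_sdiff_add_card_eq_card (union_subset hFR (filter_subset _ _))
  have hstc := stars_card R v (1 - i)
  -- the omitted direction and its witness
  have key : (omitted R v (1 - i)).card = 0 ∨
      ((omitted R v (1 - i)).card ≤ 1 ∧ ∃ b ∈ S, ∀ k x, b ≠ .line (wLine k) (.one x)) := by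
    by_cases hk : ∀ d, ¬ D.Killed (fstC (1 - i)) la.1 (some d, coset d (v (sndC (1 - i)))) ∨
        ¬ D.Killed (sndC (1 - i)) lc.1 (some d, coset d (v (fstC (1 - i))))
    · left
      refine card_eq_zero.2 (filter_eq_empty_iff.2 fun d _ hd => ?_)
      rcases hk d with hk | hk
      · exact hd (fA d hk)
      · exact hd (fC d hk)
    · right
      push Not at hk
      obtain ⟨d₀, hd1, hd2⟩ := hk
      have hi1 : sndC (1 - i) = 1 := by
        rcases hd2 with ⟨e, -⟩ | ⟨e, -⟩
        · exact e
        · exfalso; revert e; clear * - i; revert i; decide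
      have hi0 : fstC (1 - i) = 0 := by
        clear * - i hi1; revert hi1; revert i; decide
      have hgr : (1 - i) = 0 := by
        clear * - i hi1; revert hi1; revert i; decide
      rcases hd2 with ⟨-, hns, hk2⟩ | ⟨e, -⟩
      · simp only [Prod.mk.injEq, Option.some.injEq] at hk2
        obtain ⟨rfl, hk2⟩ := hk2
        refine ⟨card_le_one.2 fun x hx y hy => ?_, ?_⟩
        · have aux : ∀ z ∈ omitted R v (1 - i), z = D.dir lc.1 := by
            intro z hz
            by_contra hne''
            refine (mem_filter.1 hz).2 (fC z ?_)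
            rintro (⟨-, -, e'⟩ | ⟨e', -⟩)
            · simp only [Prod.mk.injEq, Option.some.injEq] at e'
              exact hne'' e'.1
            · rw [hi1] at e'; exact absurd e' (by decide)
          rw [aux x hx, aux y hy]
        · rw [hi0] at hk2
          obtain ⟨w, hwl, hwE, ht, -, hstar, hX'⟩ := exists_witness hq
            (by have := hs.κ_big; omega) h (v := v) (l := lc) (hi1 ▸ hsc.1) hns hk2
            (Ex := {P}) (by simp)
          obtain ⟨b, hb, hin⟩ := hcovc w hwl hwE
          refine ⟨b, mem_sdiff.2 ⟨hb, fun hbF => ?_⟩, ?_⟩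
          · rcases mem_union.1 hbF with hbF | hbF
            · rcases mem_union.1 hbF with hbF | hbF
              · obtain ⟨-, d, rfl⟩ := mem_filter.1 hbF; exact hstar _ d hin
              · rcases mem_insert.1 hbF with rfl | hbF
                · exact hwE (mem_singleton.2 (pt_eq_of_two (role_ne hsa.1 hsc.1 hne)
                    (onLine_lineThru P _) (inBlk_line hin).1 (onLine_lineThru P _)
                    (mem_linePts.1 hwl).2.1))
                · rw [mem_singleton.1 hbF] at hin
                  obtain ⟨-, k2⟩ := inBlk_piece_eq hq hsc.1 hin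
                  rw [e2, hi0] at k2
                  exact hX' k2
            · obtain ⟨-, μ, a, rfl⟩ := mem_filter.1 hbF
              exact (mem_linePts.1 hwl).2.2 (Or.inl ⟨i, isOm_onLine h.toDesign
                (inBlk_spec hq h.toDesign (mem_linePts.1 hwl).1 hin).1⟩)
          · intro k x e
            subst e
            exact ht.1.2 ⟨k, (inBlk_line hin).1⟩
      · rw [hi1] at e; exact absurd e (by decide)
  have hom : ∀ (X : Finset (Blk q K (modM K))), (∀ b ∈ X, ∀ g z,
      D.om i g z ∉ ({P} : Finset (Pt q)) → ¬ D.InBlk (D.om i g z) b) →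
      20 * (m + 1) ≤ 20 * Sp.card + 3 * (S \ X).card + (20 * (Sp.card - m)) := by
    intro X hX'
    have hG20 := openGroups_card h.toDesign ((v (sndC (1 - i))).2 - (v (fstC (1 - i))).2)
    have hc := om_count hq (by omega) h.toDesign i v G (openGroups_shift hX)
      (R := R \ (Pc ∪ X)) (Ex := {P}) hExom fun g hg z hE => by
        obtain ⟨b, hb, hin⟩ := hcovi g z hE
        refine ⟨b, mem_sdiff.2 ⟨hb, fun hbP => ?_⟩, hin⟩
        rcases mem_union.1 hbP with hbP | hbP
        · rcases mem_insert.1 hbP with rfl | hbP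
          · exact hE (hma _ (inBlk_line hin).1 (h.om_side i g z))
          · rw [mem_singleton.1 hbP] at hin
            exact hE (hmc _ (inBlk_line hin).1 (h.om_side i g z))
        · exact hX' b hbP g z hE hin
    have hA : ((R \ (Pc ∪ X)).filter fun b => ∃ μ a, b = .spec i μ a).card ≤ Sp.card :=
      card_le_card fun b hb => mem_filter.2
        ⟨(mem_sdiff.1 (mem_filter.1 hb).1).1, (mem_filter.1 hb).2⟩
    have hB : ((R \ (Pc ∪ X)).filter fun b =>
        ¬ (∃ μ a, b = .spec i μ a) ∧ ¬ ∃ γ d, star v γ d = b).card ≤ (S \ X).card := by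
      refine card_le_card fun b hb => ?_
      obtain ⟨h1, n1, n2⟩ := mem_filter.1 hb
      obtain ⟨hbR, hbn⟩ := mem_sdiff.1 h1
      simp only [mem_union, not_or] at hbn
      refine mem_sdiff.2 ⟨mem_sdiff.2 ⟨hbR, fun hh => ?_⟩, hbn.2⟩
      rcases mem_union.1 hh with hh | hh
      · rcases mem_union.1 hh with hh | hh
        · obtain ⟨-, d, hd⟩ := mem_filter.1 hh; exact n2 ⟨_, d, hd⟩
        · exact hbn.1 hh
      · exact n1 (mem_filter.1 hh).2
    by_cases hk : Sp.card ≤ m
    · have e : G.card * (m + 1) = G.card * (m - Sp.card + 1) + G.card * Sp.card := by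
        rw [← Nat.mul_add]; congr 1; omega
      have e' : 20 * (m - Sp.card + 1) ≤ G.card * (m - Sp.card + 1) := Nat.mul_le_mul_right _ hG20
      have hc' : G.card * (m + 1) ≤ _ := hc
      have e0 : G.card * (m + 1) = G.card * (Fintype.card K + 1) := rfl
      have e'' : G.card * ((R \ (Pc ∪ X)).filter fun b => ∃ μ a, b = .spec i μ a).card ≤
          G.card * Sp.card := Nat.mul_le_mul_left _ hA
      omega
    · omega
  have h1 := hom ∅ (fun b hb => absurd hb (notMem_empty b))
  rw [sdiff_empty] at h1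
  have hS7 : S.card ≤ 7 := by rcases key with h0 | ⟨h0, -⟩ <;> omega
  have hW : ∀ k ∈ J, ∃ x, (Blk.line (wLine k) (.one x) : Blk q K (modM K)) ∈ S := by
    intro k hk
    have hkP := (mem_filter.1 hk).2
    refine wp_piece hq (by omega) h.toDesign v k (Ex := {P}) (by simp) hS7
      (fun k' x hE => hcov _ (wp_mem_pts k k' x) hE
        ⟨wLine k, mem_desig_wLine hkP, (h.wp_line k k' x).1⟩) fun b hb k' x hE hin => ?_
    by_cases hbF : b ∈ F ∪ Sp
    · rcases mem_union.1 hbF with hbF | hbF
      · rcases mem_union.1 hbF with hbF | hbF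
        · obtain ⟨-, d, hd⟩ := mem_filter.1 hbF; exact Or.inl ⟨_, d, hd⟩
        · exfalso
          have hl : ∀ a, OnLine (D.wp k k' x) (ln a) → False := fun a hon =>
            hE (mem_singleton.2 (pt_eq_of_two
              (fun e => cen_not_on_wLine hq a k (by rw [e]; exact hcen a))
              (mem_linesThru.1 hkP) (h.wp_line k k' x).1 (onLine_lineThru P _) hon))
          rcases mem_insert.1 hbF with rfl | hbF
          · exact hl _ (inBlk_line hin).1
          · rw [mem_singleton.1 hbF] at hin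
            exact hl _ (inBlk_line hin).1
      · obtain ⟨-, μ, a, rfl⟩ := mem_filter.1 hbF
        exact absurd (Or.inl ⟨i, isOm_onLine h.toDesign
          (inBlk_spec hq h.toDesign (wp_mem_pts k k' x) hin).1⟩) (h.wp_line k k' x).2.1
    · exact Or.inr (mem_sdiff.2 ⟨hb, hbF⟩)
  choose x hx using hW
  set img := J.attach.image fun k => (Blk.line (wLine k.1) (.one (x k.1 k.2)) : Blk q K (modM K))
    with himgd
  have hc : img.card = J.card := by
    rw [himgd, card_image_of_injective, card_attach]
    intro k k' e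
    injection e with e1
    exact Subtype.ext (wLine_injective hq e1)
  have hsub : img ⊆ S := fun b hb => by
    obtain ⟨k, -, rfl⟩ := mem_image.1 hb; exact hx k.1 k.2
  have h2 := hom img fun b hb g z _ hin => by
    obtain ⟨k, -, rfl⟩ := mem_image.1 hb
    exact (h.om_off i g z).2.2.1 ⟨k.1, (inBlk_line hin).1⟩
  rw [card_sdiff_of_subset hsub, hc] at h2
  have hle := card_le_card hsub
  rw [hc] at hle
  rcases key with h0 | ⟨h0, b, hb, hbne⟩
  · omega
  · have hbn : b ∉ img := fun hbi => by
      obtain ⟨k, -, rfl⟩ := mem_image.1 hbi; exact hbne _ _ rfl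
    have := card_le_card (insert_subset hb hsub)
    rw [card_insert_of_notMem hbn, hc] at this
    omega

/-- The point at infinity of such a side. -/
theorem case_dir_same {T κ g Dl err kk : ℕ} (hq : 1000 ≤ q) (h : Good D T κ g Dl err)
    (hs : Sizes q (Fintype.card K) T κ g Dl err kk) (i : Fin 2)
    {R : Finset (Blk q K (modM K))} (hR : D.Remainder (linesDir (sameSide i).1) ∅ R) : False := by
  classical
  obtain ⟨e1, e2, e3, e4, hne⟩ := same_other i
  set σ := (sameSide (q := q) i).1 with hσ
  set v := fun a => D.L a σ with hv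
  set ln := fun a => lineThru (cen a) σ with hln
  have hside : ∀ a, a = fstC i ∨ a = sndC i → ln a = sameSide i := fun a ha =>
    lineThru_eq ((cen_on_sameSide hq a i).2 ha)
  have hno : ∀ a, a = fstC (1 - i) ∨ a = sndC (1 - i) → ¬ (a = fstC i ∨ a = sndC i) := by
    clear * - i
    revert i; decide
  have hseen : ∀ a, a = fstC (1 - i) ∨ a = sndC (1 - i) → Seen D v a (ln a) := by
    intro a ha
    have hna : ln a ≠ sameSide i := fun e =>
      hno a ha ((cen_on_sameSide hq a i).1 (e ▸ onLine_lineThru _ _))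
    refine ⟨⟨onLine_lineThru _ _, fun a' hne'' ha' => ?_⟩, ?_⟩
    · rcases two_cen hq hne'' ha' (onLine_lineThru _ _) with ⟨i', e⟩ | ⟨j, e⟩
      · have : i' = i := slope_sameSide_injective hq
          (show (sameSide (q := q) i').1 = _ by rw [← e]; simp only [hln, lineThru_fst, hσ])
        exact hna (this ▸ e)
      · exact slope_sameSide_ne_crossSide hq i j (by rw [← e, lineThru_fst])
    · simp only [hv, hln, lineThru_fst]
  have hsa := hseen (fstC (1 - i)) (Or.inl rfl)
  have hsc := hseen (sndC (1 - i)) (Or.inr rfl)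
  have hXY : v (fstC (1 - i)) = v (sndC (1 - i)) := h.side_lab i
  obtain ⟨hcard, hcov⟩ := hR
  have hmem : ∀ a, ln a ∈ linesDir σ := fun a => mem_filter.2 ⟨mem_univ _, lineThru_fst _ _⟩
  have hdes := desig_card_le hq (Λ := linesDir σ) ln fun l hl a hon => by
    simp only [hln]
    rw [← (mem_filter.1 hl).2, lineThru_eq hon]
  have himg : (univ.image ln).card ≤ 3 := by
    refine le_trans (card_le_card
      (t := {sameSide i, ln (fstC (1 - i)), ln (sndC (1 - i))}) ?_)
      (le_trans (card_insert_le _ _) (Nat.succ_le_succ (le_trans (card_insert_le _ _) (by simp))))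
    intro l hl
    obtain ⟨a, -, rfl⟩ := mem_image.1 hl
    rcases same_centres i a with rfl | rfl | rfl | rfl
    · simp [hside _ (Or.inl rfl)]
    · simp [hside _ (Or.inr rfl)]
    · simp
    · simp
  have hJ : (univ.filter fun k => wLine k ∈ linesDir σ).card ≤ 1 :=
    card_le_one.2 fun k hk k' hk' => slope_wLine_injective hq
      ((mem_filter.1 (mem_filter.1 hk).2).2.trans (mem_filter.1 (mem_filter.1 hk').2).2.symm)
  rw [card_linesDir] at hcard
  obtain ⟨hsmall, hfew⟩ := same_small hq h hs hsa hsc (congrArg Prod.fst hXY) (R := R) (by omega)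
    (Ex := ∅) (by simp) (fun g _ z => notMem_empty _)
    (fun p hp hpE => hcov p (mem_linePts.1 hp).1 hpE
      ⟨_, mem_desig_of_cen (hmem _) (onLine_lineThru _ _), (mem_linePts.1 hp).2.1⟩)
    (fun p hp hpE => hcov p (mem_linePts.1 hp).1 hpE
      ⟨_, mem_desig_of_cen (hmem _) (onLine_lineThru _ _), (mem_linePts.1 hp).2.1⟩)
    (fun g z hE => hcov _ (mem_pts.2 (Or.inr (Or.inl ⟨i, g, z, rfl⟩))) hE
      ⟨sameSide i, mem_desig_of_cen (mem_filter.2 ⟨mem_univ _, rfl⟩)
        ((cen_on_sameSide hq _ i).2 (Or.inl rfl)), h.om_side i g z⟩)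
  obtain ⟨k, hk⟩ := (isSideSlope_iff_wLine hq σ).1 (Or.inl ⟨i, rfl⟩)
  have hcnt := wp_count hq h.toDesign k (R := R)
    (F := stars R v (1 - i) ∪ R.filter fun b => ∃ μ a, b = .spec i μ a) (Ex := ∅)
    (fun k' x => notMem_empty _)
    (fun k' x hE => hcov _ (wp_mem_pts k k' x) hE
      ⟨wLine k, mem_desig_wLine (mem_filter.2 ⟨mem_univ _, hk⟩), (h.wp_line k k' x).1⟩)
    (fun b hb k' x hin => by
      rcases mem_union.1 hb with hb | hb
      · obtain ⟨-, d, rfl⟩ := mem_filter.1 hb
        exact wp_not_star h.toDesign hXY d k k' x hin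
      · obtain ⟨-, μ, a, rfl⟩ := mem_filter.1 hb
        exact (h.wp_line k k' x).2.1 (Or.inl ⟨i, isOm_onLine h.toDesign
          (inBlk_spec hq h.toDesign (wp_mem_pts k k' x) hin).1⟩))
  have := m_large hs
  omega

end Data

end Vale.Agent.P045
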