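import Mathlib
import Vale.Agent.P045.CoverSame
import Vale.Agent.P045.CoverDiag

/-!
# P045: at least `q + 2m + 1` blocks are needed to cover all points
-/

namespace Vale.Agent.P045

open Finset

variable {q : ℕ} [Fact q.Prime] {K : Type*} [Field K] [Fintype K] [DecidableEq K]

/-- At least `q + 2m + 1` blocks are needed to cover all points. -/
theorem Data.cover_lower_bound {D : Data q K} {T κ g Dl err kk : ℕ} (h : Good D T κ g Dl err)
    (hs : Sizes q (Fintype.card K) T κ g Dl err kk)
    (B : Finset (Colour q K × Blk q K (modM K)))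
    (hB : ∀ y ∈ D.pts, ∃ c, (c, D.block y c) ∈ B) :
    q + 2 * Fintype.card K < B.card := by
  classical
  by_contra hlt
  push Not at hlt
  have hq : 1000 ≤ q := by
    have h1 := hs.κ_small
    have h2 := Data.m_large hs
    have h3 : 1 * (8 * Fintype.card K) ≤ (κ + 100) * (8 * Fintype.card K) :=
      Nat.mul_le_mul_right _ (by omega)
    have : (κ + 100) * (8 * Fintype.card K) = 8 * Fintype.card K * (κ + 100) := mul_comm _ _
    omega
  set Bl := B.image Prod.snd with hBl
  have hcard : Bl.card ≤ q + 2 * Fintype.card K := le_trans card_image_le hlt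
  have hcov : ∀ y ∈ D.pts, ∃ b ∈ Bl, D.InBlk y b := fun y hy => by
    obtain ⟨c, hc⟩ := hB y hy
    exact ⟨_, mem_image.2 ⟨(c, D.block y c), hc, rfl⟩, c, rfl⟩
  rcases Data.exists_remainder hq h hs Bl hcard hcov with ⟨P, hPc, R, hR⟩ | ⟨σ, R, hR⟩
  · by_cases hsame : ∃ i, OnLine P (sameSide i)
    · obtain ⟨i, hi⟩ := hsame
      by_cases hu : OnLine P (sameSide (1 - i))
      · fin_cases i
        · exact Data.case_same_meet hq h hs hi hu hR
        · exact Data.case_same_meet hq h hs hu hi hR
      · exact Data.case_same hq h hs hPc hi hu hR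
    by_cases hcr : OnCross P
    · obtain ⟨j, hj⟩ := hcr
      by_cases hu : ∀ j', OnLine P (crossSide j') → j' = j
      · exact Data.case_cross hq h hs hPc hj hu hR
      · push Not at hu
        obtain ⟨j', hj', hne⟩ := hu
        exact Data.case_diag hq h hs hPc (Ne.symm hne) hj hj' hR
    · exact Data.case_plain hq h hs hPc (fun hside => hside.elim hsame hcr) hR
  · by_cases hσ : IsSideSlope σ
    · rcases hσ with ⟨i, rfl⟩ | ⟨j, rfl⟩
      · exact Data.case_dir_same hq h hs i hR
      · exact Data.case_dir_cross hq h hs j hR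
    · exact Data.case_dir hq h hs hσ hR

end Vale.Agent.P045
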