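import Mathlib
import Vale.Agent.P045.RandDefs

/-!
# P045: the numbers of the construction
-/

namespace Vale.Agent.P045

/-- The inequalities between the numbers, in the abstract. -/
theorem sizes_of_bounds {q m : ℕ} (h140 : 2 ^ 140 ≤ m) (hlo : m ^ 2 ≤ 1024 * q)
    (hhi : 512 * q ≤ m ^ 2) :
    Sizes q m (3 * q / (2 * m) + 2 ^ 24) (2 ^ 24) (q / (128 * m)) (2 ^ 64 * m) (2 ^ 64 * m)
      (2 ^ 82) := by
  have hm : 0 < m := lt_of_lt_of_le (by positivity) h140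
  have h1 : m * 2 ^ 140 ≤ 1024 * q := (Nat.mul_le_mul le_rfl h140).trans ((sq m).symm.le.trans hlo)
  set T := 3 * q / (2 * m) + 2 ^ 24 with hT
  have hT2 : 2 * m * T ≤ 3 * q + 2 ^ 25 * m := by
    rw [hT, Nat.mul_add]
    have := Nat.mul_div_le (3 * q) (2 * m)
    omega
  have hTle : T ≤ 3 * q / 256 + 2 ^ 24 := by
    rw [hT]
    exact Nat.add_le_add_right (Nat.div_le_div_left (by omega) (by norm_num)) _
  clear_value T
  clear hT
  have hA : m * (T + 3) ≤ 2 * q := by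
    have e : 2 * (m * (T + 3)) = 2 * m * T + 6 * m := by ring
    omega
  have hA2 : 128 * (T + 3) ^ 2 ≤ q := by
    rcases Nat.eq_zero_or_pos q with hq | hq
    · omega
    refine Nat.le_of_mul_le_mul_left ?_ (show 0 < 4 * q by omega)
    calc 4 * q * (128 * (T + 3) ^ 2) = 512 * q * (T + 3) ^ 2 := by ring
      _ ≤ m ^ 2 * (T + 3) ^ 2 := Nat.mul_le_mul_right _ hhi
      _ = (m * (T + 3)) ^ 2 := by ring
      _ ≤ (2 * q) ^ 2 := Nat.pow_le_pow_left hA 2
      _ = 4 * q * q := by ring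
  have hq0 : m * 2 ^ 120 ≤ q := by
    clear hA2 hA hT2 hTle hhi hlo h140
    norm_num at h1 ⊢
    linarith
  have hq1 : 2 ^ 120 ≤ q := le_trans (Nat.le_mul_of_pos_left _ hm) hq0
  refine ⟨?_, ?_, ?_, ?_, ?_, ?_, by norm_num, ?_⟩
  · exact le_trans (by norm_num) h140
  · -- `T_sq`
    clear h1 h140 hA hT2 hTle hhi hlo hq0
    generalize (T + 3) ^ 2 = A at hA2 ⊢
    norm_num at hq1 ⊢
    linarith
  rotate_left
  · -- `Dl_small`
    clear h1 h140 hA hA2 hT2 hTle hhi hlo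
    norm_num at hq0 hq1 ⊢
    linarith
  · -- `κ_small`
    clear h1 h140 hA hA2 hT2 hTle hhi hlo
    norm_num at hq0 hq1 ⊢
    linarith
  rotate_right 1
  · -- `T_lin`
    have h100 : 100 * T ≤ m * T := Nat.mul_le_mul_right _ (by omega)
    have hsmall : 20 * T ≤ q / 4 + 2 ^ 30 * m := by omega
    have e : (m + 20) * T = m * T + 20 * T := by ring
    have e2 : 2 * m * T = 2 * (m * T) := by ring
    omega
  · -- `kk_def`
    calc 32 * m * (4 * m * (2 ^ 24 + 10) + 2 ^ 64 * m) = 32 * (4 * (2 ^ 24 + 10) + 2 ^ 64) * m ^ 2 := by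
          ring
      _ ≤ 32 * (4 * (2 ^ 24 + 10) + 2 ^ 64) * (1024 * q) := Nat.mul_le_mul_left _ hlo
      _ = 32 * (4 * (2 ^ 24 + 10) + 2 ^ 64) * 1024 * q := by ring
      _ ≤ 2 ^ 82 * q := Nat.mul_le_mul_right _ (by norm_num)
      _ = q * 2 ^ 82 := by ring
  · -- `g_big`
    rw [Nat.le_div_iff_mul_le (by omega)]
    omega

end Vale.Agent.P045
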