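import Mathlib
import Vale.Agent.P045.Prob

/-!
# P045: choosing the columns of the tagged points

Every row gets `R` uniform tries in its own candidate set. Whatever is counted through prescribed
target sets has a small count, and on every row many tries survive a small forbidden set which
does not read the tries of that row.
-/

namespace Vale.Agent.P045

open Finset

/-- A Poisson tail. -/
theorem pow_div_factorial_le_half {lam : ℝ} (h0 : 0 ≤ lam) {k : ℕ} (h : 8 * lam ≤ k) :
    lam ^ k / k.factorial ≤ (1 / 2 : ℝ) ^ k := by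
  have h1 : (8 * lam) ^ k / k.factorial ≤ Real.exp (8 * lam) :=
    Real.pow_div_factorial_le_exp (8 * lam) (by positivity) k
  have h2 : Real.exp (8 * lam) ≤ (4 : ℝ) ^ k := by
    refine (Real.exp_le_exp.2 h).trans ?_
    rw [← mul_one (k : ℝ), Real.exp_nat_mul]
    exact pow_le_pow_left₀ (Real.exp_nonneg 1) (by linarith [Real.exp_one_lt_three]) k
  rw [mul_pow, mul_div_assoc] at h1
  have h8 : (1 / 2 : ℝ) ^ k = (4 : ℝ) ^ k / 8 ^ k := by rw [← div_pow]; norm_num
  rw [h8, le_div_iff₀ (by positivity)]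
  calc lam ^ k / k.factorial * 8 ^ k = 8 ^ k * (lam ^ k / k.factorial) := mul_comm _ _
    _ ≤ 4 ^ k := h1.trans h2

variable {S T J : Type*} [Fintype S] [DecidableEq S] [DecidableEq T]

/-- The tries give sets with few hits and many survivors. -/
theorem exists_tries (Kof : S → Finset T) (R Kmin B κ' a b e : ℕ) (hK0 : 0 < Kmin)
    (hKlo : ∀ s, Kmin ≤ (Kof s).card) (hKhi : ∀ s, (Kof s).card + 1 ≤ 2 ^ b)
    (Js : Finset J) (A : J → S → Finset T) (k : J → ℕ)
    (hJs : Js.card ≤ 2 ^ a) (hk : ∀ j ∈ Js, a + 2 ≤ k j)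
    (hA : ∀ j ∈ Js, 8 * (R * ∑ s, ((Kof s).filter (· ∈ A j s)).card) ≤ k j * Kmin)
    (F : (S → Finset T) → S → Finset T)
    (hF : ∀ Z Z' s, (∀ s', s' ≠ s → Z s' = Z' s') → F Z s = F Z' s)
    (hS : Fintype.card S ≤ 2 ^ a) (hB : (B + κ') * 2 ^ e ≤ Kmin)
    (he : a + b * κ' + 2 ≤ e * R) :
    ∃ Z : S → Finset T, (∀ s, Z s ⊆ Kof s ∧ (Z s).card ≤ R) ∧
      (∀ j ∈ Js, ∑ s, (Z s ∩ A j s).card < k j) ∧
      ∀ s, (F Z s).card ≤ B → κ' ≤ (Z s \ F Z s).card := by
  classical
  have : ∀ i : S × Fin R, Nonempty (Kof i.1) := fun i =>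
    (Finset.card_pos.1 (lt_of_lt_of_le hK0 (hKlo i.1))).to_subtype
  let Zof : (∀ i : S × Fin R, Kof i.1) → S → Finset T :=
    fun w s => univ.image fun j => (w (s, j)).1
  let Hit : J → (∀ i : S × Fin R, Kof i.1) → Prop := fun j w =>
    k j ≤ (univ.filter fun i : S × Fin R => (w i).1 ∈ A j i.1).card
  let small : ∀ s, (Fin κ' → Option (Kof s)) → Finset T := fun s f =>
    (Kof s).filter fun t => ∃ i, ∃ h : t ∈ Kof s, f i = some ⟨t, h⟩
  let Bad : (Σ s, Fin κ' → Option (Kof s)) → (∀ i : S × Fin R, Kof i.1) → Prop := fun sf w =>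
    ∀ j : Fin R, (w (sf.1, j)).1 ∈ F (Zof w) sf.1 ∪ small sf.1 sf.2 ∧ (F (Zof w) sf.1).card ≤ B
  have hKr : (0 : ℝ) < Kmin := by exact_mod_cast hK0
  have hhit : ∀ j ∈ Js, prob (Hit j) ≤ (1 / 2 : ℝ) ^ k j := by
    intro j hj
    let p : S × Fin R → ℝ := fun i => (((Kof i.1).filter (· ∈ A j i.1)).card : ℝ) / Kmin
    have hc : ∀ i ∈ (univ : Finset (S × Fin R)),
        CondLe {i} (ind fun w : ∀ i : S × Fin R, Kof i.1 => (w i).1 ∈ A j i.1) (p i) := by
      intro i _
      refine (condLe_coord i _ ((Kof i.1).filter (· ∈ A j i.1)).card fun w => ?_).mono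
        subset_rfl ?_
      · rw [Set.ncard_eq_toFinset_card']
        refine Finset.card_le_card_of_injOn Subtype.val ?_ Subtype.val_injective.injOn
        intro v hv
        simp only [Set.coe_toFinset, Set.mem_ofPred_eq, Function.update_self] at hv
        simp only [coe_filter, Set.mem_ofPred_eq]
        exact ⟨v.2, hv⟩
      · simp only [p, Fintype.card_coe]
        gcongr
        exact_mod_cast hKlo i.1
    have hdep : ∀ i ∈ (univ : Finset (S × Fin R)), ∀ i' ∈ (univ : Finset (S × Fin R)), i ≠ i' →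
        DependsOn (fun w : ∀ i : S × Fin R, Kof i.1 => (w i').1 ∈ A j i'.1)
          ((({i} : Finset (S × Fin R)) : Set (S × Fin R))ᶜ) := by
      intro i _ i' _ hne w w' hww
      simp only
      rw [hww i' (by simpa using Ne.symm hne)]
    have hp := prob_count_ge_le univ (fun i => {i}) _ p (∑ i, p i) (k j)
      (fun i _ => by positivity) le_rfl hc hdep
    refine le_trans (le_of_eq ?_) (hp.trans (pow_div_factorial_le_half
        (Finset.sum_nonneg fun i _ => by positivity) ?_))
    · simp only [Hit]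
      congr! 4
      ext y; simp
    simp only [p, ← Finset.sum_div, Fintype.sum_prod_type, Finset.sum_const, card_univ,
      Fintype.card_fin, nsmul_eq_mul]
    rw [← mul_div_assoc, div_le_iff₀ hKr, ← Finset.mul_sum]
    exact_mod_cast hA j hj
  have hbad : ∀ sf, prob (Bad sf) ≤ ((1 / 2 : ℝ) ^ e) ^ R := by
    rintro ⟨s, f⟩
    let φ : Fin R → (∀ i : S × Fin R, Kof i.1) → ℝ := fun j => ind fun w =>
      (w (s, j)).1 ∈ F (Zof w) s ∪ small s f ∧ (F (Zof w) s).card ≤ B
    have key : ∀ (j : Fin R) (w : ∀ i : S × Fin R, Kof i.1) v,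
        F (Zof (Function.update w (s, j) v)) s = F (Zof w) s := fun j w v => hF _ _ _ fun s' hs' => by
      simp [Zof, Prod.ext_iff, hs']
    have hsm : (small s f).card ≤ κ' := by
      refine le_trans (Finset.card_le_card
        (t := (univ.image f).biUnion fun o => o.toFinset.map (Function.Embedding.subtype _)) ?_) ?_
      · intro t ht
        obtain ⟨-, i, h, hi⟩ := Finset.mem_filter.1 ht
        exact mem_biUnion.2 ⟨_, mem_image_of_mem f (mem_univ i), by simp [hi]⟩
      · refine card_biUnion_le.trans ((Finset.sum_le_card_nsmul _ _ 1 fun o _ => ?_).trans ?_)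
        · cases o <;> simp
        · simpa using card_image_le (f := f) (s := (univ : Finset (Fin κ')))
    have hc : ∀ j ∈ (univ : Finset (Fin R)),
        CondLe {(s, j)} (φ j) (((B + κ' : ℕ) : ℝ) / Kmin) := by
      intro j _
      refine (condLe_coord (s, j) _ (B + κ') fun w => ?_).mono subset_rfl ?_
      · rw [Set.ncard_eq_toFinset_card']
        by_cases hw : (F (Zof w) s).card ≤ B
        · refine le_trans (Finset.card_le_card_of_injOn Subtype.val
            (t := F (Zof w) s ∪ small s f) ?_ Subtype.val_injective.injOn) ?_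
          · intro v hv
            simp only [Set.coe_toFinset, Set.mem_ofPred_eq, Function.update_self, key] at hv
            exact hv.1
          · exact (card_union_le _ _).trans (by omega)
        · refine le_of_eq_of_le (Finset.card_eq_zero.2 ?_) (Nat.zero_le _)
          rw [Set.toFinset_eq_empty]
          ext v
          simp [key, hw]
      · simp only [Fintype.card_coe]
        gcongr
        exact_mod_cast hKlo s
    have hdep : ∀ j ∈ (univ : Finset (Fin R)), ∀ j' ∈ (univ : Finset (Fin R)), j ≠ j' →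
        DependsOn (φ j') ((({(s, j)} : Finset (S × Fin R)) : Set (S × Fin R))ᶜ) := by
      intro j _ j' _ hne
      refine dependsOn_ind fun w w' hww => ?_
      have e1 : F (Zof w) s = F (Zof w') s := hF _ _ _ fun s' hs' => by
        simp only [Zof]
        refine Finset.image_congr fun i _ => ?_
        rw [hww (s', i) (by simp [hs'])]
      simp only [e1, hww (s, j') (by simp [Ne.symm hne])]
    calc prob (Bad ⟨s, f⟩) ≤ avg (fun w => ∏ j, φ j w) := by
          refine avg_mono fun w => ?_
          by_cases hw : Bad ⟨s, f⟩ w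
          · refine le_of_eq ?_
            simp only [ind, hw, if_true]
            symm
            refine Finset.prod_eq_one fun j _ => ?_
            simp only [φ, ind]
            rw [if_pos (hw j)]
          · simp only [ind, hw, if_false]
            exact Finset.prod_nonneg fun j _ => ind_nonneg _ _
      _ ≤ ∏ _j : Fin R, ((B + κ' : ℕ) : ℝ) / Kmin :=
          avg_prod_le univ (fun j => {(s, j)}) φ _ (fun j _ => ind_nonneg _) hc hdep
      _ ≤ ((1 / 2 : ℝ) ^ e) ^ R := by
          rw [Finset.prod_const, card_univ, Fintype.card_fin]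
          refine pow_le_pow_left₀ (by positivity) ?_ R
          rw [div_pow, one_pow, div_le_div_iff₀ hKr (by positivity), one_mul]
          exact_mod_cast hB
  have hlt : ∑ x ∈ Js.disjSum (univ : Finset (Σ s, Fin κ' → Option (Kof s))),
      prob (Sum.elim Hit Bad x) < 1 := by
    rw [Finset.sum_disjSum]
    simp only [Sum.elim_inl, Sum.elim_inr]
    have h1 : ∑ j ∈ Js, prob (Hit j) ≤ 1 / 4 := by
      calc ∑ j ∈ Js, prob (Hit j) ≤ ∑ _j ∈ Js, (1 / 2 : ℝ) ^ (a + 2) :=
            Finset.sum_le_sum fun j hj => (hhit j hj).trans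
              (pow_le_pow_of_le_one (by norm_num) (by norm_num) (hk j hj))
        _ = (Js.card : ℝ) * (1 / 2 : ℝ) ^ (a + 2) := by simp
        _ ≤ (2 : ℝ) ^ a * (1 / 2 : ℝ) ^ (a + 2) := by gcongr; exact_mod_cast hJs
        _ = 1 / 4 := by rw [pow_add, ← mul_assoc, ← mul_pow]; norm_num
    have h2 : ∑ sf, prob (Bad sf) ≤ 1 / 4 := by
      have hcard : Fintype.card (Σ s, Fin κ' → Option (Kof s)) ≤ 2 ^ (a + b * κ') := by
        rw [Fintype.card_sigma, pow_add, pow_mul]
        calc ∑ s, Fintype.card (Fin κ' → Option (Kof s)) ≤ ∑ _s : S, (2 ^ b) ^ κ' :=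
              Finset.sum_le_sum fun s _ => by
                simp only [Fintype.card_fun, Fintype.card_fin, Fintype.card_option, Fintype.card_coe]
                exact Nat.pow_le_pow_left (hKhi s) κ'
          _ ≤ 2 ^ a * (2 ^ b) ^ κ' := by
                rw [Finset.sum_const, card_univ, smul_eq_mul]
                exact Nat.mul_le_mul_right _ hS
      calc ∑ sf, prob (Bad sf) ≤ ∑ _sf : (Σ s, Fin κ' → Option (Kof s)),
              (1 / 2 : ℝ) ^ (a + b * κ' + 2) :=
            Finset.sum_le_sum fun sf _ => (hbad sf).trans (by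
              rw [← pow_mul]; exact pow_le_pow_of_le_one (by norm_num) (by norm_num) he)
        _ ≤ (2 : ℝ) ^ (a + b * κ') * (1 / 2 : ℝ) ^ (a + b * κ' + 2) := by
              rw [Finset.sum_const, card_univ, nsmul_eq_mul]
              gcongr
              exact_mod_cast hcard
        _ = 1 / 4 := by rw [pow_add (1 / 2 : ℝ), ← mul_assoc, ← mul_pow]; norm_num
    linarith
  obtain ⟨w, hw⟩ := exists_forall_not _ _ hlt
  refine ⟨Zof w, fun s => ⟨?_, ?_⟩, ?_, ?_⟩
  · intro t ht
    obtain ⟨j, -, rfl⟩ := mem_image.1 ht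
    exact (w (s, j)).2
  · simpa using card_image_le (s := (univ : Finset (Fin R))) (f := fun j => (w (s, j)).1)
  · intro j hj
    have hlow := hw (.inl j) (by simp [hj])
    simp only [Sum.elim_inl, Hit, not_le] at hlow
    refine lt_of_le_of_lt ?_ hlow
    rw [← Finset.card_sigma]
    refine Finset.card_le_card_of_surjOn (fun i : S × Fin R => (⟨i.1, (w i).1⟩ : Σ _ : S, T)) ?_
    rintro ⟨s, t⟩ hst
    simp only [coe_sigma, Set.mem_sigma_iff, coe_univ, Set.mem_univ, true_and, mem_coe,
      mem_inter] at hst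
    obtain ⟨i, -, rfl⟩ := mem_image.1 hst.1
    exact ⟨(s, i), by simpa using hst.2, rfl⟩
  · intro s hFs
    by_contra hlt'
    push Not at hlt'
    have hsub : ∀ t ∈ Zof w s \ F (Zof w) s, t ∈ Kof s := fun t ht => by
      obtain ⟨j, -, rfl⟩ := mem_image.1 (mem_sdiff.1 ht).1
      exact (w (s, j)).2
    let L := (Zof w s \ F (Zof w) s).toList.attach
    let f : Fin κ' → Option (Kof s) := fun i =>
      L[(i : ℕ)]?.map fun t => ⟨t.1, hsub t.1 (mem_toList.1 t.2)⟩
    refine hw (.inr ⟨s, f⟩) (by simp) fun j => ⟨?_, hFs⟩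
    by_cases hin : (w (s, j)).1 ∈ F (Zof w) s
    · exact mem_union_left _ hin
    refine mem_union_right _ (mem_filter.2 ⟨(w (s, j)).2, ?_⟩)
    have hm : (w (s, j)).1 ∈ (Zof w s \ F (Zof w) s).toList :=
      mem_toList.2 (mem_sdiff.2 ⟨mem_image.2 ⟨j, mem_univ _, rfl⟩, hin⟩)
    obtain ⟨i, hi, hget⟩ := List.getElem_of_mem (List.mem_attach _ ⟨_, hm⟩)
    have hiκ : i < κ' := by
      have hi' := hi
      rw [List.length_attach, Finset.length_toList] at hi'
      omega
    refine ⟨⟨i, hiκ⟩, (w (s, j)).2, ?_⟩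
    simp only [f, L]
    rw [List.getElem?_eq_getElem hi, hget]
    rfl

end Vale.Agent.P045
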