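import Mathlib
import Vale.Agent.P045.RandDefs
import Vale.Agent.P045.Geom
import Vale.Agent.P045.TriesCore

/-!
# P045: the tag directions
-/

namespace Vale.Agent.P045

open Finset

variable {q : ℕ} [Fact q.Prime] {K : Type*} [Field K] [Fintype K] [DecidableEq K]

lemma two_pow_split {a b c : ℕ} (h : a + b = c) : (2 : ℕ) ^ c = 2 ^ a * 2 ^ b := h ▸ pow_add 2 a b

omit [Fact q.Prime] [Field K] [DecidableEq K] in
lemma big_q {h : Big q K} : 2 ^ 2038 ≤ q ∧ q ≤ 2 ^ 2039 := by
  have h1 := h.lo
  have h2 := h.hi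
  rw [h.card_eq] at h1 h2
  have e1 : ((2 : ℕ) ^ 1024) ^ 2 = 1024 * 2 ^ 2038 := by
    rw [← pow_mul, two_pow_split (a := 10) (b := 2038) (by norm_num : _ = 1024 * 2)]
    norm_num
  have e2 : ((2 : ℕ) ^ 1024) ^ 2 = 512 * 2 ^ 2039 := by
    rw [← pow_mul, two_pow_split (a := 9) (b := 2039) (by norm_num : _ = 1024 * 2)]
    norm_num
  rw [e1] at h1
  rw [e2] at h2
  generalize (2 : ℕ) ^ 2038 = A at h1 ⊢
  generalize (2 : ℕ) ^ 2039 = B at h2 ⊢
  omega

lemma cen_onSide (a : Fin 4) : OnSide (cen a : Pt q) := by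
  have h0 : ∀ j, OnLine (cen (![0, 1] j.1) : Pt q) (crossSide j) := fun j => onLine_lineThru _ _
  have h2 : ∀ j, OnLine (cen (![2, 3] j.2) : Pt q) (crossSide j) := fun j => onLine_slopeTo _ _
  fin_cases a
  · exact Or.inr ⟨(0, 0), h0 (0, 0)⟩
  · exact Or.inr ⟨(1, 0), h0 (1, 0)⟩
  · exact Or.inr ⟨(0, 0), h2 (0, 0)⟩
  · exact Or.inr ⟨(0, 1), h2 (0, 1)⟩

lemma plain_ne_cen {p : Pt q} (h : Plain p) (a : Fin 4) : p ≠ cen a :=
  fun e => h.1 (e ▸ cen_onSide a)

lemma slopeTo_of_plain {p : Pt q} {l : Line q} (h : Plain p) {a : Fin 4}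
    (ha : OnLine (cen a) l) (hp : OnLine p l) : slopeTo (cen a) p = l.1 :=
  slopeTo_eq (plain_ne_cen h a) ha hp

lemma mem_plainPts {l : Line q} {p : Pt q} : p ∈ plainPts l ↔ Plain p ∧ OnLine p l := by
  simp [plainPts]

lemma plainPts_injOn {l : Line q} {a : Fin 4} (h : ¬ OnLine (cen a) l) :
    Set.InjOn (fun p => slopeTo (cen a) p) (plainPts l : Set (Pt q)) :=
  fun _p hp _p' hp' e => slopeTo_injOn h (mem_plainPts.1 hp).2 (mem_plainPts.1 hp').2 e

lemma card_plainPts_le (l : Line q) : (plainPts l).card ≤ q := by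
  conv_rhs => rw [← card_onLine l]
  exact card_le_card fun p hp => by simpa using (mem_plainPts.1 hp).2

lemma not_onLine_both {p : Pt q} {l : Line q} (hp : Plain p) (hpl : OnLine p l)
    (h0 : OnLine (cen 0) l) (h1 : OnLine (cen 1) l) : False := by
  have hne : (cen 1 : Pt q) ≠ cen 0 := by
    simp [cen]
  have : l = sameSide 0 :=
    line_eq_of_two hne h0 h1 (onLine_lineThru _ _) (onLine_slopeTo _ _)
  exact hp.1 (Or.inl ⟨0, this ▸ hpl⟩)

lemma card_bandPts_le {L : Fin 4 → Slope q → K × K} (hA : StageA L) {a : Fin 4} {l : Line q}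
    (ha : Role a l) (ξ : Option K × K) : (bandPts L a l ξ).card ≤ loadMax q K := by
  classical
  refine le_trans ?_ (hA.load (partner a) ξ)
  refine card_le_card_of_injOn (fun p => slopeTo (cen (partner a)) p) ?_ ?_
  · intro p hp
    simp only [bandPts, coe_filter, mem_plainPts, Set.mem_ofPred_eq] at hp
    simpa using hp.2
  · refine (plainPts_injOn (ha.2 _ (by fin_cases a <;> decide))).mono fun p hp => ?_
    exact (mem_filter.1 hp).1

omit [Fact q.Prime] [Field K] [DecidableEq K] in
lemma loadMax_le (hBig : Big q K) : loadMax q K ≤ 2 ^ 1016 := by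
  have h := hBig.hi
  have hm := hBig.card_eq
  have h1 : 3 * q / (2 * Fintype.card K) ≤ 3 * Fintype.card K / 1024 := by
    rw [Nat.le_div_iff_mul_le (by norm_num)]
    refine le_of_mul_le_mul_right ?_ (show 0 < 2 * Fintype.card K by rw [hm]; positivity)
    calc 3 * q / (2 * Fintype.card K) * 1024 * (2 * Fintype.card K)
        = 3 * q / (2 * Fintype.card K) * (2 * Fintype.card K) * 1024 := by ring
      _ ≤ 3 * q * 1024 := Nat.mul_le_mul_right _ (Nat.div_mul_le_self _ _)
      _ ≤ 3 * Fintype.card K * (2 * Fintype.card K) := by nlinarith [h]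
  have e : (2 : ℕ) ^ 1024 = 1024 * 2 ^ 1014 := (two_pow_split (a := 10) (b := 1014) rfl).trans (by norm_num)
  have e16 : (2 : ℕ) ^ 1016 = 8 * 2 ^ 1013 :=
    (two_pow_split (a := 3) (b := 1013) rfl).trans (by norm_num)
  have e14 : (2 : ℕ) ^ 1014 = 2 * 2 ^ 1013 := (two_pow_split (a := 1) (b := 1013) rfl).trans (by norm_num)
  have h24 : (2 : ℕ) ^ 24 ≤ 2 ^ 1013 := Nat.pow_le_pow_right (by norm_num) (by norm_num)
  have hk : (kap : ℕ) = 2 ^ 24 := rfl
  rw [hm, e, e14] at h1
  rw [loadMax, hm, e, e14, e16]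
  generalize (2 : ℕ) ^ 1013 = A at h1 h24 ⊢
  omega

/-- The direction after the repair. -/
noncomputable def repair (L : Fin 4 → Slope q → K × K) (ω : Slope q → K) (s : Slope q) : K :=
  if coset (ω s) (L 0 s) = coset (ω s) (L 1 s) then ω s + 1 else ω s

omit [Fact q.Prime] [Fintype K] in
lemma repair_ok {L : Fin 4 → Slope q → K × K} {ω : Slope q → K} {s : Slope q}
    (h : L 0 s ≠ L 1 s) :
    coset (repair L ω s) (L 0 s) ≠ coset (repair L ω s) (L 1 s) := by
  unfold repair
  split
  · next he =>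
      intro h'
      simp only [coset] at he h'
      have h1 : (L 0 s).1 = (L 1 s).1 := by linear_combination he - h'
      exact h (Prod.ext h1 (by rw [h1] at he; linear_combination he))
  · next he => exact he

omit [Fintype K] in
/-- A nontrivial coincidence holds in at most one direction. -/
lemma coset_dir_unique {x y : K × K} (h : x ≠ y) {d d' : K} (hd : coset d x = coset d y)
    (hd' : coset d' x = coset d' y) : d = d' := by
  simp only [coset] at hd hd'
  by_contra hne
  have h1 : (d - d') * (x.1 - y.1) = 0 := by linear_combination hd' - hd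
  rcases mul_eq_zero.1 h1 with h2 | h2
  · exact hne (sub_eq_zero.1 h2)
  · exact h (Prod.ext (sub_eq_zero.1 h2) (by linear_combination hd + d * h2))

/-- The tail for coincidences in distinct slopes. -/
lemma prob_coincidences {Y : Type*} [DecidableEq Y] (L : Fin 4 → Slope q → K × K)
    (Ys : Finset Y) (r : Y → Slope q) (hr : Set.InjOn r (Ys : Set Y)) (E : Y → K → Prop)
    (hE : ∀ y ∈ Ys, ∀ d d', E y d → E y d' → d = d') (k : ℕ)
    (hk : 16 * Ys.card ≤ k * Fintype.card K) :
    prob (α := fun _ : Slope q => K)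
      (fun ω => k ≤ (@Finset.filter Y (fun y => E y (repair L ω (r y))) (Classical.decPred _) Ys).card)
      ≤ (1 / 2 : ℝ) ^ k := by
  classical
  let φ : Slope q → K → K := fun s v => if coset v (L 0 s) = coset v (L 1 s) then v + 1 else v
  have hm : (0 : ℝ) < Fintype.card K := by exact_mod_cast Fintype.card_pos
  have hc : ∀ y ∈ Ys, CondLe (α := fun _ : Slope q => K) {r y}
      (ind fun ω => E y (repair L ω (r y))) ((2 : ℕ) / Fintype.card K) := by
    intro y hy
    refine condLe_coord (r y) _ 2 fun ω => ?_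
    have hrep : ∀ v, repair L (Function.update ω (r y) v) (r y) = φ (r y) v := fun v => by
      simp [repair, φ]
    simp only [hrep]
    by_cases h : ∃ v, E y (φ (r y) v)
    · obtain ⟨v, hv⟩ := h
      refine (Set.ncard_le_ncard (t := {φ (r y) v, φ (r y) v - 1}) ?_ (Set.toFinite _)).trans
        ((Set.ncard_insert_le _ _).trans (by simp))
      intro w hw
      have e := hE y hy _ _ hw hv
      simp only [Set.mem_insert_iff, Set.mem_singleton_iff, φ] at e ⊢
      split at e
      · right; rw [← e]; ring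
      · left; exact e
    · push Not at h
      simp [h]
  have hdep : ∀ y ∈ Ys, ∀ y' ∈ Ys, y ≠ y' →
      DependsOn (fun ω : Slope q → K => E y' (repair L ω (r y')))
        ((({r y} : Finset (Slope q)) : Set (Slope q))ᶜ) := by
    intro y hy y' hy' hne ω ω' h
    have : ω (r y') = ω' (r y') := h _ (by
      simp only [coe_singleton, Set.mem_compl_iff, Set.mem_singleton_iff]
      exact fun e => hne (hr hy hy' e.symm))
    simp only [repair, this]
  have h := prob_count_ge_le (α := fun _ : Slope q => K) Ys (fun y => {r y})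
    (fun y ω => E y (repair L ω (r y))) (fun _ => (2 : ℕ) / Fintype.card K)
    (2 * Ys.card / Fintype.card K) k (fun _ _ => by positivity)
    (by rw [Finset.sum_const, nsmul_eq_mul]; apply le_of_eq; push_cast; ring) hc hdep
  refine h.trans (pow_div_factorial_le_half (by positivity) ?_)
  rw [← mul_div_assoc, div_le_iff₀ hm, ← mul_assoc]
  norm_num
  exact_mod_cast hk

lemma sum_half_lt {J : Type*} [Fintype J] (f : J → ℝ) {a k : ℕ} (hJ : Fintype.card J ≤ 2 ^ a)
    (hk : a + 3 ≤ k) (hf : ∀ j, f j ≤ (1 / 2 : ℝ) ^ k) : ∑ j, f j ≤ 1 / 8 := by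
  calc ∑ j, f j ≤ ∑ _j : J, (1 / 2 : ℝ) ^ (a + 3) := Finset.sum_le_sum fun j _ =>
        (hf j).trans (pow_le_pow_of_le_one (by norm_num) (by norm_num) hk)
    _ = (Fintype.card J : ℝ) * (1 / 2 : ℝ) ^ (a + 3) := by simp
    _ ≤ (2 : ℝ) ^ a * (1 / 2 : ℝ) ^ (a + 3) := by gcongr; exact_mod_cast hJ
    _ = 1 / 8 := by rw [pow_add, ← mul_assoc, ← mul_pow]; norm_num

open Classical in
/-- Stage B: tag directions exist. -/
theorem exists_stageB (hBig : Big q K) {L : Fin 4 → Slope q → K × K} (hA : StageA L) :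
    ∃ dir, StageB L dir := by
  obtain ⟨hqlo, hqhi⟩ := big_q (h := hBig)
  have hm := hBig.card_eq
  have hload := loadMax_le hBig
  have h1016 : (2 : ℕ) ^ 1016 ≤ Fintype.card K := by
    rw [hm]; exact Nat.pow_le_pow_right (by norm_num) (by norm_num)
  -- the four families of events
  let Y₁ : Fin 4 × Line q × (Option K × K) → Finset (Pt q) := fun j =>
    if Role j.1 j.2.1 ∧ j.1 ≠ 1 then
      (bandPts L j.1 j.2.1 j.2.2).filter fun p =>
        ¬ IsSideSlope (row p) ∧ L 0 (col p) ≠ L 0 (row p)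
    else ∅
  let Y₂ : Line q → Finset (Pt q) := fun l =>
    if OnLine (cen 1) l then ∅ else
      (plainPts l).filter fun p => ¬ IsSideSlope (row p) ∧ L 0 (col p) ≠ L 0 (row p)
  let Y₃ : (K × K) × (K × K) → Finset (Slope q) := fun j =>
    univ.filter fun s => ¬ IsSideSlope s ∧ (L 0 s ≠ j.1 ∨ L 1 s ≠ j.2) ∧
      ∃ d, coset d (L 0 s) = coset d j.1 ∧ coset d (L 1 s) = coset d j.2
  let Y₄ : Slope q → Finset (Slope q) := fun t =>
    univ.filter fun s => ¬ IsSideSlope s ∧ L 0 t ≠ L 0 s
  let E₁ : Pt q → K → Prop := fun p d => coset d (L 0 (col p)) = coset d (L 0 (row p))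
  let E₃ : (K × K) × (K × K) → Slope q → K → Prop := fun j s d =>
    coset d (L 0 s) = coset d j.1 ∧ coset d (L 1 s) = coset d j.2
  let E₄ : Slope q → Slope q → K → Prop := fun t s d => coset d (L 0 t) = coset d (L 0 s)
  let B₁ : Fin 4 × Line q × (Option K × K) → (Slope q → K) → Prop := fun j ω =>
    kap + 1 ≤ ((Y₁ j).filter fun p => E₁ p (repair L ω (row p))).card
  let B₂ : Line q → (Slope q → K) → Prop := fun l ω =>
    Fintype.card K + 1 ≤ ((Y₂ l).filter fun p => E₁ p (repair L ω (row p))).card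
  let B₃ : (K × K) × (K × K) → (Slope q → K) → Prop := fun j ω =>
    kap + 1 ≤ ((Y₃ j).filter fun s => E₃ j s (repair L ω (id s))).card
  let B₄ : Slope q → (Slope q → K) → Prop := fun t ω =>
    Fintype.card K + 1 ≤ ((Y₄ t).filter fun s => E₄ t s (repair L ω (id s))).card
  have hinj : ∀ {l : Line q} {Ys : Finset (Pt q)}, Ys ⊆ plainPts l → ¬ OnLine (cen 1) l →
      Set.InjOn row (Ys : Set (Pt q)) := fun hs hl =>
    (plainPts_injOn hl).mono fun p hp => hs hp
  have hq2 : 16 * (q + 1) ≤ (Fintype.card K + 1) * Fintype.card K := by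
    have : 512 * q ≤ Fintype.card K ^ 2 := hBig.hi
    have hpos : 2 ^ 4 ≤ Fintype.card K := by
      rw [hm]; exact Nat.pow_le_pow_right (by norm_num) (by norm_num)
    norm_num at hpos
    generalize Fintype.card K = M at this hpos ⊢
    have h2 : M ^ 2 = M * M := sq M
    have h3 := Nat.mul_le_mul_right M hpos
    calc 16 * (q + 1) ≤ M * M + 16 := by omega
      _ ≤ M * M + M := by omega
      _ = (M + 1) * M := by ring
  have p₁ : ∀ j, prob (α := fun _ : Slope q => K) (B₁ j) ≤ (1 / 2 : ℝ) ^ (kap + 1) := by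
    intro j
    by_cases hj : Role j.1 j.2.1 ∧ j.1 ≠ 1
    · have hY : Y₁ j = (bandPts L j.1 j.2.1 j.2.2).filter fun p =>
          ¬ IsSideSlope (row p) ∧ L 0 (col p) ≠ L 0 (row p) := by simp only [Y₁, if_pos hj]
      refine le_of_eq_of_le ?_ (prob_coincidences L (Y₁ j) row
        (hinj (l := j.2.1) (fun p hp => ?_) (hj.1.2 1 (Ne.symm hj.2))) E₁ ?_ (kap + 1) ?_)
      · congr! 3; congr 1; ext y; simp
      · rw [hY] at hp; exact (mem_filter.1 (mem_filter.1 hp).1).1
      · intro p hp d d'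
        rw [hY] at hp
        exact coset_dir_unique (mem_filter.1 hp).2.2
      · have : (Y₁ j).card ≤ loadMax q K := by
          rw [hY]; exact (card_filter_le _ _).trans (card_bandPts_le hA hj.1 _)
        have h16 : 16 ≤ kap + 1 := by rw [kap]; norm_num
        exact Nat.mul_le_mul h16 (this.trans (hload.trans h1016))
    · refine le_trans (le_of_eq ?_) (prob_coincidences L (∅ : Finset (Pt q)) row (by simp) E₁
        (by simp) (kap + 1) (by simp))
      congr! 3
      simp [Y₁, hj]
  have p₂ : ∀ l, prob (α := fun _ : Slope q => K) (B₂ l) ≤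
      (1 / 2 : ℝ) ^ (Fintype.card K + 1) := by
    intro l
    by_cases hl : OnLine (cen 1) l
    · refine le_trans (le_of_eq ?_) (prob_coincidences L (∅ : Finset (Pt q)) row (by simp) E₁
        (by simp) (Fintype.card K + 1) (by simp))
      congr! 3
      simp [Y₂, hl]
    · have hY : Y₂ l = (plainPts l).filter fun p =>
          ¬ IsSideSlope (row p) ∧ L 0 (col p) ≠ L 0 (row p) := by simp only [Y₂, if_neg hl]
      refine le_of_eq_of_le ?_ (prob_coincidences L (Y₂ l) row
        (hinj (fun p hp => ?_) hl) E₁ ?_ (Fintype.card K + 1) ?_)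
      · congr! 3; congr 1; ext y; simp
      · rw [hY] at hp; exact (mem_filter.1 hp).1
      · intro p hp d d'
        rw [hY] at hp
        exact coset_dir_unique (mem_filter.1 hp).2.2
      · have : (Y₂ l).card ≤ q := by
          rw [hY]; exact (card_filter_le _ _).trans (card_plainPts_le l)
        omega
  have p₃ : ∀ j, prob (α := fun _ : Slope q => K) (B₃ j) ≤ (1 / 2 : ℝ) ^ (kap + 1) := by
    intro j
    refine le_of_eq_of_le ?_ (prob_coincidences L (Y₃ j) id (Set.injOn_id _) (E₃ j) ?_ (kap + 1) ?_)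
    · congr! 3; congr 1; ext y; simp
    · intro s hs d d' hd hd'
      rcases (mem_filter.1 hs).2.2.1 with h | h
      · exact coset_dir_unique h hd.1 hd'.1
      · exact coset_dir_unique h hd.2 hd'.2
    · have : (Y₃ j).card ≤ 2 ^ 16 * Fintype.card K := by
        refine le_trans (card_le_card fun s hs => ?_) (hA.star01 j.1 j.2)
        rw [mem_filter] at hs ⊢
        exact ⟨hs.1, hs.2.1, hs.2.2.2⟩
      calc 16 * (Y₃ j).card ≤ 2 ^ 20 * Fintype.card K := by omega
        _ ≤ (kap + 1) * Fintype.card K := Nat.mul_le_mul_right _ (by rw [kap]; norm_num)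
  have p₄ : ∀ t, prob (α := fun _ : Slope q => K) (B₄ t) ≤
      (1 / 2 : ℝ) ^ (Fintype.card K + 1) := by
    intro t
    refine le_of_eq_of_le ?_ (prob_coincidences L (Y₄ t) id (Set.injOn_id _) (E₄ t) ?_
      (Fintype.card K + 1) ?_)
    · congr! 3; congr 1; ext y; simp
    · intro s hs d d' hd hd'
      exact coset_dir_unique (mem_filter.1 hs).2.2 hd hd'
    · have : (Y₄ t).card ≤ q + 1 := (card_filter_le _ _).trans (by rw [card_univ, card_slope])
      omega
  let Bad := Sum.elim (Sum.elim B₁ B₂) (Sum.elim B₃ B₄)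
  have hsl : Fintype.card (Slope q) ≤ 2 ^ 2040 := by
    rw [card_slope]
    rw [show (2 : ℕ) ^ 2040 = 2 ^ 2039 * 2 from by rw [two_pow_split (a := 2039) (b := 1) rfl, pow_one]]
    have h1 := Nat.one_le_two_pow (n := 2039)
    generalize (2 : ℕ) ^ 2039 = A at hqhi h1 ⊢
    omega
  have hline : Fintype.card (Line q) ≤ 2 ^ 4080 := by
    rw [Fintype.card_prod, ZMod.card, show (4080 : ℕ) = 2040 + 2040 from rfl, pow_add]
    exact Nat.mul_le_mul hsl (hqhi.trans (Nat.pow_le_pow_right (by norm_num) (by norm_num)))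
  have hlt : ∑ j, prob (α := fun _ : Slope q => K) (Bad j) < 1 := by
    simp only [Bad, Fintype.sum_sum_type, Sum.elim_inl, Sum.elim_inr]
    have hbig : 9000 ≤ kap := by rw [kap]; norm_num
    have hkm : kap ≤ Fintype.card K := by
      rw [hm, kap]; exact Nat.pow_le_pow_right (by norm_num) (by norm_num)
    have s₁ := sum_half_lt _ (a := 8000) (k := kap + 1) ?_ (by omega) p₁
    have s₂ := sum_half_lt _ (a := 8000) (k := Fintype.card K + 1) ?_ (by omega) p₂
    have s₃ := sum_half_lt _ (a := 8000) (k := kap + 1) ?_ (by omega) p₃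
    have s₄ := sum_half_lt _ (a := 8000) (k := Fintype.card K + 1) ?_ (by omega) p₄
    · linarith
    · exact hsl.trans (Nat.pow_le_pow_right (by norm_num) (by norm_num))
    · simp only [Fintype.card_prod, hm, ← pow_add]
      exact Nat.pow_le_pow_right (by norm_num) (by norm_num)
    · exact hline.trans (Nat.pow_le_pow_right (by norm_num) (by norm_num))
    · rw [Fintype.card_prod, Fintype.card_fin, Fintype.card_prod (Line q),
        Fintype.card_prod (Option K), Fintype.card_option, hm]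
      have e : (2 : ℕ) ^ 1024 + 1 ≤ 2 ^ 1025 := by
        rw [pow_succ]; have := Nat.one_le_two_pow (n := 1024); generalize (2:ℕ) ^ 1024 = A at this ⊢; omega
      calc 4 * (Fintype.card (Line q) * ((2 ^ 1024 + 1) * 2 ^ 1024))
          ≤ 2 ^ 2 * (2 ^ 4080 * (2 ^ 1025 * 2 ^ 1024)) := by gcongr; norm_num
        _ = 2 ^ (2 + (4080 + (1025 + 1024))) := by rw [← pow_add, ← pow_add, ← pow_add]
        _ ≤ 2 ^ 8000 := Nat.pow_le_pow_right (by norm_num) (by norm_num)
  obtain ⟨ω, hω⟩ := exists_forall_not univ Bad hlt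
  refine ⟨repair L ω, fun s hs => repair_ok (hA.ne01 s hs), ?_, ?_, ?_, ?_⟩
  · intro a l ξ ha ha1
    have h := hω (.inl (.inl (a, l, ξ))) (mem_univ _)
    simp only [Bad, Sum.elim_inl, B₁, Y₁, if_pos (And.intro ha ha1), not_le] at h
    have h' := hA.same_band a l ξ ha ha1
    refine le_trans (card_le_card fun p hp => ?_)
      ((card_union_le _ _).trans (Nat.le_trans (Nat.add_le_add h' (Nat.le_of_lt_succ h))
        (le_of_eq (two_mul _).symm)))
    rw [mem_filter] at hp
    by_cases hsame : L 0 (col p) = L 0 (row p)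
    · exact mem_union_left _ (mem_filter.2 ⟨hp.1, hsame⟩)
    · exact mem_union_right _ (mem_filter.2 ⟨mem_filter.2 ⟨hp.1, hp.2.1, hsame⟩, hp.2.2⟩)
  · intro l
    by_cases hl : OnLine (cen 1) l
    · refine le_trans ?_ (hload.trans (h1016.trans (by omega)))
      refine le_trans (le_trans ?_ (hA.load 0 (some (repair L ω l.1),
        coset (repair L ω l.1) (L 0 l.1)))) le_rfl
      refine card_le_card_of_injOn col ?_ ?_
      · intro p hp
        simp only [coe_filter, mem_plainPts, Set.mem_ofPred_eq, InTag] at hp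
        rw [show row p = l.1 from slopeTo_of_plain hp.1.1 hl hp.1.2] at hp
        exact Finset.mem_coe.2 (mem_filter.2 ⟨mem_univ _, hp.2.2⟩)
      · intro p hp p' hp'
        have hp1 := mem_plainPts.1 (mem_filter.1 hp).1
        by_cases h0 : OnLine (cen 0) l
        · exact (not_onLine_both hp1.1 hp1.2 h0 hl).elim
        · exact plainPts_injOn h0 (mem_filter.1 hp).1 (mem_filter.1 hp').1
    · have h := hω (.inl (.inr l)) (mem_univ _)
      simp only [Bad, Sum.elim_inl, Sum.elim_inr, B₂, Y₂, if_neg hl, not_le] at h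
      have h' := hA.same_line l hl
      refine le_trans (card_le_card fun p hp => ?_)
        ((card_union_le _ _).trans (Nat.le_trans (Nat.add_le_add h' (Nat.le_of_lt_succ h))
          (by omega)))
      rw [mem_filter] at hp
      by_cases hsame : L 0 (col p) = L 0 (row p)
      · exact mem_union_left _ (mem_filter.2 ⟨hp.1, hsame⟩)
      · exact mem_union_right _ (mem_filter.2 ⟨mem_filter.2 ⟨hp.1, hp.2.1, hsame⟩, hp.2.2⟩)
  · intro u v
    have h := hω (.inr (.inl (u, v))) (mem_univ _)
    simp only [Bad, Sum.elim_inl, Sum.elim_inr, B₃, Y₃, id, not_le] at h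
    have h' : (univ.filter fun s : Slope q => L 0 s = u ∧ L 1 s = v).card ≤ kap :=
      le_trans (card_le_card fun s hs => by simp at hs ⊢; exact hs.1) (hA.mult 0 u)
    refine le_trans (card_le_card fun s hs => ?_)
      ((card_union_le _ _).trans (Nat.le_trans (Nat.add_le_add h' (Nat.le_of_lt_succ h))
        (le_of_eq (two_mul _).symm)))
    rw [mem_filter] at hs
    by_cases hsame : L 0 s = u ∧ L 1 s = v
    · exact mem_union_left _ (mem_filter.2 ⟨hs.1, hsame⟩)
    · refine mem_union_right _ (mem_filter.2 ⟨mem_filter.2 ⟨hs.1, hs.2.1, ?_, _, hs.2.2⟩, hs.2.2⟩)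
      exact not_and_or.1 hsame
  · intro t
    have h := hω (.inr (.inr t)) (mem_univ _)
    simp only [Bad, Sum.elim_inr, B₄, Y₄, id, not_le] at h
    refine le_trans (card_le_card fun s hs => ?_) (Nat.le_of_lt_succ h)
    rw [mem_filter] at hs
    exact mem_filter.2 ⟨mem_filter.2 ⟨hs.1, hs.2.1, hs.2.2.2⟩, hs.2.2.1⟩

end Vale.Agent.P045
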