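import Mathlib
import Vale.Agent.P045.Assembly
import Vale.Agent.P045.StageB
import Vale.Agent.P045.ExistsSizes

/-!
# P045: existence of good data
-/

namespace Vale.Agent.P045

open Finset

/-- Stage C as a statement. -/
def StageCExists (q : ℕ) [Fact q.Prime] (K : Type) [Field K] [Fintype K] [DecidableEq K] : Prop :=
  ∀ (D : Data q K), Big q K → StageA D.L → StageB D.L D.dir →
    (∀ s : Slope q, ¬ IsSideSlope s → q ≤ 128 * Fintype.card K * (D.tagCand s).card) →
    ∃ Z, StageC (D.withZ Z)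

/-- Data with all properties exist, once layouts and tagged columns exist. -/
theorem exists_good_of
    (hlay : ∀ (q : ℕ) [Fact q.Prime] (K : Type) [Field K] [Fintype K] [DecidableEq K] [CharP K 2],
      2 ^ 60 ≤ Fintype.card K → Fintype.card K ^ 2 ≤ 1024 * q → LayoutExists q K)
    (hC : ∀ (q : ℕ) [Fact q.Prime] (K : Type) [Field K] [Fintype K] [DecidableEq K],
      StageCExists q K) :
    ∃ (q : ℕ) (_ : Fact q.Prime) (K : Type) (_ : Field K) (_ : Fintype K) (_ : DecidableEq K)
      (D : Data q K) (T κ g Dl err kk : ℕ),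
      Good D T κ g Dl err ∧ Sizes q (Fintype.card K) T κ g Dl err kk := by
  obtain ⟨q, hp, hlo, hhi⟩ := Nat.exists_prime_lt_and_le_two_mul (2 ^ 2038)
    (pow_ne_zero _ two_ne_zero)
  have hq : Fact q.Prime := ⟨hp⟩
  have hK2 : Fact (Nat.Prime 2) := ⟨Nat.prime_two⟩
  let K := GaloisField 2 1024
  let iFin : Fintype K := Fintype.ofFinite K
  let iDec : DecidableEq K := Classical.decEq K
  have hcard : Fintype.card K = 2 ^ 1024 := by
    rw [← Nat.card_eq_fintype_card]
    exact GaloisField.card 2 1024 (by norm_num)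
  have hB : Big q K := by
    refine ⟨hcard, ?_, ?_⟩
    · rw [hcard, ← pow_mul, show 1024 * 2 = 10 + 2038 by norm_num, pow_add]
      exact Nat.mul_le_mul (le_of_eq (by norm_num)) hlo.le
    · rw [hcard, ← pow_mul]
      refine (Nat.mul_le_mul_left 512 hhi).trans (le_of_eq ?_)
      rw [show (512 : ℕ) = 2 ^ 9 by norm_num, ← pow_succ', ← pow_add]
  obtain ⟨Λ, hΛ⟩ := hlay q K hB.m_large hB.lo
  obtain ⟨ω, hω⟩ := exists_labelsOK hΛ hB
  have hA := hω.stageA hB
  obtain ⟨dir, hdir⟩ := exists_stageB hB hA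
  obtain ⟨Z, hZ⟩ := hC q K (Λ.toData ω dir fun _ => ∅) hB hA hdir
    fun s hs => tagCand_low hΛ hB hω dir _ hs
  refine ⟨q, hq, K, inferInstance, iFin, iDec, Λ.toData ω dir Z, loadMax q K, kap,
    q / (128 * Fintype.card K), 2 ^ 64 * Fintype.card K, 2 ^ 64 * Fintype.card K, 2 ^ 82,
    good_of_stages hΛ hB hω hdir hZ, ?_⟩
  refine sizes_of_bounds ?_ hB.lo hB.hi
  rw [hcard]
  exact Nat.pow_le_pow_right (by norm_num) (by norm_num)

end Vale.Agent.P045
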