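import Mathlib
import Vale.Agent.P045.Geom
import Vale.Agent.P045.Layout

/-!
# P045: the invariant `key` of four concurrent lines

`key a t` is `8 (ρ² + ρ + 1) ^ 3 / (ρ (ρ + 1)) ^ 2` for a coordinate `ρ` of the slope `t`: its
fibres have six elements, except over `0` (two) and `54` (three).
-/

namespace Vale.Agent.P045

open Finset

variable {q : ℕ} [Fact q.Prime]

/-- The invariant of a triple with sum zero. -/
def keyTri (t : ZMod q × ZMod q × ZMod q) : Option (ZMod q) :=
  if t.1 * t.2.1 * t.2.2 = 0 then none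
  else some ((t.1 ^ 2 + t.2.1 ^ 2 + t.2.2 ^ 2) ^ 3 / (t.1 * t.2.1 * t.2.2) ^ 2)

/-- The vector from centre `a` to the `i`-th other centre. -/
def toOther (a : Fin 4) : Fin 3 → Pt q :=
  ![cen (otherCen a).1 - cen a, cen (otherCen a).2.1 - cen a, cen (otherCen a).2.2 - cen a]

/-- The determinant of the two other vectors. -/
def coDet (a : Fin 4) (i : Fin 3) : ZMod q := det2 (toOther a (i + 1)) (toOther a (i + 2))

/-- The three coordinates of a vector at centre `a`. -/
def triVec (a : Fin 4) (u : Pt q) : ZMod q × ZMod q × ZMod q :=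
  (det2 u (toOther a 0) * coDet a 0, det2 u (toOther a 1) * coDet a 1,
    det2 u (toOther a 2) * coDet a 2)

theorem key_eq_tri (a : Fin 4) (t : Slope q) : key a t = keyTri (triVec a (dirVec t)) := rfl

theorem det2_smul_left (c : ZMod q) (u v : Pt q) : det2 (c • u) v = c * det2 u v := by
  simp [det2]; ring

theorem triVec_smul (a : Fin 4) (c : ZMod q) (u : Pt q) : triVec a (c • u) = c • triVec a u := by
  simp [triVec, det2_smul_left, mul_assoc]

theorem triVec_sum (a : Fin 4) (u : Pt q) :
    (triVec a u).1 + (triVec a u).2.1 + (triVec a u).2.2 = 0 := by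
  have h10 : (1 : Fin 3) + 1 = 2 := rfl
  have h12 : (1 : Fin 3) + 2 = 0 := rfl
  have h21 : (2 : Fin 3) + 1 = 0 := rfl
  have h22 : (2 : Fin 3) + 2 = 1 := rfl
  simp only [triVec, coDet, zero_add, h10, h12, h21, h22, det2]
  ring

theorem keyTri_smul {c : ZMod q} (hc : c ≠ 0) (t : ZMod q × ZMod q × ZMod q) :
    keyTri (c • t) = keyTri t := by
  obtain ⟨x, y, z⟩ := t
  simp only [keyTri, Prod.smul_mk, smul_eq_mul]
  rw [show c * x * (c * y) * (c * z) = c ^ 3 * (x * y * z) by ring]
  by_cases h : x * y * z = 0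
  · simp [h]
  · rw [if_neg h, if_neg (mul_ne_zero (pow_ne_zero 3 hc) h),
      show ((c * x) ^ 2 + (c * y) ^ 2 + (c * z) ^ 2) ^ 3
        = c ^ 6 * (x ^ 2 + y ^ 2 + z ^ 2) ^ 3 by ring,
      show (c ^ 3 * (x * y * z)) ^ 2 = c ^ 6 * (x * y * z) ^ 2 by ring,
      mul_div_mul_left _ _ (pow_ne_zero 6 hc)]

theorem keyTri_perm {x y z x' y' z' : ZMod q} (hp : x * y * z = x' * y' * z')
    (hs : x ^ 2 + y ^ 2 + z ^ 2 = x' ^ 2 + y' ^ 2 + z' ^ 2) :
    keyTri (x, y, z) = keyTri (x', y', z') := by
  simp only [keyTri, hp, hs]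

/-- A vector is a multiple of the vector of its slope. -/
theorem exists_smul_dirVec {O P : Pt q} (h : P ≠ O) :
    ∃ c : ZMod q, c ≠ 0 ∧ P - O = c • dirVec (slopeTo O P) := by
  unfold slopeTo
  split
  · next hx =>
      refine ⟨P.2 - O.2, sub_ne_zero.2 fun hy => h (Prod.ext hx hy), ?_⟩
      simp [dirVec, Prod.ext_iff, hx]
  · next hx =>
      refine ⟨P.1 - O.1, sub_ne_zero.2 hx, ?_⟩
      have := mul_div_cancel₀ (P.2 - O.2) (sub_ne_zero.2 hx)
      simp [dirVec, Prod.ext_iff, this]

/-- The key of the line from a centre to a point. -/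
theorem key_slopeTo (a : Fin 4) {P : Pt q} (h : P ≠ cen a) :
    key a (slopeTo (cen a) P) = keyTri (triVec a (P - cen a)) := by
  obtain ⟨c, hc, e⟩ := exists_smul_dirVec h
  rw [e, triVec_smul, keyTri_smul hc, key_eq_tri]

theorem dirVec_det_eq_zero {t t' : Slope q} (h : det2 (dirVec t) (dirVec t') = 0) : t = t' := by
  rcases t with _ | a <;> rcases t' with _ | b <;> simp [det2, dirVec] at h ⊢
  linear_combination -h

theorem slope_eq_of_det {v : Pt q} (hv : v ≠ 0) {t t' : Slope q} (h : det2 (dirVec t) v = 0)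
    (h' : det2 (dirVec t') v = 0) : t = t' := by
  refine dirVec_det_eq_zero ?_
  simp only [det2] at h h' ⊢
  rcases eq_or_ne v.1 0 with h1 | h1
  · have h2 : v.2 ≠ 0 := fun h2 => hv (Prod.ext h1 h2)
    refine mul_left_cancel₀ h2 ?_
    linear_combination (dirVec t').2 * h - (dirVec t).2 * h'
  · refine mul_left_cancel₀ h1 ?_
    linear_combination (dirVec t').1 * h - (dirVec t).1 * h'

/-- Integer version of `toOther`. -/
def toOtherInt (a : Fin 4) : Fin 3 → ℤ × ℤ :=
  ![(![(-1, 0), (1, 0), (3, 1), (-3, -1)] : Fin 4 → ℤ × ℤ) a,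
    (![(-2, -2), (-1, -2), (2, 2), (-1, 1)] : Fin 4 → ℤ × ℤ) a,
    (![(1, -1), (2, -1), (1, 2), (-2, 1)] : Fin 4 → ℤ × ℤ) a]

theorem toOther_eq_int (a : Fin 4) (i : Fin 3) :
    toOther (q := q) a i = (((toOtherInt a i).1 : ZMod q), ((toOtherInt a i).2 : ZMod q)) := by
  fin_cases a <;> fin_cases i <;>
    simp [toOther, toOtherInt, otherCen, cen, Prod.ext_iff] <;> norm_num

variable (hq : 1000 ≤ q)
include hq

theorem coDet_ne_zero (a : Fin 4) (i : Fin 3) : coDet (q := q) a i ≠ 0 := by
  have T : ∀ a i, (toOtherInt a (i + 1)).1 * (toOtherInt a (i + 2)).2 -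
      (toOtherInt a (i + 1)).2 * (toOtherInt a (i + 2)).1 ≠ 0 ∧
      ((toOtherInt a (i + 1)).1 * (toOtherInt a (i + 2)).2 -
      (toOtherInt a (i + 1)).2 * (toOtherInt a (i + 2)).1).natAbs < 1000 := by decide
  rw [coDet, toOther_eq_int, toOther_eq_int, det2]
  have := intCast_ne_zero (q := q) hq (T a i).1 (T a i).2
  push_cast at this
  exact this

theorem toOther_ne_zero (a : Fin 4) (i : Fin 3) : toOther (q := q) a i ≠ 0 := by
  intro h
  apply coDet_ne_zero hq a (i - 1)
  rw [coDet, sub_add_cancel, h]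
  simp [det2]

/-- Every ratio of coordinates is taken. -/
theorem exists_slope_of_ratio (a : Fin 4) (X Z : ZMod q) (h : X ≠ 0 ∨ Z ≠ 0) :
    ∃ t : Slope q, ∃ c : ZMod q, c ≠ 0 ∧ triVec a (dirVec t) = c • (X, -X - Z, Z) := by
  have h0 := coDet_ne_zero hq a 0
  have h2 := coDet_ne_zero hq a 2
  have hD : det2 (toOther (q := q) a 2) (toOther a 0) ≠ 0 := by
    have := coDet_ne_zero hq a 1
    exact this
  set u := (Z / (-det2 (toOther a 2) (toOther a 0) * coDet a 2)) • toOther (q := q) a 0 +
    (X / (det2 (toOther a 2) (toOther a 0) * coDet a 0)) • toOther a 2 with hu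
  have hcomb : ∀ (α β : ZMod q) (v w : Pt q),
      det2 (α • v + β • w) v = β * det2 w v ∧ det2 (α • v + β • w) w = -α * det2 w v := by
    intro α β v w
    constructor <;> simp [det2] <;> ring
  have hX : det2 u (toOther a 0) * coDet a 0 = X := by
    rw [hu, (hcomb _ _ _ _).1]
    field_simp
  have hZ : det2 u (toOther a 2) * coDet a 2 = Z := by
    rw [hu, (hcomb _ _ _ _).2]
    field_simp
  have htri : triVec a u = (X, -X - Z, Z) := by
    have hs := triVec_sum a u
    simp only [triVec] at hs
    rw [hX, hZ] at hs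
    simp only [triVec]
    rw [hX, hZ, show det2 u (toOther a 1) * coDet a 1 = -X - Z by linear_combination hs]
  have hu0 : u ≠ 0 := by
    intro h0'
    rw [h0'] at hX hZ
    simp [det2] at hX hZ
    rcases h with h | h
    · exact h hX.symm
    · exact h hZ.symm
  obtain ⟨c, hc, e⟩ := exists_smul_dirVec hu0
  refine ⟨slopeTo 0 u, c⁻¹, inv_ne_zero hc, ?_⟩
  rw [sub_zero] at e
  rw [← htri, ← triVec_smul]
  congr 1
  conv_rhs => rw [e]
  rw [inv_smul_smul₀ hc]

/-- The ratio determines the slope. -/
theorem slope_eq_of_ratio (a : Fin 4) {t t' : Slope q}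
    (h : (triVec a (dirVec t)).1 * (triVec a (dirVec t')).2.2 =
      (triVec a (dirVec t')).1 * (triVec a (dirVec t)).2.2) : t = t' := by
  refine dirVec_det_eq_zero ?_
  have h1 : coDet (q := q) a 1 * coDet a 0 * coDet a 2 ≠ 0 :=
    mul_ne_zero (mul_ne_zero (coDet_ne_zero hq a 1) (coDet_ne_zero hq a 0))
      (coDet_ne_zero hq a 2)
  refine mul_left_cancel₀ h1 ?_
  have h12 : (1 : Fin 3) + 2 = 0 := rfl
  have h10 : (1 : Fin 3) + 1 = 2 := rfl
  simp only [triVec] at h
  simp only [coDet, h12, h10, det2] at h ⊢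
  linear_combination -h

theorem key_eq_none_iff (a : Fin 4) (t : Slope q) :
    key a t = none ↔ ∃ i, det2 (dirVec t) (toOther a i) = 0 := by
  rw [key_eq_tri, keyTri]
  split_ifs with h'
  · simp only [triVec] at h'
    refine iff_of_true rfl ?_
    rcases mul_eq_zero.1 h' with h'' | h''
    · rcases mul_eq_zero.1 h'' with h3 | h3
      · exact ⟨0, (mul_eq_zero.1 h3).resolve_right (coDet_ne_zero hq a 0)⟩
      · exact ⟨1, (mul_eq_zero.1 h3).resolve_right (coDet_ne_zero hq a 1)⟩
    · exact ⟨2, (mul_eq_zero.1 h'').resolve_right (coDet_ne_zero hq a 2)⟩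
  · refine iff_of_false (by simp) ?_
    rintro ⟨i, hi⟩
    apply h'
    simp only [triVec]
    fin_cases i <;> simp at hi <;> simp [hi]

/-- At most six slopes have a given key. -/
theorem key_fibre_le (a : Fin 4) (k : Option (ZMod q)) :
    (univ.filter fun t : Slope q => key a t = k).card ≤ 6 := by
  classical
  rcases k with _ | k
  · calc (univ.filter fun t : Slope q => key a t = none).card
        ≤ (univ.biUnion fun i : Fin 3 =>
            univ.filter fun t : Slope q => det2 (dirVec t) (toOther a i) = 0).card :=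
          card_le_card fun t ht => by simpa using (key_eq_none_iff hq a t).1 (mem_filter.1 ht).2
      _ ≤ ∑ i : Fin 3, 1 := card_biUnion_le.trans (sum_le_sum fun i _ =>
          card_le_one.2 fun t ht t' ht' => slope_eq_of_det (toOther_ne_zero hq a i)
            (mem_filter.1 ht).2 (mem_filter.1 ht').2)
      _ ≤ 6 := by simp
  · open Polynomial in
    set P : (ZMod q)[X] := C 8 * (X ^ 2 + X + 1) ^ 3 - C k * (X ^ 2 * (1 + X) ^ 2) with hP
    have h8 : (8 : ZMod q) ≠ 0 := by
      simpa using intCast_ne_zero (z := 8) hq (by decide) (by decide)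
    have hP0 : P ≠ 0 := fun h => h8 (by
      have := congrArg (Polynomial.eval 0) h
      simpa [hP] using this)
    have hdeg : P.natDegree ≤ 6 := by
      refine (Polynomial.natDegree_sub_le _ _).trans (max_le ?_ ?_) <;>
        refine Polynomial.natDegree_mul_le.trans ?_ <;> rw [Polynomial.natDegree_C, zero_add]
      · exact Polynomial.natDegree_pow_le.trans (Nat.mul_le_mul_left 3
          (show ((Polynomial.X : (ZMod q)[X]) ^ 2 + Polynomial.X + 1).natDegree ≤ 2 by compute_degree))
      · refine Polynomial.natDegree_mul_le.trans ((Nat.add_le_add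
          (show ((Polynomial.X : (ZMod q)[X]) ^ 2).natDegree ≤ 2 by compute_degree)
          (Polynomial.natDegree_pow_le.trans (Nat.mul_le_mul_left 2
            (show (1 + Polynomial.X : (ZMod q)[X]).natDegree ≤ 1 by compute_degree)))).trans
          (by norm_num))
    refine (card_le_card_of_injOn
      (fun t => (triVec a (dirVec t)).1 / (triVec a (dirVec t)).2.2) ?_ ?_).trans
      (b := P.roots.toFinset.card)
      ((Multiset.toFinset_card_le _).trans ((Polynomial.card_roots' P).trans hdeg))
    · intro t ht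
      have hk := (mem_filter.1 ht).2
      rw [key_eq_tri] at hk
      simp only [mem_coe, Multiset.mem_toFinset, Polynomial.mem_roots hP0]
      have hs := triVec_sum a (dirVec t)
      generalize triVec a (dirVec t) = T at hk hs ⊢
      obtain ⟨x, y, z⟩ := T
      simp only [keyTri] at hk hs ⊢
      split_ifs at hk with h
      simp only [mul_eq_zero, not_or] at h
      simp only [Option.some.injEq] at hk
      simp only [Polynomial.IsRoot.def, hP, Polynomial.eval_sub, Polynomial.eval_mul, Polynomial.eval_C, Polynomial.eval_pow,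
        Polynomial.eval_add, Polynomial.eval_X, Polynomial.eval_one]
      obtain rfl : y = -x - z := by linear_combination hs
      rw [← hk]
      obtain ⟨⟨hx, hy⟩, hz⟩ := h
      field_simp
      ring
    · intro t ht t' ht' h
      have hk := (mem_filter.1 ht).2
      have hk' := (mem_filter.1 ht').2
      rw [key_eq_tri, keyTri] at hk hk'
      split_ifs at hk hk' with h1 h2
      simp only [mul_eq_zero, not_or] at h1 h2
      exact slope_eq_of_ratio hq a (by rwa [← div_eq_div_iff h1.2 h2.2])

/-- Size of a key fibre from below. -/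
theorem key_fibre_ge (a : Fin 4) {t₀ : Slope q} {k : ZMod q} (h : key a t₀ = some k) :
    (k ≠ 0 → k ≠ 54 → 6 ≤ (univ.filter fun t : Slope q => key a t = some k).card) ∧
    (k = 54 → 3 ≤ (univ.filter fun t : Slope q => key a t = some k).card) ∧
    2 ≤ (univ.filter fun t : Slope q => key a t = some k).card := by
  classical
  have h' := h
  rw [key_eq_tri] at h'
  have hs := triVec_sum a (dirVec t₀)
  generalize triVec a (dirVec t₀) = T at h' hs
  obtain ⟨x, y, z⟩ := T
  simp only at hs
  obtain rfl : y = -x - z := by linear_combination hs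
  simp only [keyTri] at h'
  split_ifs at h' with hP
  simp only [Option.some.injEq] at h'
  simp only [mul_eq_zero, not_or] at hP
  obtain ⟨⟨hx, hy⟩, hz⟩ := hP
  have h2 : (2 : ZMod q) ≠ 0 := by simpa using intCast_ne_zero (z := 2) hq (by decide) (by decide)
  have h3 : (3 : ZMod q) ≠ 0 := by simpa using intCast_ne_zero (z := 3) hq (by decide) (by decide)
  have heq : k * (x * (-x - z) * z) ^ 2 = 8 * (x ^ 2 + x * z + z ^ 2) ^ 3 := by
    rw [← h', div_mul_cancel₀ _ (pow_ne_zero 2 (mul_ne_zero (mul_ne_zero hx hy) hz))]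
    ring
  let pr : Fin 6 → ZMod q × ZMod q :=
    ![(x, z), (z, x), (-x - z, x), (z, -x - z), (x, -x - z), (-x - z, z)]
  have hex : ∀ i, ∃ t, key a t = some k ∧ ∃ c : ZMod q, c ≠ 0 ∧
      triVec a (dirVec t) = c • ((pr i).1, -(pr i).1 - (pr i).2, (pr i).2) := by
    intro i
    obtain ⟨t, c, hc, e⟩ := exists_slope_of_ratio hq a (pr i).1 (pr i).2
      (.inl (by fin_cases i <;> simp [pr, hx, hz, hy]))
    refine ⟨t, ?_, c, hc, e⟩
    rw [key_eq_tri, e, keyTri_smul hc]
    have : keyTri ((pr i).1, -(pr i).1 - (pr i).2, (pr i).2) = keyTri (x, -x - z, z) := by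
      refine keyTri_perm ?_ ?_ <;> fin_cases i <;>
        simp [pr, -mul_eq_mul_left_iff, -mul_eq_mul_right_iff] <;> ring
    rw [this, keyTri, if_neg (mul_ne_zero (mul_ne_zero hx hy) hz), h']
  choose t ht c hc e using hex
  have hdist : ∀ i j, (pr i).1 * (pr j).2 - (pr j).1 * (pr i).2 ≠ 0 → t i ≠ t j := by
    intro i j hij hteq
    apply hij
    have e1 := e i
    rw [hteq, e j] at e1
    simp only [Prod.smul_mk, smul_eq_mul, Prod.mk.injEq] at e1
    refine mul_left_cancel₀ (hc i) ?_
    linear_combination -((pr j).2) * e1.1 + (pr j).1 * e1.2.2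
  have hmem : ∀ i, t i ∈ univ.filter fun t : Slope q => key a t = some k :=
    fun i => mem_filter.2 ⟨mem_univ _, ht i⟩
  refine ⟨fun hk0 hk54 => ?_, fun hk54 => ?_, ?_⟩
  · have n4 : x ^ 2 + x * z + z ^ 2 ≠ 0 := fun h0 => by
      rw [h0] at heq
      simp [hk0, hx, hy, hz] at heq
    have n1 : (x - z) * (-x - z) ≠ 0 := mul_ne_zero (fun h0 => hk54 (by
      obtain rfl : x = z := sub_eq_zero.1 h0
      refine mul_right_cancel₀ (pow_ne_zero 2 (mul_ne_zero (mul_ne_zero hx hy) hz)) ?_
      linear_combination heq)) hy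
    have n2 : (-x - z - z) * x ≠ 0 := mul_ne_zero (fun h0 => hk54 (by
      obtain rfl : x = -2 * z := by linear_combination -h0
      refine mul_right_cancel₀ (pow_ne_zero 2 (mul_ne_zero (mul_ne_zero hx hy) hz)) ?_
      linear_combination heq)) hx
    have n3 : (x - (-x - z)) * z ≠ 0 := mul_ne_zero (fun h0 => hk54 (by
      obtain rfl : z = -2 * x := by linear_combination h0
      refine mul_right_cancel₀ (pow_ne_zero 2 (mul_ne_zero (mul_ne_zero hx hy) hz)) ?_
      linear_combination heq)) hz
    have hne : ∀ i j, i < j → (pr i).1 * (pr j).2 - (pr j).1 * (pr i).2 ≠ 0 := by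
      intro i j hij h0
      fin_cases i <;> fin_cases j <;> simp [pr] at hij h0 <;>
        first
        | exact n1 (by linear_combination h0)
        | exact n1 (by linear_combination -h0)
        | exact n2 (by linear_combination h0)
        | exact n2 (by linear_combination -h0)
        | exact n3 (by linear_combination h0)
        | exact n3 (by linear_combination -h0)
        | exact n4 (by linear_combination h0)
        | exact n4 (by linear_combination -h0)
    have hinj : Function.Injective t := fun i j hij => by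
      by_contra hn
      rcases lt_or_gt_of_ne hn with hl | hl
      · exact hdist i j (hne i j hl) hij
      · exact hdist j i (hne j i hl) hij.symm
    simpa using card_le_card_of_injOn (s := (univ : Finset (Fin 6))) t (fun i _ => hmem i)
      hinj.injOn
  · have n4 : x ^ 2 + x * z + z ^ 2 ≠ 0 := fun h0 => by
      rw [h0, hk54] at heq
      have h54 : (54 : ZMod q) ≠ 0 := by
        simpa using intCast_ne_zero (z := 54) hq (by decide) (by decide)
      simp [h54, hx, hy, hz] at heq
    have c02 : (pr 0).1 * (pr 2).2 - (pr 2).1 * (pr 0).2 ≠ 0 := fun h0 =>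
      n4 (by simp [pr] at h0; linear_combination h0)
    have c03 : (pr 0).1 * (pr 3).2 - (pr 3).1 * (pr 0).2 ≠ 0 := fun h0 =>
      n4 (by simp [pr] at h0; linear_combination -h0)
    have c23 : (pr 2).1 * (pr 3).2 - (pr 3).1 * (pr 2).2 ≠ 0 := fun h0 =>
      n4 (by simp [pr] at h0; linear_combination h0)
    refine le_trans ?_ (card_le_card (s := {t 0, t 2, t 3}) ?_)
    · rw [card_insert_of_notMem, card_pair (hdist 2 3 c23)]
      simp [hdist 0 2 c02, hdist 0 3 c03]
    · intro s hs'
      simp only [mem_insert, mem_singleton] at hs'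
      rcases hs' with rfl | rfl | rfl <;> exact hmem _
  · by_cases hxz : x = z
    · have : 3 * x ^ 2 ≠ 0 := mul_ne_zero h3 (pow_ne_zero 2 hx)
      refine le_trans ?_ (card_le_card (s := {t 0, t 2}) ?_)
      · rw [card_pair (hdist 0 2 ?_)]
        intro h0
        apply this
        subst hxz
        simp [pr, -mul_eq_zero] at h0
        linear_combination h0
      · intro s hs'
        simp only [mem_insert, mem_singleton] at hs'
        rcases hs' with rfl | rfl <;> exact hmem _
    · refine le_trans ?_ (card_le_card (s := {t 0, t 1}) ?_)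
      · rw [card_pair (hdist 0 1 ?_)]
        intro h0
        simp [pr] at h0
        exact mul_ne_zero (sub_ne_zero.2 hxz) hy (by linear_combination -h0)
      · intro s hs'
        simp only [mem_insert, mem_singleton] at hs'
        rcases hs' with rfl | rfl <;> exact hmem _

end Vale.Agent.P045
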