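import Mathlib
import Vale.Agent.P045.Fixed
import Vale.Agent.P045.KeyAlg

/-!
# P045: the keys at the concrete centres

Two points of view agree on the sides, and the few exceptional keys are explicit rationals.
-/

namespace Vale.Agent.P045

open Finset

variable {q : ℕ} [Fact q.Prime]

theorem cast_ne_zero_of_big (hQ : 2 ^ 100 ≤ q) {z : ℤ} (h0 : z ≠ 0) (h : z.natAbs < 2 ^ 100) :
    (z : ZMod q) ≠ 0 := by
  intro hz
  have hd := Int.natCast_dvd.1 ((ZMod.intCast_zmod_eq_zero_iff_dvd z q).1 hz)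
  have := Nat.le_of_dvd (Int.natAbs_pos.2 h0) hd
  omega

omit [Fact q.Prime] in
theorem one_thousand_le (hQ : 2 ^ 100 ≤ q) : 1000 ≤ q := le_trans (by norm_num) hQ

/-- The numerators and denominators of the exceptional keys of the cross sides. -/
def fiveKeys : List (ℤ × ℤ) :=
  [(59582, 225), (226981, 4050), (686, 9), (13718, 225), (2197, 18)]

/-- `k` is one of the exceptional keys of the cross sides. -/
def InFive (k : ZMod q) : Prop := ∃ nd ∈ fiveKeys, k = (nd.1 : ZMod q) / (nd.2 : ZMod q)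

/-- Integer version of `triVec`. -/
def triInt (a : Fin 4) (u : ℤ × ℤ) : ℤ × ℤ × ℤ :=
  let d : Fin 3 → ℤ := fun i => u.1 * (toOtherInt a i).2 - u.2 * (toOtherInt a i).1
  let co : Fin 3 → ℤ := fun i => (toOtherInt a (i + 1)).1 * (toOtherInt a (i + 2)).2 -
    (toOtherInt a (i + 1)).2 * (toOtherInt a (i + 2)).1
  (d 0 * co 0, d 1 * co 1, d 2 * co 2)

/-- The product of a triple. -/
def prodInt (t : ℤ × ℤ × ℤ) : ℤ := t.1 * t.2.1 * t.2.2

/-- The sum of squares of a triple. -/
def sqInt (t : ℤ × ℤ × ℤ) : ℤ := t.1 ^ 2 + t.2.1 ^ 2 + t.2.2 ^ 2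

theorem triVec_cast (a : Fin 4) (u : ℤ × ℤ) :
    triVec (q := q) a ((u.1 : ZMod q), (u.2 : ZMod q)) =
      (((triInt a u).1 : ZMod q), ((triInt a u).2.1 : ZMod q), ((triInt a u).2.2 : ZMod q)) := by
  simp only [triVec, triInt, coDet, toOther_eq_int, det2]
  push_cast
  rfl

theorem keyTri_int (a : Fin 4) (u : ℤ × ℤ) :
    keyTri (triVec (q := q) a ((u.1 : ZMod q), (u.2 : ZMod q))) =
      if (prodInt (triInt a u) : ZMod q) = 0 then none
      else some ((sqInt (triInt a u) : ZMod q) ^ 3 / (prodInt (triInt a u) : ZMod q) ^ 2) := by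
  rw [triVec_cast]
  simp only [keyTri, prodInt, sqInt]
  push_cast
  rfl

/-- The value of a key from an integer identity. -/
theorem keyTri_int_eq (hQ : 2 ^ 100 ≤ q) {a : Fin 4} {u : ℤ × ℤ} {n d : ℤ}
    (hd : d ≠ 0) (hd' : d.natAbs < 2 ^ 100)
    (he : sqInt (triInt a u) ^ 3 * d = n * prodInt (triInt a u) ^ 2) :
    keyTri (triVec (q := q) a ((u.1 : ZMod q), (u.2 : ZMod q))) = none ∨
      keyTri (triVec (q := q) a ((u.1 : ZMod q), (u.2 : ZMod q))) =
        some ((n : ZMod q) / (d : ZMod q)) := by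
  rw [keyTri_int]
  split_ifs with h
  · exact .inl rfl
  · refine .inr (congrArg some ?_)
    rw [div_eq_div_iff (pow_ne_zero 2 h) (cast_ne_zero_of_big hQ hd hd')]
    exact_mod_cast congrArg (fun z : ℤ => (z : ZMod q)) he

theorem keyTri_int_some (hQ : 2 ^ 100 ≤ q) {a : Fin 4} {u : ℤ × ℤ} {n d : ℤ}
    (hd : d ≠ 0) (hd' : d.natAbs < 2 ^ 100)
    (hP : prodInt (triInt a u) ≠ 0) (hP' : (prodInt (triInt a u)).natAbs < 2 ^ 100)
    (he : sqInt (triInt a u) ^ 3 * d = n * prodInt (triInt a u) ^ 2) :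
    keyTri (triVec (q := q) a ((u.1 : ZMod q), (u.2 : ZMod q))) =
      some ((n : ZMod q) / (d : ZMod q)) := by
  refine (keyTri_int_eq hQ hd hd' he).resolve_left ?_
  rw [keyTri_int, if_neg (cast_ne_zero_of_big hQ hP hP')]
  exact Option.some_ne_none _

/-- The key of the slope of a fixed line. -/
theorem key_fixed_slope (hq : 1000 ≤ q) (a : Fin 4) (k : Fin 12) :
    key a (fixedLine (q := q) k).1 = keyTri (triVec a
      ((((fixedEq k).2.1 : ℤ) : ZMod q), ((-(fixedEq k).1 : ℤ) : ZMod q))) := by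
  obtain ⟨α, β, e, hB, hα, -⟩ := fixedLine_spec hq k
  have hv : ((((fixedEq k).2.1 : ℤ) : ZMod q), ((-(fixedEq k).1 : ℤ) : ZMod q)) =
      ((fixedEq k).2.1 : ZMod q) • dirVec (some α) := by
    simp [dirVec, hα]
  rw [e, key_eq_tri, hv, triVec_smul, keyTri_smul hB]

/-- The keys of the two same sides at the centres of the other group. -/
theorem key_sameSide (hQ : 2 ^ 100 ≤ q) :
    key 2 (sameSide (q := q) 0).1 = some ((9261 : ZMod q) / 50) ∧
    key 3 (sameSide (q := q) 0).1 = some ((9261 : ZMod q) / 50) ∧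
    key 0 (sameSide (q := q) 1).1 = some (54 : ZMod q) ∧
    key 1 (sameSide (q := q) 1).1 = some (54 : ZMod q) := by
  have hq := one_thousand_le hQ
  simp only [sameSide_eq_idx, key_fixed_slope hq]
  refine ⟨?_, ?_, ?_, ?_⟩
  · refine (keyTri_int_some (u := ((fixedEq (idxS 0)).2.1, -(fixedEq (idxS 0)).1)) (n := 9261)
      (d := 50) hQ ?_ ?_ ?_ ?_ ?_).trans (by norm_num) <;> decide +kernel
  · refine (keyTri_int_some (u := ((fixedEq (idxS 0)).2.1, -(fixedEq (idxS 0)).1)) (n := 9261)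
      (d := 50) hQ ?_ ?_ ?_ ?_ ?_).trans (by norm_num) <;> decide +kernel
  · refine (keyTri_int_some (u := ((fixedEq (idxS 1)).2.1, -(fixedEq (idxS 1)).1)) (n := 54)
      (d := 1) hQ ?_ ?_ ?_ ?_ ?_).trans (by norm_num) <;> decide +kernel
  · refine (keyTri_int_some (u := ((fixedEq (idxS 1)).2.1, -(fixedEq (idxS 1)).1)) (n := 54)
      (d := 1) hQ ?_ ?_ ?_ ?_ ?_).trans (by norm_num) <;> decide +kernel

/-- At infinity a cross side has an exceptional key. -/
theorem key_crossSide_slope (hQ : 2 ^ 100 ≤ q) (j : Fin 2 × Fin 2) :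
    ∀ k : ZMod q, key (partner (crossA j)) (crossSide (q := q) j).1 = some k → InFive k := by
  have hq := one_thousand_le hQ
  intro k hk
  have T : ∀ j, ∃ nd ∈ fiveKeys, nd.2 ≠ 0 ∧ nd.2.natAbs < 2 ^ 100 ∧
      sqInt (triInt (partner (crossA j)) ((fixedEq (idxC j)).2.1, -(fixedEq (idxC j)).1)) ^ 3 * nd.2 =
      nd.1 *
        prodInt (triInt (partner (crossA j)) ((fixedEq (idxC j)).2.1, -(fixedEq (idxC j)).1)) ^ 2 := by
    decide +kernel
  obtain ⟨nd, hnd, h1, h2, h3⟩ := T j
  rw [crossSide_eq_idx, key_fixed_slope hq] at hk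
  rcases keyTri_int_eq (q := q) hQ h1 h2 h3 with h | h <;> rw [h] at hk
  · cases hk
  · exact ⟨nd, hnd, (Option.some.injEq _ _ ▸ hk).symm⟩

/-- The intersection of cross side `j` and auxiliary line `l`, seen from a centre, scaled. -/
def meetInt (a : Fin 4) (j : Fin 2 × Fin 2) (l : Fin 6) : ℤ × ℤ :=
  let k := fixedEq (idxC j)
  let k' := fixedEq (idxW l)
  (k.2.2 * k'.2.1 - k'.2.2 * k.2.1 - crossEq (idxC j) (idxW l) * (cenInt a).1,
    k.1 * k'.2.2 - k'.1 * k.2.2 - crossEq (idxC j) (idxW l) * (cenInt a).2)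

/-- The auxiliary lines which cross side `j` outside the diagonal point. -/
def crossingW (j : Fin 2 × Fin 2) : Finset (Fin 6) :=
  univ.filter fun l => crossEq (idxC j) (idxW l) ≠ 0 ∧
    prodInt (triInt (partner (crossA j)) (meetInt (partner (crossA j)) j l)) ≠ 0

theorem crossingW_card : ∀ j, (crossingW j).card ≤ 2 := by decide +kernel

/-- A point of a cross side and an auxiliary line has no key or an exceptional one. -/
theorem key_crossing (hQ : 2 ^ 100 ≤ q) {j : Fin 2 × Fin 2} {l : Fin 6} {P : Pt q}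
    (hP : ¬ IsCen P) (hj : OnLine P (crossSide j)) (hl : OnLine P (wLine l)) {k : ZMod q}
    (hk : key (partner (crossA j)) (slopeTo (cen (partner (crossA j))) P) = some k) :
    l ∈ crossingW j ∧ InFive k := by
  have hq := one_thousand_le hQ
  set b := partner (crossA j)
  have hne : P ≠ cen b := fun h => hP ⟨b, h.symm⟩
  by_cases hD : crossEq (idxC j) (idxW l) = 0
  · exfalso
    have hs : (crossSide (q := q) j).1 = (wLine l).1 := by
      rw [crossSide_eq_idx, wLine_eq_idx, slope_fixed_eq_iff hq]; exact hD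
    refine not_onLine_of_parallel ?_ hs hj hl
    intro h
    exact cen_not_on_wLine hq (crossA j) l
      (h ▸ (cen_on_crossSide hq (crossA j) j).2 (.inl rfl))
  have hD' : ((crossEq (idxC j) (idxW l) : ℤ) : ZMod q) ≠ 0 :=
    intCast_ne_zero hq hD (crossEq_small _ _)
  rw [crossSide_eq_idx, onLine_fixed hq] at hj
  rw [wLine_eq_idx, onLine_fixed hq] at hl
  have hu : (((meetInt b j l).1 : ZMod q), ((meetInt b j l).2 : ZMod q)) =
      ((crossEq (idxC j) (idxW l) : ℤ) : ZMod q) • (P - cen b) := by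
    rw [cen_eq_int b, Prod.smul_def]
    simp only [meetInt, crossEq, Prod.fst_sub, Prod.snd_sub, smul_eq_mul]
    push_cast
    refine Prod.ext ?_ ?_
    · linear_combination -((fixedEq (idxW l)).2.1 : ZMod q) * hj +
        ((fixedEq (idxC j)).2.1 : ZMod q) * hl
    · linear_combination ((fixedEq (idxW l)).1 : ZMod q) * hj -
        ((fixedEq (idxC j)).1 : ZMod q) * hl
  have hkey : keyTri (triVec (q := q) b
      (((meetInt b j l).1 : ZMod q), ((meetInt b j l).2 : ZMod q))) = some k := by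
    rw [hu, triVec_smul, keyTri_smul hD', ← key_slopeTo b hne, hk]
  have T : ∀ j l, prodInt (triInt (partner (crossA j)) (meetInt (partner (crossA j)) j l)) = 0 ∨
      ∃ nd ∈ fiveKeys, nd.2 ≠ 0 ∧ nd.2.natAbs < 2 ^ 100 ∧
      sqInt (triInt (partner (crossA j)) (meetInt (partner (crossA j)) j l)) ^ 3 * nd.2 =
        nd.1 * prodInt (triInt (partner (crossA j)) (meetInt (partner (crossA j)) j l)) ^ 2 := by
    decide +kernel
  rcases T j l with h | ⟨nd, hnd, h1, h2, h3⟩
  · rw [keyTri_int, h] at hkey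
    simp at hkey
  · refine ⟨mem_filter.2 ⟨mem_univ _, hD, fun h => ?_⟩, nd, hnd, ?_⟩
    · rw [keyTri_int, h] at hkey
      simp at hkey
    · rcases keyTri_int_eq (q := q) hQ h1 h2 h3 with h | h <;> rw [h] at hkey
      · cases hkey
      · exact (Option.some.injEq _ _ ▸ hkey).symm

theorem inFive_ne (hQ : 2 ^ 100 ≤ q) {k : ZMod q} (h : InFive k) : k ≠ 0 ∧ k ≠ 54 := by
  obtain ⟨nd, hnd, rfl⟩ := h
  have T : ∀ nd ∈ fiveKeys, (nd.1 ≠ 0 ∧ nd.1.natAbs < 2 ^ 100) ∧
      (nd.2 ≠ 0 ∧ nd.2.natAbs < 2 ^ 100) ∧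
      (nd.1 - 54 * nd.2 ≠ 0 ∧ (nd.1 - 54 * nd.2).natAbs < 2 ^ 100) := by decide +kernel
  obtain ⟨⟨a, a'⟩, ⟨b, b'⟩, c, c'⟩ := T nd hnd
  refine ⟨div_ne_zero (cast_ne_zero_of_big hQ a a') (cast_ne_zero_of_big hQ b b'), ?_⟩
  rw [Ne, div_eq_iff (cast_ne_zero_of_big hQ b b')]
  intro h
  refine cast_ne_zero_of_big (q := q) hQ c c' ?_
  push_cast
  linear_combination h

/-- The key of the first same side is neither `0` nor `54`. -/
theorem sideKey_ne (hQ : 2 ^ 100 ≤ q) :
    (9261 : ZMod q) / 50 ≠ 0 ∧ (9261 : ZMod q) / 50 ≠ 54 ∧ (54 : ZMod q) ≠ 0 := by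
  have a : (9261 : ZMod q) ≠ 0 := by
    simpa using cast_ne_zero_of_big (q := q) hQ (z := 9261) (by decide) (by decide +kernel)
  have b : (50 : ZMod q) ≠ 0 := by
    simpa using cast_ne_zero_of_big (q := q) hQ (z := 50) (by decide) (by decide +kernel)
  have c : (6561 : ZMod q) ≠ 0 := by
    simpa using cast_ne_zero_of_big (q := q) hQ (z := 6561) (by decide) (by decide +kernel)
  have d : (54 : ZMod q) ≠ 0 := by
    simpa using cast_ne_zero_of_big (q := q) hQ (z := 54) (by decide) (by decide +kernel)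
  refine ⟨div_ne_zero a b, ?_, d⟩
  rw [Ne, div_eq_iff b]
  intro h
  exact c (by linear_combination h)

theorem key_eq_of_prop {a b : Fin 4} {P : Pt q} (hP : ¬ IsCen P) {n m : ZMod q} (hn : n ≠ 0)
    (hm : m ≠ 0) {X Y Z : ZMod q}
    (ha : n • triVec a (P - cen a) = m • (X, Y, Z))
    (hp : (triVec b (P - cen b)).1 * (triVec b (P - cen b)).2.1 * (triVec b (P - cen b)).2.2 =
      X * Y * Z)
    (hs : (triVec b (P - cen b)).1 ^ 2 + (triVec b (P - cen b)).2.1 ^ 2 +
      (triVec b (P - cen b)).2.2 ^ 2 = X ^ 2 + Y ^ 2 + Z ^ 2) :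
    key a (slopeTo (cen a) P) = key b (slopeTo (cen b) P) := by
  rw [key_slopeTo a fun h => hP ⟨a, h.symm⟩, key_slopeTo b fun h => hP ⟨b, h.symm⟩,
    ← keyTri_smul hn, ha, keyTri_smul hm]
  exact (keyTri_perm hp hs).symm

theorem key_side_aux (hq : 1000 ≤ q) {P : Pt q} (hP : ¬ IsCen P) (i : Fin 2)
    (h : OnLine P (sameSide i)) :
    key (fstC (1 - i)) (slopeTo (cen (fstC (1 - i))) P) =
      key (sndC (1 - i)) (slopeTo (cen (sndC (1 - i))) P) := by
  have nz : ∀ z : ℤ, z ≠ 0 → z.natAbs < 1000 → (z : ZMod q) ≠ 0 :=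
    fun z h h' => intCast_ne_zero hq h h'
  have h1 : (1 : ZMod q) ≠ 0 := one_ne_zero
  have h2 : (-2 : ZMod q) ≠ 0 := by simpa using nz (-2) (by decide) (by decide)
  have h4 : (-4 : ZMod q) ≠ 0 := by simpa using nz (-4) (by decide) (by decide)
  have h5 : (5 : ZMod q) ≠ 0 := by simpa using nz 5 (by decide) (by decide)
  rw [sameSide_eq_idx, onLine_fixed hq] at h
  obtain ⟨x, y⟩ := P
  fin_cases i
  · simp [idxS, fixedEq] at h
    subst h
    let T := triVec (q := q) 3 ((x, 0) - cen 3)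
    show key 2 _ = key 3 _
    refine key_eq_of_prop hP h1 h2 (X := T.1) (Y := T.2.1) (Z := T.2.2) ?_ rfl rfl
    simp [T, triVec, coDet, toOther_eq_int, toOtherInt, det2, cen, Prod.ext_iff]
    refine ⟨?_, ?_, ?_⟩ <;> ring
  · simp [idxS, fixedEq] at h
    obtain rfl : x = 3 * y + 4 := by linear_combination -h
    let T := triVec (q := q) 1 ((3 * y + 4, y) - cen 1)
    show key 0 _ = key 1 _
    refine key_eq_of_prop hP h5 h4 (X := T.1) (Y := T.2.1) (Z := T.2.2) ?_ rfl rfl
    simp [T, triVec, coDet, toOther_eq_int, toOtherInt, det2, cen, Prod.ext_iff]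
    refine ⟨?_, ?_, ?_⟩ <;> ring

/-- On a cross side the two opposite centres see the same key. -/
theorem key_cross_eq (hq : 1000 ≤ q) {P : Pt q} (hP : ¬ IsCen P) (j : Fin 2 × Fin 2)
    (h : OnLine P (crossSide j)) :
    key (partner (crossA j)) (slopeTo (cen (partner (crossA j))) P) =
      key (partner (crossC j)) (slopeTo (cen (partner (crossC j))) P) := by
  have nz : ∀ z : ℤ, z ≠ 0 → z.natAbs < 1000 → (z : ZMod q) ≠ 0 :=
    fun z h h' => intCast_ne_zero hq h h'
  have h2 : (2 : ZMod q) ≠ 0 := by simpa using nz 2 (by decide) (by decide)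
  have h4 : (4 : ZMod q) ≠ 0 := by simpa using nz 4 (by decide) (by decide)
  have h5 : (5 : ZMod q) ≠ 0 := by simpa using nz 5 (by decide) (by decide)
  have hm1 : (-1 : ZMod q) ≠ 0 := by simp
  have hm2 : (-2 : ZMod q) ≠ 0 := neg_ne_zero.2 h2
  rw [crossSide_eq_idx, onLine_fixed hq] at h
  obtain ⟨x, y⟩ := P
  obtain ⟨j₁, j₂⟩ := j
  fin_cases j₁ <;> fin_cases j₂
  · simp [idxC, fixedEq] at h
    obtain rfl : y = x := by linear_combination h
    let T := triVec (q := q) 3 ((y, y) - cen 3)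
    show key 1 _ = key 3 _
    refine key_eq_of_prop hP h2 hm1 (X := T.2.1) (Y := T.1) (Z := T.2.2) ?_ (by ring) (by ring)
    simp [T, triVec, coDet, toOther_eq_int, toOtherInt, det2, cen, Prod.ext_iff]
    refine ⟨?_, ?_, ?_⟩ <;> ring
  · simp [idxC, fixedEq] at h
    obtain rfl : y = -x := by linear_combination h
    let T := triVec (q := q) 2 ((x, -x) - cen 2)
    show key 1 _ = key 2 _
    refine key_eq_of_prop hP h4 hm1 (X := T.2.1) (Y := T.2.2) (Z := T.1) ?_ (by ring) (by ring)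
    simp [T, triVec, coDet, toOther_eq_int, toOtherInt, det2, cen, Prod.ext_iff]
    refine ⟨?_, ?_, ?_⟩ <;> ring
  · simp [idxC, fixedEq] at h
    obtain rfl : y = 2 * x + 2 := by linear_combination h
    let T := triVec (q := q) 3 ((x, 2 * x + 2) - cen 3)
    show key 0 _ = key 3 _
    refine key_eq_of_prop hP h5 hm2 (X := T.2.2) (Y := T.1) (Z := T.2.1) ?_ (by ring) (by ring)
    simp [T, triVec, coDet, toOther_eq_int, toOtherInt, det2, cen, Prod.ext_iff]
    refine ⟨?_, ?_, ?_⟩ <;> ring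
  · simp [idxC, fixedEq] at h
    obtain rfl : x = -1 - 2 * y := by linear_combination h
    let T := triVec (q := q) 2 ((-1 - 2 * y, y) - cen 2)
    show key 0 _ = key 2 _
    refine key_eq_of_prop hP h5 hm1 (X := T.2.2) (Y := T.2.1) (Z := T.1) ?_ (by ring) (by ring)
    simp [T, triVec, coDet, toOther_eq_int, toOtherInt, det2, cen, Prod.ext_iff]
    refine ⟨?_, ?_, ?_⟩ <;> ring

/-- The two centres of group `0` give the same key to at most twelve slopes. -/
theorem key01_le (hQ : 2 ^ 100 ≤ q) :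
    (univ.filter fun s : Slope q => key 0 s = key 1 s).card ≤ 12 := by
  classical
  open Polynomial in
  set Q : (ZMod q)[X] := (24 * X ^ 2 + 8) ^ 3 * (-5 * X * (X - 2) * (4 * X + 2)) ^ 2 -
    (42 * X ^ 2 + 12 * X + 8) ^ 3 * (4 * X * (2 - 2 * X) * (-2 - 2 * X)) ^ 2 with hQdef
  have hQ1 : Q ≠ 0 := by
    intro h
    have h1 := congrArg (Polynomial.eval 1) h
    simp [hQdef] at h1
    norm_num at h1
    rcases h1 with h1 | h1 | h1
    · exact cast_ne_zero_of_big (q := q) hQ (z := 32) (by decide) (by decide +kernel) (by simpa using h1)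
    · exact cast_ne_zero_of_big (q := q) hQ (z := 5) (by decide) (by decide +kernel) (by simpa using h1)
    · exact cast_ne_zero_of_big (q := q) hQ (z := 6) (by decide) (by decide +kernel) (by simpa using h1)
  have hdeg : Q.natDegree ≤ 12 := by
    rw [hQdef]; compute_degree
  have hnone : key (q := q) 0 none ≠ key 1 none := by
    rw [key_eq_tri, key_eq_tri, show dirVec (none : Slope q) = (((0 : ℤ) : ZMod q), ((1 : ℤ) : ZMod q))
      by simp [dirVec], keyTri_int_some (u := (0, 1)) (n := 54) (d := 1) hQ,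
      keyTri_int_some (u := (0, 1)) (n := 9261) (d := 50) hQ]
    · simpa using (sideKey_ne (q := q) hQ).2.1.symm
    all_goals decide +kernel
  calc (univ.filter fun s : Slope q => key 0 s = key 1 s).card
      ≤ (Q.roots.toFinset.image some).card := card_le_card ?_
    _ ≤ 12 := card_image_le.trans ((Multiset.toFinset_card_le _).trans
        ((Polynomial.card_roots' Q).trans hdeg))
  intro s hs
  obtain ⟨-, he⟩ := mem_filter.1 hs
  rcases s with _ | s
  · exact absurd he hnone
  refine mem_image.2 ⟨s, ?_, rfl⟩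
  rw [Multiset.mem_toFinset, Polynomial.mem_roots hQ1]
  have e0 : triVec (q := q) 0 (dirVec (some s)) = (4 * s, 2 - 2 * s, -2 - 2 * s) := by
    simp [triVec, coDet, toOther_eq_int, toOtherInt, det2, dirVec, Prod.ext_iff]
    refine ⟨?_, ?_, ?_⟩ <;> ring
  have e1 : triVec (q := q) 1 (dirVec (some s)) = (-5 * s, s - 2, 4 * s + 2) := by
    simp [triVec, coDet, toOther_eq_int, toOtherInt, det2, dirVec, Prod.ext_iff]
    refine ⟨?_, ?_, ?_⟩ <;> ring
  rw [key_eq_tri, key_eq_tri, e0, e1] at he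
  simp only [keyTri] at he
  simp only [Polynomial.IsRoot.def, hQdef, Polynomial.eval_sub, Polynomial.eval_mul,
    Polynomial.eval_pow, Polynomial.eval_add, Polynomial.eval_X, Polynomial.eval_ofNat,
    Polynomial.eval_neg]
  split_ifs at he with ha hb hb
  · rw [ha, hb]; ring
  · simp only [Option.some.injEq] at he
    rw [div_eq_div_iff (pow_ne_zero 2 ha) (pow_ne_zero 2 hb)] at he
    linear_combination he

/-- A slope without key points to another centre. -/
theorem exists_cen_of_key_none (hq : 1000 ≤ q) {a : Fin 4} {t : Slope q} (h : key a t = none) :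
    ∃ o, o ≠ a ∧ OnLine (cen o) (lineThru (cen (q := q) a) t) := by
  obtain ⟨i, hi⟩ := (key_eq_none_iff hq a t).1 h
  let o : Fin 4 := ![(otherCen a).1, (otherCen a).2.1, (otherCen a).2.2] i
  have T : ∀ a i, (![(otherCen a).1, (otherCen a).2.1, (otherCen a).2.2] : Fin 3 → Fin 4) i ≠ a := by
    decide
  have hv : toOther (q := q) a i = cen o - cen a := by
    fin_cases i <;> rfl
  have hne : cen (q := q) o ≠ cen a := fun e => T a i (cen_injective hq e)
  obtain ⟨c, hc, e⟩ := exists_smul_dirVec hne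
  have ht : t = slopeTo (cen a) (cen o) := by
    refine dirVec_det_eq_zero (mul_left_cancel₀ hc ?_)
    rw [hv, e] at hi
    simp only [det2, Prod.smul_fst, Prod.smul_snd, smul_eq_mul] at hi ⊢
    linear_combination hi
  exact ⟨o, T a i, ht ▸ onLine_slopeTo _ _⟩

/-- The slope to another centre has no key. -/
theorem key_slopeTo_cen (hq : 1000 ≤ q) {a o : Fin 4} (h : o ≠ a) :
    key a (slopeTo (cen (q := q) a) (cen o)) = none := by
  have T : ∀ a o : Fin 4, o ≠ a →
      ∃ i, (![(otherCen a).1, (otherCen a).2.1, (otherCen a).2.2] : Fin 3 → Fin 4) i = o := by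
    decide
  obtain ⟨i, hi⟩ := T a o h
  refine (key_eq_none_iff hq a _).2 ⟨i, ?_⟩
  have hv : toOther (q := q) a i = cen o - cen a := by
    subst hi
    fin_cases i <;> rfl
  obtain ⟨c, hc, e⟩ := exists_smul_dirVec fun e => h (cen_injective hq e)
  rw [hv, e]
  simp [det2]
  ring

end Vale.Agent.P045
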