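import Mathlib
import Vale.Agent.P045.KeyGeom

/-!
# P045: greedy choice of the special points

Every special point owns the coordinates `xCoord` of the slopes under which the centres see it.
They are chosen pairwise disjoint and outside the exceptional keys.
-/

namespace Vale.Agent.P045

open Finset

variable {q : ℕ} [Fact q.Prime] {K : Type*} [Field K] [Fintype K] [DecidableEq K]

/-- Indices of the special points. -/
abbrev SIdx (K : Type*) := (Fin 2 × Fin 21 × Option K) ⊕ (Fin 6 × Fin 12 × K)

/-- The pencil labelled by a role; role `4` is the label of the row in pencil `0`. -/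
def pen : Fin 5 → Fin 4 := ![0, 1, 2, 3, 0]

/-- The centre giving the slope of a role. -/
def base : Fin 5 → Fin 4 := ![0, 1, 2, 3, 1]

/-- The roles of a special point. -/
def actS : SIdx K → Finset (Fin 5)
  | .inl (i, _) => (![{2, 3}, {0, 1, 4}] : Fin 2 → Finset (Fin 5)) i
  | .inr _ => univ

/-- The line of a special point. -/
def lineIdx : SIdx K → Fin 12
  | .inl (i, _) => idxS i
  | .inr (l, _) => idxW l

/-- The coordinate owned by a point in a role. -/
def roleCoord (p : Pt q) (r : Fin 5) : Coord q := xCoord (pen r) (slopeTo (cen (base r)) p)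

/-- All coordinates owned by a special point. -/
def ownCoord (x : SIdx K) (p : Pt q) : Finset (Coord q) := (actS x).image (roleCoord p)

/-- The key of the first same side. -/
def side0Key (q : ℕ) [Fact q.Prime] : ZMod q := (9261 : ZMod q) / 50

/-- The keys no special point uses. -/
def avoidKeys (q : ℕ) [Fact q.Prime] : Finset (Option (ZMod q)) :=
  {none, some 0, some 54, some (side0Key q)} ∪
    (fiveKeys.toFinset.image fun nd => some ((nd.1 : ZMod q) / (nd.2 : ZMod q)))

/-- The coordinates no special point uses. -/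
def avoidCoord (q : ℕ) [Fact q.Prime] : Finset (Coord q) :=
  ((univ : Finset (Fin 2)) ×ˢ avoidKeys q).image Sum.inl

theorem avoidCoord_card : (avoidCoord q).card ≤ 18 := by
  refine card_image_le.trans ?_
  rw [card_product, card_univ, Fintype.card_fin]
  refine Nat.mul_le_mul_left 2 ((card_union_le _ _).trans (Nat.add_le_add (b := 4) (d := 5) ?_ ?_))
  · exact card_le_four
  · exact card_image_le.trans (by decide)

theorem inFive_mem_avoidKeys {k : ZMod q} (h : InFive k) : some k ∈ avoidKeys q := by
  obtain ⟨nd, hnd, rfl⟩ := h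
  exact mem_union_right _ (mem_image.2 ⟨nd, List.mem_toFinset.2 hnd, rfl⟩)

/-- Greedy choice of representatives with disjoint sets. -/
theorem exists_disjoint_choice {I P X : Type*} [Fintype I] [DecidableEq I] [DecidableEq X]
    [Nonempty P] (ok : I → P → Prop) (C : I → P → Finset X) (A : Finset X) (r : ℕ)
    (hr : ∀ i p, (C i p).card ≤ r)
    (h : ∀ i (U : Finset X), U.card ≤ A.card + r * Fintype.card I →
      ∃ p, ok i p ∧ Disjoint (C i p) U) :
    ∃ f : I → P, (∀ i, ok i (f i) ∧ Disjoint (C i (f i)) A) ∧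
      ∀ i j, i ≠ j → Disjoint (C i (f i)) (C j (f j)) := by
  suffices H : ∀ s : Finset I, ∃ f : I → P, (∀ i ∈ s, ok i (f i) ∧ Disjoint (C i (f i)) A) ∧
      ∀ i ∈ s, ∀ j ∈ s, i ≠ j → Disjoint (C i (f i)) (C j (f j)) by
    obtain ⟨f, h1, h2⟩ := H univ
    exact ⟨f, fun i => h1 i (mem_univ i), fun i j => h2 i (mem_univ i) j (mem_univ j)⟩
  intro s
  induction s using Finset.induction_on with
  | empty => exact ⟨fun _ => Classical.arbitrary P, by simp, by simp⟩
  | insert a s has ih =>
    obtain ⟨f, h1, h2⟩ := ih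
    obtain ⟨p, hp, hd⟩ := h a (A ∪ s.biUnion fun i => C i (f i))
      ((card_union_le _ _).trans (Nat.add_le_add_left
        ((card_biUnion_le_card_mul _ _ r fun i _ => hr i _).trans
          (by rw [mul_comm]; exact Nat.mul_le_mul_left r (card_le_univ s))) _))
    rw [disjoint_union_right, disjoint_biUnion_right] at hd
    have e : ∀ i ∈ s, Function.update f a p i = f i := fun i hi =>
      Function.update_of_ne (fun h' : i = a => has (h' ▸ hi)) _ _
    refine ⟨Function.update f a p, fun i hi => ?_, fun i hi j hj hij => ?_⟩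
    · rcases mem_insert.1 hi with rfl | hi
      · simpa using ⟨hp, hd.1⟩
      · rw [e i hi]; exact h1 i hi
    · by_cases hia : i = a
      · subst hia
        have hj' := mem_of_mem_insert_of_ne hj (Ne.symm hij)
        rw [Function.update_self, e j hj']
        exact hd.2 j hj'
      · have hi' := mem_of_mem_insert_of_ne hi hia
        rw [e i hi']
        by_cases hja : j = a
        · subst hja
          rw [Function.update_self]
          exact (hd.2 i hi').symm
        · have hj' := mem_of_mem_insert_of_ne hj hja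
          rw [e j hj']
          exact h2 i hi' j hj' hij

/-- `p` lies on the line of `x` and on no other fixed line. -/
def GoodPos (x : SIdx K) (p : Pt q) : Prop :=
  OnLine p (fixedLine (lineIdx x)) ∧ ∀ k, k ≠ lineIdx x → ¬ OnLine p (fixedLine k)

theorem fixedLine_injective (hq : 1000 ≤ q) : Function.Injective (fixedLine (q := q)) := by
  intro k k' h
  have T : ∀ k k' : Fin 12, k ≠ k' → crossEq k k' ≠ 0 ∨
      ((fixedEq k).2.1 * (fixedEq k').2.2 - (fixedEq k').2.1 * (fixedEq k).2.2 ≠ 0 ∧
        ((fixedEq k).2.1 * (fixedEq k').2.2 - (fixedEq k').2.1 * (fixedEq k).2.2).natAbs < 1000) := by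
    decide +kernel
  by_contra hne
  rcases T k k' hne with h0 | ⟨h0, h1⟩
  · exact h0 ((slope_fixed_eq_iff hq k k').1 (by rw [h]))
  · obtain ⟨α, β, e, hB, hα, hβ⟩ := fixedLine_spec hq k
    obtain ⟨α', β', e', hB', hα', hβ'⟩ := fixedLine_spec hq k'
    rw [e, e', Prod.mk.injEq] at h
    refine intCast_ne_zero hq h0 h1 ?_
    push_cast
    linear_combination -((fixedEq k).2.1 : ZMod q) * hβ' + ((fixedEq k').2.1 : ZMod q) * hβ
      - ((fixedEq k).2.1 : ZMod q) * ((fixedEq k').2.1 : ZMod q) * h.2

omit [Field K] [Fintype K] [DecidableEq K] in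
theorem base_not_on_line (hq : 1000 ≤ q) (x : SIdx K) {r : Fin 5} (hr : r ∈ actS x) :
    ¬ OnLine (cen (q := q) (base r)) (fixedLine (lineIdx x)) := by
  rw [cen_on_fixed hq]
  rcases x with ⟨i, z⟩ | ⟨l, z⟩
  · have T : ∀ i : Fin 2, ∀ r ∈ (![{2, 3}, {0, 1, 4}] : Fin 2 → Finset (Fin 5)) i,
        cenVal (base r) (idxS i) ≠ 0 := by decide
    exact T i r hr
  · have T : ∀ (l : Fin 6) (r : Fin 5), cenVal (base r) (idxW l) ≠ 0 := by decide
    exact T l r

omit [Field K] in
/-- There is room for the special points. -/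
theorem exists_points (hQ : 2 ^ 100 ≤ q) (hm : 2 ^ 60 ≤ Fintype.card K)
    (hq : Fintype.card K ^ 2 ≤ 1024 * q) :
    ∃ f : SIdx K → Pt q, (∀ x, GoodPos x (f x) ∧ Disjoint (ownCoord x (f x)) (avoidCoord q)) ∧
      ∀ x y, x ≠ y → Disjoint (ownCoord x (f x)) (ownCoord y (f y)) := by
  classical
  have hq' := one_thousand_le hQ
  refine exists_disjoint_choice GoodPos ownCoord _ 5
    (fun x p => card_image_le.trans ((card_le_univ _).trans (by simp))) fun x U hU => ?_
  set L : Finset (Pt q) := univ.filter fun p => OnLine p (fixedLine (lineIdx x))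
  set B₁ : Finset (Pt q) := (univ.erase (lineIdx x)).biUnion fun k =>
    L.filter fun p => OnLine p (fixedLine k)
  set B₂ : Finset (Pt q) := (actS x ×ˢ U).biUnion fun rc =>
    L.filter fun p => roleCoord p rc.1 = rc.2
  have h1 : B₁.card ≤ 11 * 1 := by
    refine (card_biUnion_le_card_mul _ _ 1 fun k hk => card_le_one.2 fun p hp p' hp' => ?_).trans
      (Nat.mul_le_mul_right 1 (by simp))
    obtain ⟨hpL, hpk⟩ := mem_filter.1 hp
    obtain ⟨hpL', hpk'⟩ := mem_filter.1 hp'
    exact pt_eq_of_two ((fixedLine_injective hq').ne (mem_erase.1 hk).1) hpk' hpk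
      (mem_filter.1 hpL').2 (mem_filter.1 hpL).2
  have h2 : B₂.card ≤ 5 * U.card * 6 := by
    refine (card_biUnion_le_card_mul _ _ 6 fun rc hrc => ?_).trans (Nat.mul_le_mul_right 6 ?_)
    · obtain ⟨hr, -⟩ := mem_product.1 hrc
      by_cases hne : (L.filter fun p => roleCoord p rc.1 = rc.2).Nonempty
      · obtain ⟨p₀, hp₀⟩ := hne
        refine (card_le_card_of_injOn (fun p => slopeTo (cen (base rc.1)) p) ?_ ?_).trans
          (key_fibre_le hq' (pen rc.1) (key (pen rc.1) (slopeTo (cen (base rc.1)) p₀)))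
        · intro p hp
          refine mem_filter.2 ⟨mem_univ _, ?_⟩
          have h := (mem_filter.1 hp).2.trans (mem_filter.1 hp₀).2.symm
          simp only [roleCoord, xCoord, Sum.inl.injEq, Prod.mk.injEq] at h
          exact h.2
        · exact fun p hp p' hp' h => slopeTo_injOn (base_not_on_line hq' x hr)
            (mem_filter.1 (mem_filter.1 hp).1).2 (mem_filter.1 (mem_filter.1 hp').1).2 h
      · rw [not_nonempty_iff_eq_empty] at hne
        simp [hne]
    · rw [card_product]
      exact Nat.mul_le_mul_right _ ((card_le_univ _).trans (by simp))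
  have hS : Fintype.card (SIdx K) ≤ 200 * Fintype.card K := by
    simp only [Fintype.card_sum, Fintype.card_prod, Fintype.card_fin, Fintype.card_option]
    omega
  have hA := avoidCoord_card (q := q)
  have hlt : (B₁ ∪ B₂).card < L.card := by
    rw [card_onLine (fixedLine (lineIdx x))]
    have hm2 : 2 ^ 60 * Fintype.card K ≤ 1024 * q :=
      le_trans (Nat.mul_le_mul_right _ hm) (by rwa [← sq])
    have := card_union_le B₁ B₂
    omega
  obtain ⟨p, hpL, hp⟩ := exists_mem_notMem_of_card_lt_card hlt
  have hon := (mem_filter.1 hpL).2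
  refine ⟨p, ⟨hon, fun k hk h => hp (mem_union_left _ (mem_biUnion.2
    ⟨k, mem_erase.2 ⟨hk, mem_univ k⟩, mem_filter.2 ⟨hpL, h⟩⟩))⟩, ?_⟩
  rw [disjoint_left]
  intro c hc hcU
  obtain ⟨r, hr, rfl⟩ := mem_image.1 hc
  exact hp (mem_union_right _ (mem_biUnion.2
    ⟨(r, roleCoord p r), mem_product.2 ⟨hr, hcU⟩, mem_filter.2 ⟨hpL, rfl⟩⟩))

omit [Field K] [Fintype K] [DecidableEq K] in
/-- A special point is on no other special line. -/
theorem GoodPos.off (hq : 1000 ≤ q) {x : SIdx K} {p : Pt q} (h : GoodPos x p) :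
    ¬ IsCen p ∧ ¬ OnCross p ∧ (∀ i, OnLine p (sameSide i) → lineIdx x = idxS i) ∧
      ∀ l, OnLine p (wLine l) → lineIdx x = idxW l := by
  have hk : ∀ k, OnLine p (fixedLine k) → lineIdx x = k := fun k hk => by
    by_contra hne
    exact h.2 k (Ne.symm hne) hk
  have hC : ∀ j, idxC j ≠ lineIdx x := by
    rcases x with ⟨i, z⟩ | ⟨l, z⟩
    · have T : ∀ i j, idxC j ≠ idxS i := by decide
      exact T i
    · have T : ∀ l j, idxC j ≠ idxW l := by decide
      exact T l
  have hcr : ¬ OnCross p := by
    rintro ⟨j, hj⟩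
    rw [crossSide_eq_idx] at hj
    exact h.2 _ (hC j) hj
  refine ⟨?_, hcr, fun i hi => hk _ (by rwa [← sameSide_eq_idx]),
    fun l hl => hk _ (by rwa [← wLine_eq_idx])⟩
  rintro ⟨a, rfl⟩
  have T : ∀ a, ∃ j, a = crossA j ∨ a = crossC j := by decide
  obtain ⟨j, hj⟩ := T a
  exact hcr ⟨j, (cen_on_crossSide hq a j).2 hj⟩

end Vale.Agent.P045
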