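import Mathlib
import Vale.Agent.P045.LayoutPick

/-!
# P045: the prescribed coordinates of a layout

An entry is an index (special point or side slope) with a role; it prescribes the label
`(eX, eX ^ 2 + eC)` at a pencil and slope.
-/

namespace Vale.Agent.P045

open Finset

set_option linter.unusedSectionVars false

variable {q : ℕ} [Fact q.Prime] {K : Type*} [Field K] [Fintype K] [DecidableEq K]

/-- Indices of prescriptions: special points and the two same side slopes. -/
abbrev EIdx (K : Type*) := SIdx K ⊕ Fin 2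

/-- An index with a role. -/
abbrev Entry (K : Type*) := EIdx K × Fin 5

/-- The roles of an index. -/
def actE : EIdx K → Finset (Fin 5)
  | .inl x => actS x
  | .inr i => (![{2, 3}, {0, 1}] : Fin 2 → Finset (Fin 5)) i

/-- All entries. -/
def entries : Finset (Entry K) := univ.filter fun e => e.2 ∈ actE e.1

/-- The pencil of an entry. -/
def eA (e : Entry K) : Fin 4 := pen e.2

/-- The slope of an entry. -/
def eT (f : SIdx K → Pt q) : Entry K → Slope q
  | (.inl x, r) => slopeTo (cen (base r)) (f x)
  | (.inr i, _) => (sameSide i).1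

/-- The abscissa of an index. -/
def eX : EIdx K → K
  | .inl (.inl (_, _, z)) => z.getD 0
  | .inl (.inr (_, _, x)) => x
  | .inr _ => 0

/-- The ordinate of an entry minus the square of its abscissa. -/
def eC (sh : ShiftIdx → K) : Entry K → K
  | (.inl (.inl (_, g, _)), r) => (![0, sh (.inl g), 0, sh (.inl g), 1] : Fin 5 → K) r
  | (.inl (.inr (l, i, _)), r) =>
      sh (.inr (l, i)) ^ 2 + (![0, sh (.inr (l, 0)), 0, sh (.inr (l, i)), 1] : Fin 5 → K) r
  | (.inr _, _) => 0

/-- The ordinate of an entry. -/
def eY (sh : ShiftIdx → K) (e : Entry K) : K := eX e.1 ^ 2 + eC sh e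

/-- The abscissa coordinate of an entry. -/
def eKX (f : SIdx K → Pt q) (e : Entry K) : Coord q := xCoord (eA e) (eT f e)

/-- The ordinate coordinate of an entry. -/
def eKY (f : SIdx K → Pt q) (e : Entry K) : Coord q := yCoord (eA e) (eT f e)

/-- The fixed coordinates. -/
def fixedSet (f : SIdx K → Pt q) : Finset (Coord q) :=
  entries.image (eKX f) ∪ entries.image (eKY f)

/-- A two-to-one map onto one element of each pair `v, v + 1`. -/
noncomputable def pickLow (v : K) : K :=
  if Fintype.equivFin K v ≤ Fintype.equivFin K (v + 1) then v else v + 1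

/-- A two-to-one map onto the other element of each pair. -/
noncomputable def pickHigh (v : K) : K := pickLow v + 1

/-- A two-to-one map avoiding `c`. -/
def avoidVal (c v : K) : K := if v = c then c + 1 else v

open Classical in
/-- The map of a coordinate which is not prescribed. -/
noncomputable def softVal (f : SIdx K → Pt q) (sh : ShiftIdx → K) (a : Fin 4) (t : Slope q) :
    K → K :=
  if xCoord 0 t ∈ fixedSet f ∧ xCoord 1 t ∈ fixedSet f then
    if a = 0 then pickLow else if a = 1 then
      if h : ∃ e ∈ entries, eKY f e = yCoord 0 t then avoidVal (eY sh h.choose) else pickHigh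
    else id
  else id

open Classical in
/-- The value map of the layout. -/
noncomputable def valMap (f : SIdx K → Pt q) (sh : ShiftIdx → K) : Coord q → K → K
  | .inl c => if h : ∃ e ∈ entries, eKX f e = .inl c then fun _ => eX h.choose.1 else id
  | .inr (a, t) =>
    if h : ∃ e ∈ entries, eKY f e = .inr (a, t) then fun _ => eY sh h.choose
    else softVal f sh a t

/-- The layout of a choice of points. -/
noncomputable def mkLayout (f : SIdx K → Pt q) (sh : ShiftIdx → K)
    (num : Option K → ZMod (modM K)) : Layout q K :=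
  { om := fun i g z => f (.inl (i, g, z))
    wp := fun l i x => f (.inr (l, i, x))
    sh := sh
    num := num
    fixed := fixedSet f
    val := valMap f sh }

/-- What is known about the choices. -/
structure Picked (f : SIdx K → Pt q) (sh : ShiftIdx → K) : Prop where
  good : ∀ x, GoodPos x (f x)
  avoid : ∀ x, Disjoint (ownCoord x (f x)) (avoidCoord q)
  disj : ∀ x y, x ≠ y → Disjoint (ownCoord x (f x)) (ownCoord y (f y))
  sh_inj : Function.Injective sh
  sh_ne : ∀ i, sh i ≠ 0 ∧ sh i ≠ 1

section

variable {f : SIdx K → Pt q} {sh : ShiftIdx → K}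

theorem mem_entries {e : Entry K} : e ∈ entries ↔ e.2 ∈ actE e.1 := by simp [entries]

theorem pen_eq_base : ∀ r : Fin 5, r ≠ 4 → pen r = base r := by decide

/-- The key of a side entry. -/
theorem key_side_entry (hQ : 2 ^ 100 ≤ q) {i : Fin 2} {r : Fin 5}
    (hr : r ∈ actE (K := K) (.inr i)) :
    key (pen r) (sameSide (q := q) i).1 = some (![side0Key q, (54 : ZMod q)] i) ∧
      grpOf (pen r) = 1 - i := by
  obtain ⟨h2, h3, h0, h1⟩ := key_sameSide (q := q) hQ
  fin_cases i <;> simp [actE] at hr <;> rcases hr with rfl | rfl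
  · exact ⟨h2, by decide⟩
  · exact ⟨h3, by decide⟩
  · exact ⟨h0, by decide⟩
  · exact ⟨h1, by decide⟩

/-- A point owns no avoided coordinate. -/
theorem Picked.key_not_avoid (hf : Picked f sh) {x : SIdx K} {r : Fin 5}
    (hr : r ∈ actS x) : key (pen r) (eT f ((.inl x, r) : Entry K)) ∉ avoidKeys q := by
  intro h
  refine disjoint_left.1 (hf.avoid x) (mem_image_of_mem (roleCoord (f x)) hr) ?_
  exact mem_image.2 ⟨(grpOf (pen r), _), mem_product.2 ⟨mem_univ _, h⟩, rfl⟩

/-- An abscissa coordinate has one index. -/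
theorem Picked.idx_eq (hf : Picked f sh) (hQ : 2 ^ 100 ≤ q) {e e' : Entry K} (he : e ∈ entries)
    (he' : e' ∈ entries) (h : eKX f e = eKX f e') : e.1 = e'.1 := by
  rw [mem_entries] at he he'
  have side : ∀ (x : SIdx K) (r : Fin 5) (i : Fin 2) (r' : Fin 5), r ∈ actS x →
      r' ∈ actE (K := K) (.inr i) → eKX f (.inl x, r) ≠ eKX f (.inr i, r') := by
    intro x r i r' hr hr' h
    simp only [eKX, xCoord, Sum.inl.injEq, Prod.mk.injEq] at h
    refine hf.key_not_avoid hr ?_
    rw [show key (pen r) (eT f ((.inl x, r) : Entry K)) = _ from h.2]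
    have h2 := (key_side_entry hQ hr').1
    change key (eA ((.inr i, r') : Entry K)) (eT f ((.inr i, r') : Entry K)) ∈ avoidKeys q
    simp only [eA, eT]
    rw [h2]
    fin_cases i <;> simp [avoidKeys]
  obtain ⟨x | i, r⟩ := e <;> obtain ⟨y | i', r'⟩ := e'
  · by_contra hne
    have hxy : x ≠ y := fun hxy => hne (by rw [hxy])
    refine disjoint_left.1 (hf.disj x y hxy) (mem_image_of_mem (roleCoord (f x)) he) ?_
    have h' : roleCoord (f x) r = roleCoord (f y) r' := h
    rw [h']
    exact mem_image_of_mem _ he'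
  · exact absurd h (side x r i' r' he he')
  · exact absurd h.symm (side y r' i r he' he)
  · simp only [eKX, xCoord, Sum.inl.injEq, Prod.mk.injEq, eA] at h
    have := (key_side_entry (q := q) hQ he).2
    have := (key_side_entry (q := q) hQ he').2
    simp only [Sum.inr.injEq]
    have : (1 : Fin 2) - i = 1 - i' := by
      simp_all
    exact sub_right_injective this

/-- An ordinate coordinate has one entry. -/
theorem Picked.entry_eq (hf : Picked f sh) (hQ : 2 ^ 100 ≤ q) {e e' : Entry K} (he : e ∈ entries)
    (he' : e' ∈ entries) (h : eKY f e = eKY f e') : e = e' := by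
  simp only [eKY, yCoord, Sum.inr.injEq, Prod.mk.injEq] at h
  have h1 := hf.idx_eq hQ he he' (by simp only [eKX]; rw [h.1, h.2])
  rw [mem_entries] at he he'
  obtain ⟨x, r⟩ := e
  obtain ⟨x', r'⟩ := e'
  simp only at h1
  subst h1
  by_contra hne
  have hrr : r ≠ r' := fun e => hne (by rw [e])
  have T : ∀ r r' : Fin 5, pen r = pen r' → r ≠ r' → (r = 0 ∧ r' = 4) ∨ (r = 4 ∧ r' = 0) := by decide
  rcases x with x | i
  · have key4 : (4 : Fin 5) ∈ actS x →
        slopeTo (cen (base 0)) (f x) = slopeTo (cen (base 4)) (f x) → False := by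
      intro h4 hs
      have hq := one_thousand_le hQ
      have hg := (hf.good x).off hq
      have hl0 : lineIdx x ≠ idxS 0 := by
        rcases x with ⟨i, z⟩ | ⟨l, z⟩
        · have T : ∀ i, (4 : Fin 5) ∈ (![{2, 3}, {0, 1, 4}] : Fin 2 → Finset (Fin 5)) i →
              idxS i ≠ idxS 0 := by decide
          exact T i h4
        · have T : ∀ l, idxW l ≠ idxS 0 := by decide
          exact T l
      apply hl0
      apply hg.2.2.1
      have a0 := onLine_slopeTo (cen (base 0)) (f x)
      have a1 := onLine_slopeTo (cen (base 4)) (f x)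
      rw [← hs] at a1
      have e0 := lineThru_eq a0
      have e1 := lineThru_eq a1
      rw [lineThru_fst] at e0 e1
      have hc : OnLine (cen (base 4)) (lineThru (cen (q := q) (base 0))
          (slopeTo (cen (base 0)) (f x))) := by
        rw [← e0, e1]
        exact onLine_lineThru _ _
      have hne : cen (q := q) (base 4) ≠ cen (base 0) := fun e =>
        absurd (cen_injective hq e) (by decide)
      rw [line_eq_of_two hne ((cen_on_sameSide hq (base 0) 0).2 (by decide))
        ((cen_on_sameSide hq (base 4) 0).2 (by decide)) (onLine_lineThru _ _) hc]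
      exact a0
    rcases T r r' h.1 hrr with ⟨rfl, rfl⟩ | ⟨rfl, rfl⟩
    · exact key4 he' h.2
    · exact key4 he h.2.symm
  · fin_cases i <;> simp [actE] at he he' <;> rcases T r r' h.1 hrr with ⟨rfl, rfl⟩ | ⟨rfl, rfl⟩ <;>
      simp_all

theorem eKX_mem {e : Entry K} (he : e ∈ entries) : eKX f e ∈ fixedSet f :=
  mem_union_left _ (mem_image_of_mem _ he)

theorem eKY_mem {e : Entry K} (he : e ∈ entries) : eKY f e ∈ fixedSet f :=
  mem_union_right _ (mem_image_of_mem _ he)

theorem xfix {a : Fin 4} {t : Slope q} (h : xCoord a t ∈ fixedSet f) :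
    ∃ e ∈ entries, eKX f e = xCoord a t := by
  rcases mem_union.1 h with h | h
  · obtain ⟨e, he, h'⟩ := mem_image.1 h
    exact ⟨e, he, h'⟩
  · obtain ⟨e, -, h'⟩ := mem_image.1 h
    simp [eKY, yCoord, xCoord] at h'

theorem yfix {a : Fin 4} {t : Slope q} (h : yCoord a t ∈ fixedSet f) :
    ∃ e ∈ entries, eA e = a ∧ eT f e = t := by
  rcases mem_union.1 h with h | h
  · obtain ⟨e, -, h'⟩ := mem_image.1 h
    simp [eKX, yCoord, xCoord] at h'
  · obtain ⟨e, he, h'⟩ := mem_image.1 h
    simp only [eKY, yCoord, Sum.inr.injEq, Prod.mk.injEq] at h'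
    exact ⟨e, he, h'⟩

theorem xfix_of_yfix {a : Fin 4} {t : Slope q} (h : yCoord a t ∈ fixedSet f) :
    xCoord a t ∈ fixedSet f := by
  obtain ⟨e, he, rfl, rfl⟩ := yfix h
  exact eKX_mem he

/-- A fixed abscissa. -/
theorem Picked.val_x (hf : Picked f sh) (hQ : 2 ^ 100 ≤ q) {e : Entry K} (he : e ∈ entries)
    {a : Fin 4} {t : Slope q} (h : eKX f e = xCoord a t) (v : K) :
    valMap f sh (xCoord a t) v = eX e.1 := by
  have hex : ∃ e ∈ entries, eKX f e = .inl (grpOf a, key a t) := ⟨e, he, h⟩
  simp only [valMap, xCoord]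
  rw [dif_pos hex, hf.idx_eq hQ hex.choose_spec.1 he (hex.choose_spec.2.trans h.symm)]

/-- The label of an entry. -/
theorem Picked.labels_entry (hf : Picked f sh) (hQ : 2 ^ 100 ≤ q)
    (num : Option K → ZMod (modM K)) (ω : Coord q → K) {e : Entry K} (he : e ∈ entries) :
    (mkLayout f sh num).labels ω (eA e) (eT f e) = (eX e.1, eY sh e) := by
  simp only [Layout.labels, mkLayout]
  rw [hf.val_x hQ he rfl]
  have hex : ∃ e' ∈ entries, eKY f e' = .inr (eA e, eT f e) := ⟨e, he, rfl⟩
  simp only [valMap, yCoord]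
  rw [dif_pos hex, hf.entry_eq hQ hex.choose_spec.1 he hex.choose_spec.2]

/-- The label of a special point. -/
theorem Picked.lab_point (hf : Picked f sh) (hQ : 2 ^ 100 ≤ q)
    (num : Option K → ZMod (modM K)) (ω : Coord q → K) (dir : Slope q → K)
    (Z : Slope q → Finset (Slope q)) {x : SIdx K} {r : Fin 5} (hr : r ∈ actS x) (h4 : r ≠ 4) :
    ((mkLayout f sh num).toData ω dir Z).lab (pen r) (f x) = (eX (.inl x), eY sh (.inl x, r)) := by
  have hne : ¬ ∃ j, OnLine (cen (pen r)) (crossSide (q := q) j) ∧ OnLine (f x) (crossSide j) :=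
    fun ⟨j, _, h⟩ => ((hf.good x).off (one_thousand_le hQ)).2.1 ⟨j, h⟩
  have he : ((.inl x, r) : Entry K) ∈ entries := mem_entries.2 hr
  simp only [Data.lab, effPencil, if_neg hne, Layout.toData]
  rw [← hf.labels_entry hQ num ω he]
  simp [eA, eT, pen_eq_base r h4]

/-- The two halves of `pickLow` and `pickHigh`. -/
theorem pickLow_cases [CharP K 2] (v : K) :
    (pickLow v = v ∨ pickLow v = v + 1) ∧
      Fintype.equivFin K (pickLow v) < Fintype.equivFin K (pickLow v + 1) := by
  have h11 : v + 1 + 1 = v := by rw [add_assoc, CharTwo.add_self_eq_zero, add_zero]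
  unfold pickLow
  split_ifs with h
  · exact ⟨.inl rfl, lt_of_le_of_ne h fun e => by simpa using (Fintype.equivFin K).injective e⟩
  · rw [h11]
    exact ⟨.inr rfl, not_le.1 h⟩

theorem pickLow_ne_pickHigh [CharP K 2] (v w : K) : pickLow v ≠ pickHigh w := by
  intro h
  have h1 := (pickLow_cases v).2
  have h2 := (pickLow_cases w).2
  rw [pickHigh] at h
  rw [h, add_assoc, CharTwo.add_self_eq_zero, add_zero] at h1
  exact lt_asymm h1 h2

theorem pick_fibre [CharP K 2] (v : K) :
    (univ.filter fun w : K => pickLow w = v).card ≤ 2 ∧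
      (univ.filter fun w : K => pickHigh w = v).card ≤ 2 := by
  have hsub : ∀ u : K, (univ.filter fun w : K => pickLow w = u).card ≤ 2 := fun u => by
    refine (card_le_card (t := {u, u + 1}) fun w hw => ?_).trans card_le_two
    rcases (pickLow_cases w).1 with h | h <;> rw [(mem_filter.1 hw).2] at h
    · simp [h]
    · simp [h, add_assoc, CharTwo.add_self_eq_zero]
  refine ⟨hsub v, (card_le_card fun w hw => ?_).trans (hsub (v + 1))⟩
  refine mem_filter.2 ⟨mem_univ _, ?_⟩
  rw [← (mem_filter.1 hw).2, pickHigh, add_assoc, CharTwo.add_self_eq_zero, add_zero]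

theorem avoidVal_fibre (c v : K) : (univ.filter fun w : K => avoidVal c w = v).card ≤ 2 := by
  refine (card_le_card (t := {v, c}) fun w hw => ?_).trans card_le_two
  have h := (mem_filter.1 hw).2
  unfold avoidVal at h
  split_ifs at h with hc
  · simp [hc]
  · simp [h]

theorem avoidVal_ne (c v : K) : avoidVal c v ≠ c := by
  unfold avoidVal
  split_ifs with h
  · simp
  · exact h

end

end Vale.Agent.P045
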