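import Mathlib
import Vale.Agent.P045.LayoutEnt

/-!
# P045: counting the prescribed coordinates
-/

namespace Vale.Agent.P045

open Finset

set_option linter.unusedSectionVars false

variable {q : ℕ} [Fact q.Prime] {K : Type*} [Field K] [Fintype K] [DecidableEq K]
  {f : SIdx K → Pt q} {sh : ShiftIdx → K}

/-- A family of indices, forgetting only the element of `K`. -/
abbrev Fam := (Fin 2 × Fin 21) ⊕ ((Fin 6 × Fin 12) ⊕ Fin 2)

/-- The family of an index. -/
def famOf : EIdx K → Fam
  | .inl (.inl (i, g, _)) => .inl (i, g)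
  | .inl (.inr (l, i, _)) => .inr (.inl (l, i))
  | .inr i => .inr (.inr i)

open Classical in
/-- Few indices have their abscissa in given small sets. -/
theorem card_idx_le (S : Fam → Finset K) (n : ℕ) (hS : ∀ F, (S F).card ≤ n) :
    (univ.filter fun x : EIdx K => eX x ∈ S (famOf x)).card ≤ 42 * (n + 1) + 72 * n + 2 := by
  let A : Finset (EIdx K) := (univ : Finset (Fin 2 × Fin 21)).biUnion fun ig =>
    (insert none ((S (.inl ig)).image some)).image fun z => .inl (.inl (ig.1, ig.2, z))
  let B : Finset (EIdx K) := (univ : Finset (Fin 6 × Fin 12)).biUnion fun li =>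
    (S (.inr (.inl li))).image fun x => .inl (.inr (li.1, li.2, x))
  let C : Finset (EIdx K) := (univ : Finset (Fin 2)).image Sum.inr
  have hA : A.card ≤ 42 * (n + 1) := by
    refine (card_biUnion_le_card_mul _ _ (n + 1) fun ig _ => card_image_le.trans
      ((card_insert_le _ _).trans (Nat.add_le_add_right (card_image_le.trans (hS _)) 1))).trans ?_
    simp
  have hB : B.card ≤ 72 * n := by
    refine (card_biUnion_le_card_mul _ _ n fun li _ => card_image_le.trans (hS _)).trans ?_
    simp
  have hC : C.card ≤ 2 := card_image_le.trans (by simp)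
  refine (card_le_card (t := A ∪ B ∪ C) ?_).trans ?_
  · intro x hx
    obtain ⟨-, hx⟩ := mem_filter.1 hx
    rcases x with (⟨i, g, z⟩ | ⟨l, i, y⟩) | i
    · refine mem_union_left _ (mem_union_left _ ?_)
      refine mem_biUnion.2 ⟨(i, g), mem_univ _, mem_image.2 ⟨z, ?_, rfl⟩⟩
      rcases z with _ | y
      · exact mem_insert_self _ _
      · exact mem_insert_of_mem (mem_image.2 ⟨y, hx, rfl⟩)
    · refine mem_union_left _ (mem_union_right _ ?_)
      exact mem_biUnion.2 ⟨(l, i), mem_univ _, mem_image.2 ⟨y, hx, rfl⟩⟩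
    · exact mem_union_right _ (mem_image.2 ⟨i, mem_univ _, rfl⟩)
  · exact (card_union_le _ _).trans
      (Nat.add_le_add ((card_union_le _ _).trans (Nat.add_le_add hA hB)) hC)

theorem eC_fam {x y : EIdx K} (h : famOf x = famOf y) (r : Fin 5) : eC sh (x, r) = eC sh (y, r) := by
  rcases x with (⟨i, g, z⟩ | ⟨l, i, u⟩) | i <;> rcases y with (⟨i', g', z'⟩ | ⟨l', i', u'⟩) | i' <;>
    simp_all [famOf, eC]

open Classical in
/-- A line of the label plane holds few prescribed labels of one pencil. -/
theorem Picked.fixed_load_le (hf : Picked f sh) (hQ : 2 ^ 100 ≤ q)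
    (num : Option K → ZMod (modM K)) (a : Fin 4) (ξ : Option K × K) :
    (univ.filter fun t : Slope q => yCoord a t ∈ fixedSet f ∧
      ∀ ω, Data.InVLine ξ ((mkLayout f sh num).labels ω a t)).card ≤ 3000 := by
  let R : Finset (Fin 5) := univ.filter fun r => pen r = a
  let G : Fin 5 → Finset (EIdx K) := fun r =>
    univ.filter fun x => Data.InVLine ξ (eX x, eY sh (x, r))
  have hR : R.card ≤ 2 := by
    revert a; decide
  have hG : ∀ r, (G r).card ≤ 272 := by
    intro r
    rcases ξ with ⟨_ | d, e⟩
    · refine (card_le_card ?_).trans ((card_idx_le (fun _ => ({e} : Finset K)) 2 (by simp)).trans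
        (by norm_num))
      intro x hx
      obtain ⟨-, hx⟩ := mem_filter.1 hx
      exact mem_filter.2 ⟨mem_univ _, mem_singleton.2 hx⟩
    · let P : Fam → K → Prop := fun F v => ∃ x : EIdx K, famOf x = F ∧
        v ^ 2 + eC sh (x, r) - d * v = e
      let S : Fam → Finset K := fun F => univ.filter (P F)
      have hS : ∀ F, (S F).card ≤ 2 := by
        intro F
        rcases (S F).eq_empty_or_nonempty with h | ⟨v, hv⟩
        · simp [h]
        · refine (card_le_card (t := {v, d - v}) fun w hw => ?_).trans card_le_two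
          obtain ⟨x, hx, hxv⟩ := (mem_filter.1 hv).2
          obtain ⟨y, hy, hyw⟩ := (mem_filter.1 hw).2
          rw [eC_fam (hy.trans hx.symm) r] at hyw
          have h0 : (w - v) * (w + v - d) = 0 := by linear_combination hyw - hxv
          rcases mul_eq_zero.1 h0 with h1 | h1
          · simp [sub_eq_zero.1 h1]
          · simp [show w = d - v by linear_combination h1]
      refine (card_le_card ?_).trans ((card_idx_le S 2 hS).trans (by norm_num))
      intro x hx
      obtain ⟨-, hx⟩ := mem_filter.1 hx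
      refine mem_filter.2 ⟨mem_univ _, mem_filter.2 ⟨mem_univ _, x, rfl, ?_⟩⟩
      simpa [Data.InVLine, coset, eY] using hx
  refine (card_le_card (t := (R.biUnion fun r => (G r).image fun x => eT f (x, r))) ?_).trans ?_
  · intro t ht
    obtain ⟨-, hy, hω⟩ := mem_filter.1 ht
    obtain ⟨e, he, rfl, rfl⟩ := yfix hy
    have h := hω fun _ => 0
    rw [hf.labels_entry hQ num _ he] at h
    exact mem_biUnion.2 ⟨e.2, mem_filter.2 ⟨mem_univ _, rfl⟩,
      mem_image.2 ⟨e.1, mem_filter.2 ⟨mem_univ _, h⟩, rfl⟩⟩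
  · refine (card_biUnion_le_card_mul _ _ 272 fun r _ => card_image_le.trans (hG r)).trans ?_
    exact (Nat.mul_le_mul_right _ hR).trans (by norm_num)

open Classical in
/-- Few slopes of a pencil have a prescribed abscissa. -/
theorem fixed_count_le (hq : 1000 ≤ q) (hm : 2 ≤ Fintype.card K) (a : Fin 4) :
    (univ.filter fun t : Slope q => xCoord a t ∈ fixedSet f).card ≤ 5000 * Fintype.card K := by
  refine (card_le_card (t := (univ : Finset (Entry K)).biUnion fun e =>
    univ.filter fun t : Slope q => key a t = key (eA e) (eT f e)) ?_).trans ?_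
  · intro t ht
    obtain ⟨e, -, he⟩ := xfix (mem_filter.1 ht).2
    simp only [eKX, xCoord, Sum.inl.injEq, Prod.mk.injEq] at he
    exact mem_biUnion.2 ⟨e, mem_univ _, mem_filter.2 ⟨mem_univ _, he.2.symm⟩⟩
  · refine (card_biUnion_le_card_mul _ _ 6 fun e _ => key_fibre_le hq a _).trans ?_
    simp only [card_univ, Fintype.card_prod, Fintype.card_sum, Fintype.card_fin,
      Fintype.card_option]
    omega

open Classical in
/-- Few slopes of a pencil have a given prescribed abscissa. -/
theorem Picked.fixed_load_x_le (hf : Picked f sh) (hQ : 2 ^ 100 ≤ q)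
    (num : Option K → ZMod (modM K)) (a : Fin 4) (v : K) :
    (univ.filter fun t : Slope q => xCoord a t ∈ fixedSet f ∧
      ∀ ω, ((mkLayout f sh num).labels ω a t).1 = v).card ≤ 3000 := by
  let R : Finset (Fin 5) := univ.filter fun r => grpOf (pen r) = grpOf a
  let G : Finset (EIdx K) := univ.filter fun x => eX x ∈ ({v} : Finset K)
  have hR : R.card ≤ 3 := by
    revert a; decide
  have hG : G.card ≤ 158 :=
    (card_idx_le (fun _ => ({v} : Finset K)) 1 (by simp)).trans (by norm_num)
  refine (card_le_card (t := (G ×ˢ R).biUnion fun e : Entry K =>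
    univ.filter fun t : Slope q => key a t = key (eA e) (eT f e)) ?_).trans ?_
  · intro t ht
    obtain ⟨-, hx, hω⟩ := mem_filter.1 ht
    obtain ⟨e, he, hk⟩ := xfix hx
    have h := hω fun _ => 0
    simp only [Layout.labels, mkLayout] at h
    rw [hf.val_x hQ he hk] at h
    simp only [eKX, xCoord, Sum.inl.injEq, Prod.mk.injEq] at hk
    exact mem_biUnion.2 ⟨e, mem_product.2 ⟨mem_filter.2 ⟨mem_univ _, mem_singleton.2 h⟩,
      mem_filter.2 ⟨mem_univ _, hk.1⟩⟩, mem_filter.2 ⟨mem_univ _, hk.2.symm⟩⟩
  · refine (card_biUnion_le_card_mul _ _ 6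
      fun e _ => key_fibre_le (one_thousand_le hQ) a _).trans ?_
    rw [card_product]
    exact (Nat.mul_le_mul_right _ (Nat.mul_le_mul hG hR)).trans (by norm_num)

open Classical in
/-- The slopes of one key with a prescribed ordinate. -/
noncomputable def badSlopes (f : SIdx K → Pt q) (a : Fin 4) (k : ZMod q) : Finset (Slope q) :=
  univ.filter fun t => key a t = some k ∧ yCoord a t ∈ fixedSet f

open Classical in
/-- At most as many as there are roles in the pencil. -/
theorem Picked.bad_le (hf : Picked f sh) (hQ : 2 ^ 100 ≤ q) (a : Fin 4) (k : ZMod q) :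
    (badSlopes f a k).card ≤ (univ.filter fun r : Fin 5 => pen r = a).card := by
  rcases (badSlopes f a k).eq_empty_or_nonempty with h | ⟨t₀, ht₀⟩
  · simp [h]
  obtain ⟨-, hk₀, hy₀⟩ := mem_filter.1 ht₀
  obtain ⟨e₀, he₀, ha₀, hT₀⟩ := yfix hy₀
  refine (card_le_card (t := (univ.filter fun r => pen r = a).image fun r => eT f (e₀.1, r))
    ?_).trans card_image_le
  intro t ht
  obtain ⟨-, hk, hy⟩ := mem_filter.1 ht
  obtain ⟨e, he, ha, hT⟩ := yfix hy
  have h1 := hf.idx_eq hQ he he₀ (by
    simp only [eKX, xCoord]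
    rw [ha, ha₀, hT, hT₀, hk, hk₀])
  exact mem_image.2 ⟨e.2, mem_filter.2 ⟨mem_univ _, ha⟩, by rw [← h1]; exact hT⟩

/-- An avoided key only has the prescription of a same side slope. -/
theorem Picked.bad_avoid (hf : Picked f sh) (hQ : 2 ^ 100 ≤ q) {a : Fin 4} {k : ZMod q}
    (hk : some k ∈ avoidKeys q) {t : Slope q} (ht : t ∈ badSlopes f a k) :
    ∃ i : Fin 2, t = (sameSide i).1 ∧ k = ![side0Key q, 54] i ∧ grpOf a = 1 - i := by
  classical
  obtain ⟨-, hkey, hy⟩ := mem_filter.1 ht
  obtain ⟨e, he, rfl, rfl⟩ := yfix hy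
  rw [mem_entries] at he
  rcases e with ⟨x | i, r⟩
  · exact absurd (hkey.symm ▸ hk) (hf.key_not_avoid he)
  · obtain ⟨h1, h2⟩ := key_side_entry (q := q) hQ he
    simp only [eA, eT] at hkey
    rw [h1, Option.some.injEq] at hkey
    exact ⟨i, rfl, hkey.symm, h2⟩

end Vale.Agent.P045
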