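import Mathlib
import Vale.Agent.P045.LayoutCount

/-!
# P045: candidates for mates on a cross side
-/

namespace Vale.Agent.P045

open Finset

set_option linter.unusedSectionVars false

variable {q : ℕ} [Fact q.Prime] {K : Type*} [Field K] [Fintype K] [DecidableEq K]
  {f : SIdx K → Pt q} {sh : ShiftIdx → K}

theorem cross_centres : ∀ j : Fin 2 × Fin 2,
    grpOf (partner (crossA j)) = 0 ∧ grpOf (partner (crossC j)) = 1 ∧
      partner (crossA j) ≠ crossA j ∧ partner (crossA j) ≠ crossC j ∧
      partner (crossC j) ≠ crossA j ∧ partner (crossC j) ≠ crossC j ∧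
      (univ.filter fun r : Fin 5 => pen r = partner (crossA j)).card ≤ 2 ∧
      (univ.filter fun r : Fin 5 => pen r = partner (crossC j)).card ≤ 1 := by
  decide +kernel

theorem cen_not_on_cross (hq : 1000 ≤ q) (j : Fin 2 × Fin 2) :
    ¬ OnLine (cen (partner (crossA j))) (crossSide (q := q) j) ∧
      ¬ OnLine (cen (partner (crossC j))) (crossSide (q := q) j) := by
  obtain ⟨-, -, h1, h2, h3, h4, -⟩ := cross_centres j
  rw [cen_on_crossSide hq, cen_on_crossSide hq]
  exact ⟨fun h => h.elim h1 h2, fun h => h.elim h3 h4⟩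

/-- A point of exactly one cross side has a key from the opposite centre. -/
theorem key_some_of_single (hq : 1000 ≤ q) {j : Fin 2 × Fin 2} {P : Pt q} (hP : ¬ IsCen P)
    (hj : OnLine P (crossSide j)) (hu : ∀ j', OnLine P (crossSide j') → j' = j) :
    ∃ k, key (partner (crossA j)) (slopeTo (cen (partner (crossA j))) P) = some k := by
  rcases hk : key (partner (crossA j)) (slopeTo (cen (partner (crossA j))) P) with _ | k
  · obtain ⟨o, ho, hol⟩ := exists_cen_of_key_none hq hk
    have hP' := onLine_slopeTo (cen (partner (crossA j))) P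
    rcases two_cen hq ho hol (onLine_lineThru _ _) with ⟨i, hi⟩ | ⟨j', hj'⟩
    · rw [hi] at hP'
      exact absurd ⟨j, hj⟩ (sameSide_cross hq hP hP')
    · rw [hj'] at hP'
      have := hu j' hP'
      subst this
      exact absurd (hj' ▸ onLine_lineThru _ _) (cen_not_on_cross hq j').1
  · exact ⟨k, rfl⟩

/-- The keys of points with few candidates. -/
def IsExcKey (k : ZMod q) : Prop := k = 0 ∨ k = 54 ∨ InFive k

/-- The keys of `IsExcKey`, as a finset. -/
def excKeys (q : ℕ) [Fact q.Prime] : Finset (ZMod q) :=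
  {0, 54} ∪ fiveKeys.toFinset.image fun nd => (nd.1 : ZMod q) / (nd.2 : ZMod q)

theorem mem_excKeys {k : ZMod q} (h : IsExcKey k) : k ∈ excKeys q := by
  rcases h with rfl | rfl | ⟨nd, hnd, rfl⟩
  · simp [excKeys]
  · simp [excKeys]
  · exact mem_union_right _ (mem_image.2 ⟨nd, List.mem_toFinset.2 hnd, rfl⟩)

open Classical in
/-- The points with few candidates. -/
noncomputable def excPts (q : ℕ) [Fact q.Prime] : Finset (Pt q) :=
  ((univ : Finset (Fin 2 × Fin 2)) ×ˢ excKeys q).biUnion fun jk =>
    univ.filter fun P => OnLine P (crossSide jk.1) ∧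
      key (partner (crossA jk.1)) (slopeTo (cen (partner (crossA jk.1))) P) = some jk.2

theorem excPts_card (hq : 1000 ≤ q) : (excPts q).card ≤ 200 := by
  classical
  refine (card_biUnion_le_card_mul _ _ 6 fun jk _ => ?_).trans ?_
  · refine (card_le_card_of_injOn (slopeTo (cen (partner (crossA jk.1)))) ?_ ?_).trans
      (key_fibre_le hq (partner (crossA jk.1)) (some jk.2))
    · exact fun P hP => mem_filter.2 ⟨mem_univ _, (mem_filter.1 hP).2.2⟩
    · exact fun P hP P' hP' h => slopeTo_injOn (cen_not_on_cross hq jk.1).1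
        (mem_filter.1 hP).2.1 (mem_filter.1 hP').2.1 h
  · have h7 : (excKeys q).card ≤ 7 :=
      (card_union_le _ _).trans
        (Nat.add_le_add (b := 2) (d := 5) card_le_two (card_image_le.trans (by decide)))
    rw [card_product, card_univ, Fintype.card_prod, Fintype.card_fin]
    omega

open Classical in
/-- The candidates: points of the side with the key of `P` and free ordinates. -/
noncomputable def mateSet (f : SIdx K → Pt q) (j : Fin 2 × Fin 2) (P : Pt q) : Finset (Pt q) :=
  univ.filter fun p => p ≠ P ∧ OnLine p (crossSide j) ∧ ¬ IsCen p ∧ ¬ OnW p ∧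
    key (partner (crossA j)) (slopeTo (cen (partner (crossA j))) p) =
      key (partner (crossA j)) (slopeTo (cen (partner (crossA j))) P) ∧
    yCoord (partner (crossA j)) (slopeTo (cen (partner (crossA j))) p) ∉ fixedSet f ∧
    yCoord (partner (crossC j)) (slopeTo (cen (partner (crossC j))) p) ∉ fixedSet f

open Classical in
/-- The slopes lost to infinity and to the auxiliary lines. -/
noncomputable def lostSlopes (j : Fin 2 × Fin 2) (k : ZMod q) : Finset (Slope q) :=
  univ.filter fun t => key (partner (crossA j)) t = some k ∧ (t = (crossSide j).1 ∨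
    ∃ p, OnLine p (crossSide j) ∧ OnW p ∧ ¬ IsCen p ∧
      slopeTo (cen (partner (crossA j))) p = t)

theorem lost_spec (hQ : 2 ^ 100 ≤ q) (j : Fin 2 × Fin 2) (k : ZMod q) :
    (lostSlopes j k).card ≤ 3 ∧ (¬ InFive k → lostSlopes j k = ∅) := by
  classical
  have hq := one_thousand_le hQ
  constructor
  · let W : Finset (Pt q) := (crossingW j).biUnion fun l =>
      univ.filter fun p => OnLine p (crossSide j) ∧ OnLine p (wLine l) ∧ ¬ IsCen p
    have hW : W.card ≤ 2 := by
      refine (card_biUnion_le_card_mul _ _ 1 fun l _ => card_le_one.2 fun p hp p' hp' => ?_).trans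
        (by have := crossingW_card j; omega)
      obtain ⟨-, hpj, hpl, -⟩ := mem_filter.1 hp
      obtain ⟨-, hpj', hpl', -⟩ := mem_filter.1 hp'
      refine pt_eq_of_two (fun h => ?_) hpj' hpj hpl' hpl
      exact cen_not_on_wLine hq (crossA j) l (h ▸ (cen_on_crossSide hq _ j).2 (.inl rfl))
    refine (card_le_card (t := insert (crossSide (q := q) j).1
      (W.image (slopeTo (cen (partner (crossA j)))))) ?_).trans
      ((card_insert_le _ _).trans (Nat.add_le_add_right (card_image_le.trans hW) 1))
    intro t ht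
    obtain ⟨-, hk, rfl | ⟨p, hpj, ⟨l, hl⟩, hpc, rfl⟩⟩ := mem_filter.1 ht
    · exact mem_insert_self _ _
    · exact mem_insert_of_mem (mem_image.2 ⟨p, mem_biUnion.2 ⟨l, (key_crossing hQ hpc hpj hl hk).1,
        mem_filter.2 ⟨mem_univ _, hpj, hl, hpc⟩⟩, rfl⟩)
  · intro hk5
    refine eq_empty_of_forall_notMem fun t ht => hk5 ?_
    obtain ⟨-, hk, rfl | ⟨p, hpj, ⟨l, hl⟩, hpc, rfl⟩⟩ := mem_filter.1 ht
    · exact key_crossSide_slope hQ j k hk
    · exact (key_crossing hQ hpc hpj hl hk).2

/-- The basic count. -/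
theorem mate_count (hQ : 2 ^ 100 ≤ q) {j : Fin 2 × Fin 2} {P : Pt q} {k : ZMod q}
    (hk : key (partner (crossA j)) (slopeTo (cen (partner (crossA j))) P) = some k) :
    (univ.filter fun t : Slope q => key (partner (crossA j)) t = some k).card ≤
      (mateSet f j P).card + 1 + (lostSlopes j k).card +
        (badSlopes f (partner (crossA j)) k).card + (badSlopes f (partner (crossC j)) k).card := by
  classical
  have hq := one_thousand_le hQ
  set b := partner (crossA j) with hb
  set d := partner (crossC j) with hd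
  obtain ⟨hcb, hcd⟩ := cen_not_on_cross (q := q) hq j
  let D : Finset (Pt q) := univ.filter fun p => OnLine p (crossSide j) ∧
    slopeTo (cen d) p ∈ badSlopes f d k
  have hD : D.card ≤ (badSlopes f d k).card :=
    card_le_card_of_injOn (slopeTo (cen d)) (fun p hp => (mem_filter.1 hp).2.2)
      fun p hp p' hp' h => slopeTo_injOn hcd (mem_filter.1 hp).2.1 (mem_filter.1 hp').2.1 h
  refine (card_le_card (t := (mateSet f j P).image (slopeTo (cen b)) ∪ {slopeTo (cen b) P} ∪
    lostSlopes j k ∪ badSlopes f b k ∪ D.image (slopeTo (cen b))) ?_).trans ?_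
  · intro t ht
    have hkt := (mem_filter.1 ht).2
    by_cases hs : t = (crossSide j).1
    · simp [lostSlopes, ← hs, hkt, ← hb]
    obtain ⟨p, hpj, rfl⟩ := exists_slopeTo hcb hs
    have hpc : ¬ IsCen p := by
      rintro ⟨o, rfl⟩
      rw [key_slopeTo_cen hq (fun h : o = b => hcb (by subst h; exact hpj))] at hkt
      exact absurd hkt (by simp)
    have hpd : key d (slopeTo (cen d) p) = some k := by
      rw [← key_cross_eq hq hpc j hpj]; exact hkt
    simp only [mem_union, mem_image, mem_singleton]
    by_cases hPp : p = P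
    · exact .inl (.inl (.inl (.inr (by rw [hPp]))))
    by_cases hW : OnW p
    · exact .inl (.inl (.inr (mem_filter.2 ⟨mem_univ _, hkt, .inr ⟨p, hpj, hW, hpc, rfl⟩⟩)))
    by_cases hyb : yCoord b (slopeTo (cen b) p) ∈ fixedSet f
    · exact .inl (.inr (mem_filter.2 ⟨mem_univ _, hkt, hyb⟩))
    by_cases hyd : yCoord d (slopeTo (cen d) p) ∈ fixedSet f
    · exact .inr ⟨p, mem_filter.2 ⟨mem_univ _, hpj, mem_filter.2 ⟨mem_univ _, hpd, hyd⟩⟩, rfl⟩
    · exact .inl (.inl (.inl (.inl ⟨p, mem_filter.2 ⟨mem_univ _, hPp, hpj, hpc, hW,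
        hkt.trans hk.symm, hyb, hyd⟩, rfl⟩)))
  · refine (card_union_le _ _).trans (Nat.add_le_add ((card_union_le _ _).trans (Nat.add_le_add
      ((card_union_le _ _).trans (Nat.add_le_add ((card_union_le _ _).trans
        (Nat.add_le_add card_image_le (card_singleton _).le)) le_rfl)) le_rfl))
      (card_image_le.trans hD))

/-- Enough candidates. -/
theorem Picked.mates (hf : Picked f sh) (hQ : 2 ^ 100 ≤ q) (j : Fin 2 × Fin 2) {P : Pt q}
    (hP : ¬ IsCen P) (hj : OnLine P (crossSide j))
    (hu : ∀ j', OnLine P (crossSide j') → j' = j) :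
    1 ≤ (mateSet f j P).card ∧ (P ∉ excPts q → 2 ≤ (mateSet f j P).card) ∧
      (P ∉ excPts q → (∀ a, a = crossA j ∨ a = crossC j →
          xCoord (partner a) (slopeTo (cen (partner a)) P) ∉ fixedSet f) →
        5 ≤ (mateSet f j P).card) := by
  classical
  have hq := one_thousand_le hQ
  obtain ⟨k, hk⟩ := key_some_of_single hq hP hj hu
  have hcount := mate_count (f := f) hQ hk
  obtain ⟨hg0, hg1, -, -, -, -, hpb, hpd⟩ := cross_centres j
  obtain ⟨hge6, hge3, hge2⟩ := key_fibre_ge hq _ hk
  obtain ⟨hl3, hl0⟩ := lost_spec (q := q) hQ j k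
  have hbb := (hf.bad_le hQ (partner (crossA j)) k).trans hpb
  have hbd := (hf.bad_le hQ (partner (crossC j)) k).trans hpd
  obtain ⟨hs0, hs54, h540⟩ := sideKey_ne (q := q) hQ
  have fin10 : ∀ i : Fin 2, (0 : Fin 2) = 1 - i → i = 1 := by decide
  have fin11 : ∀ i : Fin 2, (1 : Fin 2) = 1 - i → i = 0 := by decide
  by_cases hexc : IsExcKey k
  · have hPE : P ∈ excPts q :=
      mem_biUnion.2 ⟨(j, k), mem_product.2 ⟨mem_univ _, mem_excKeys hexc⟩,
        mem_filter.2 ⟨mem_univ _, hj, hk⟩⟩
    refine ⟨?_, fun h => absurd hPE h, fun h => absurd hPE h⟩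
    rcases hexc with rfl | rfl | h5
    · have e0 : lostSlopes j (0 : ZMod q) = ∅ := hl0 fun h => (inFive_ne hQ h).1 rfl
      have hav : some (0 : ZMod q) ∈ avoidKeys q := by simp [avoidKeys]
      have e1 : ∀ a, badSlopes f a (0 : ZMod q) = ∅ := fun a =>
        eq_empty_of_forall_notMem fun t ht => by
          obtain ⟨i, -, h, -⟩ := hf.bad_avoid hQ hav ht
          fin_cases i
          · exact hs0 (by simpa [side0Key] using h.symm)
          · exact h540 (by simpa using h.symm)
      rw [e0, e1, e1, card_empty] at hcount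
      omega
    · have e0 : lostSlopes j (54 : ZMod q) = ∅ := hl0 fun h => (inFive_ne hQ h).2 rfl
      have hav : some (54 : ZMod q) ∈ avoidKeys q := by simp [avoidKeys]
      have e1 : (badSlopes f (partner (crossA j)) (54 : ZMod q)).card ≤ 1 :=
        card_le_one.2 fun t ht t' ht' => by
          obtain ⟨i, rfl, -, h⟩ := hf.bad_avoid hQ hav ht
          obtain ⟨i', rfl, -, h'⟩ := hf.bad_avoid hQ hav ht'
          rw [fin10 i (hg0.symm.trans h), fin10 i' (hg0.symm.trans h')]
      have e2 : badSlopes f (partner (crossC j)) (54 : ZMod q) = ∅ :=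
        eq_empty_of_forall_notMem fun t ht => by
          obtain ⟨i, -, h, h'⟩ := hf.bad_avoid hQ hav ht
          rw [fin11 i (hg1.symm.trans h')] at h
          exact hs54 (by simpa [side0Key] using h.symm)
      rw [e0, e2, card_empty] at hcount
      have := hge3 rfl
      omega
    · obtain ⟨hk0, hk54⟩ := inFive_ne hQ h5
      have e1 : badSlopes f (partner (crossA j)) k = ∅ :=
        eq_empty_of_forall_notMem fun t ht => by
          obtain ⟨i, -, h, h'⟩ := hf.bad_avoid hQ (inFive_mem_avoidKeys h5) ht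
          rw [fin10 i (hg0.symm.trans h')] at h
          exact hk54 (by simpa using h)
      rw [e1, card_empty] at hcount
      have := hge6 hk0 hk54
      omega
  · simp only [IsExcKey, not_or] at hexc
    obtain ⟨hk0, hk54, h5⟩ := hexc
    rw [hl0 h5, card_empty] at hcount
    have h6 := hge6 hk0 hk54
    refine ⟨by omega, fun _ => by omega, fun _ hX => ?_⟩
    have e1 : badSlopes f (partner (crossA j)) k = ∅ :=
      eq_empty_of_forall_notMem fun t ht => by
        obtain ⟨-, hkt, hy⟩ := mem_filter.1 ht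
        refine hX (crossA j) (.inl rfl) ?_
        simpa [xCoord, hkt, hk] using xfix_of_yfix hy
    have e2 : badSlopes f (partner (crossC j)) k = ∅ :=
      eq_empty_of_forall_notMem fun t ht => by
        obtain ⟨-, hkt, hy⟩ := mem_filter.1 ht
        refine hX (crossC j) (.inr rfl) ?_
        simpa [xCoord, hkt, (key_cross_eq hq hP j hj).symm.trans hk] using xfix_of_yfix hy
    rw [e1, e2, card_empty] at hcount
    omega

end Vale.Agent.P045
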