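import Mathlib
import Vale.Agent.P045.LayoutMates

/-!
# P045: a layout exists
-/

namespace Vale.Agent.P045

open Finset

set_option linter.unusedSectionVars false

variable {q : ℕ} [Fact q.Prime] {K : Type*} [Field K] [Fintype K] [DecidableEq K]
  {f : SIdx K → Pt q} {sh : ShiftIdx → K}

theorem roles_side : ∀ i : Fin 2, ∃ r r' : Fin 5,
    r ∈ (![{2, 3}, {0, 1, 4}] : Fin 2 → Finset (Fin 5)) i ∧
    r' ∈ (![{2, 3}, {0, 1, 4}] : Fin 2 → Finset (Fin 5)) i ∧
    r ∈ (![{2, 3}, {0, 1}] : Fin 2 → Finset (Fin 5)) i ∧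
    r' ∈ (![{2, 3}, {0, 1}] : Fin 2 → Finset (Fin 5)) i ∧
    pen r = fstC (1 - i) ∧ pen r' = sndC (1 - i) ∧ r ≠ 4 ∧ r' ≠ 4 ∧
    (r = 0 ∨ r = 2) ∧ (r' = 1 ∨ r' = 3) := by
  decide

theorem Picked.f_inj (hf : Picked f sh) : Function.Injective f := by
  intro x y h
  by_contra hne
  have T : ∀ x : SIdx K, ∃ r, r ∈ actS x := by
    rintro (⟨i, z⟩ | z)
    · obtain ⟨r, -, hr, -⟩ := roles_side i
      exact ⟨r, hr⟩
    · exact ⟨0, mem_univ _⟩
  have hk : ∀ k, k ≠ lineIdx x → lineIdx y ≠ k := fun k hk e =>
    (hf.good x).2 k hk (h ▸ e ▸ (hf.good y).1)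
  have hl : lineIdx y = lineIdx x := by_contra fun hn => hk _ hn rfl
  have hact : actS x = actS y := by
    have T2 : ∀ (i : Fin 2) (l : Fin 6), idxS i ≠ idxW l := by decide
    have T3 : ∀ i i' : Fin 2, idxS i = idxS i' → i = i' := by decide
    rcases x with ⟨i, z⟩ | ⟨l, z⟩ <;> rcases y with ⟨i', z'⟩ | ⟨l', z'⟩
    · obtain rfl := T3 i' i hl
      rfl
    · exact absurd hl.symm (T2 i l')
    · exact absurd hl (T2 i' l)
    · rfl
  obtain ⟨r, hr⟩ := T x
  refine disjoint_left.1 (hf.disj x y hne) (mem_image_of_mem (roleCoord (f x)) hr) ?_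
  rw [h]
  exact mem_image_of_mem _ (hact ▸ hr)

theorem Picked.layoutOK (hf : Picked f sh) (hQ : 2 ^ 100 ≤ q) (hm : 2 ≤ Fintype.card K)
    [CharP K 2] {num : Option K → ZMod (modM K)} (hnum : Function.Bijective num) :
    LayoutOK (mkLayout f sh num) := by
  classical
  have hq := one_thousand_le hQ
  have hoff := fun x => (hf.good x).off hq
  have T2 : ∀ (i : Fin 2) (l : Fin 6), idxS i ≠ idxW l := by decide
  have T3 : ∀ i i' : Fin 2, idxS i = idxS i' → i = i' := by decide
  have T4 : ∀ l l' : Fin 6, idxW l = idxW l' → l = l' := by decide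
  exact
  { num_bij := hnum
    sh_inj := hf.sh_inj
    sh_ne := fun i => (hf.sh_ne i).1
    om_inj := fun z z' h => by
      have := hf.f_inj h
      simp only [Sum.inl.injEq] at this
      exact this
    om_side := fun i g z => by
      rw [sameSide_eq_idx]; exact (hf.good (.inl (i, g, z))).1
    om_off := fun i g z => by
      refine ⟨(hoff _).1, (hoff _).2.1, ?_, fun i' hi' h => hi' (T3 _ _ ((hoff _).2.2.1 i' h)).symm⟩
      rintro ⟨l, hl⟩
      exact T2 i l ((hoff _).2.2.2 l hl)
    wp_inj := fun z z' h => by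
      have := hf.f_inj h
      simp only [Sum.inr.injEq] at this
      exact this
    wp_line := fun l i x => by
      refine ⟨by rw [wLine_eq_idx]; exact (hf.good (.inr (l, i, x))).1, ?_,
        fun l' h => (T4 _ _ ((hoff _).2.2.2 l' h)).symm⟩
      rintro (⟨i', h⟩ | h)
      · exact T2 i' l ((hoff _).2.2.1 i' h).symm
      · exact (hoff _).2.1 h
    om_fst := fun ω dir Z i g z => by
      obtain ⟨r, r', hr, hr', -, -, hp, hp', h4, h4', hv, hv'⟩ := roles_side i
      rw [← hp]
      refine (hf.lab_point hQ num ω dir Z (x := .inl (i, g, z)) hr h4).trans ?_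
      rcases hv with rfl | rfl <;> simp [eX, eY, eC]
    om_snd := fun ω dir Z i g z => by
      obtain ⟨r, r', hr, hr', -, -, hp, hp', h4, h4', hv, hv'⟩ := roles_side i
      rw [← hp']
      refine (hf.lab_point hQ num ω dir Z (x := .inl (i, g, z)) hr' h4').trans ?_
      rcases hv' with rfl | rfl <;> simp [eX, eY, eC, mkLayout]
    wp_lab := fun ω dir Z l i x a => by
      have T : ∀ a : Fin 4, ∃ r : Fin 5, pen r = a ∧ r ≠ 4 ∧ r = a.castSucc := by decide
      obtain ⟨r, hp, h4, hr⟩ := T a
      subst hp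
      refine (hf.lab_point hQ num ω dir Z (x := .inr (l, i, x)) (mem_univ r) h4).trans ?_
      fin_cases r <;> simp [eX, eY, eC, mkLayout, pen] at h4 ⊢ <;> ring
    row_special := fun ω dir Z p hp _ d => by
      obtain ⟨x, rfl, hx⟩ : ∃ x : SIdx K, f x = p ∧ (0 : Fin 5) ∈ actS x ∧ (4 : Fin 5) ∈ actS x := by
        rcases hp with ⟨g, z, rfl⟩ | ⟨l, i, y, rfl⟩
        · exact ⟨.inl (1, g, z), rfl, by simp [actS], by simp [actS]⟩
        · exact ⟨.inr (l, i, y), rfl, mem_univ _, mem_univ _⟩
      have h0 := hf.lab_point hQ num ω dir Z hx.1 (by decide)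
      have h4 := hf.labels_entry hQ num ω (e := (.inl x, 4)) (mem_entries.2 hx.2)
      change Layout.labels _ ω 0 (row (f x)) = _ at h4
      change Data.lab _ 0 (f x) = _ at h0
      rw [h0, h4]
      have hc : eC sh ((.inl x, 4) : Entry K) = eC sh ((.inl x, 0) : Entry K) + 1 := by
        rcases x with ⟨i, g, z⟩ | ⟨l, i, y⟩ <;> simp [eC]
      intro h
      simp only [coset, eY, hc] at h
      exact one_ne_zero (α := K) (by linear_combination -h)
    side_lab := fun ω i => by
      obtain ⟨r, r', -, -, hr, hr', hp, hp', -⟩ := roles_side i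
      rw [← hp, ← hp']
      exact (hf.labels_entry hQ num ω (e := (.inr i, r)) (mem_entries.2 hr)).trans
        (hf.labels_entry hQ num ω (e := (.inr i, r')) (mem_entries.2 hr')).symm
    side_X := fun ω dir Z i P hi hP => by
      have hne : ∀ a, ¬ ∃ j, OnLine (cen a) (crossSide (q := q) j) ∧ OnLine P (crossSide j) :=
        fun a ⟨j, _, h⟩ => sameSide_cross hq hP hi ⟨j, h⟩
      have hk := key_side_aux hq hP i hi
      have hg : ∀ i : Fin 2, grpOf (fstC i) = grpOf (sndC i) := by decide
      simp only [Data.lab, effPencil, if_neg (hne _), Layout.toData, Layout.labels, xCoord]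
      rw [hk, hg]
    val_fixed := fun c hc v w => by
      rcases c with ⟨γ, k⟩ | ⟨a, t⟩
      · have hex : ∃ e ∈ entries, eKX f e = .inl (γ, k) := by
          rcases mem_union.1 hc with h | h
          · obtain ⟨e, he, h'⟩ := mem_image.1 h
            exact ⟨e, he, h'⟩
          · obtain ⟨e, -, h'⟩ := mem_image.1 h
            simp [eKY, yCoord] at h'
        simp only [mkLayout, valMap, dif_pos hex]
      · have hex : ∃ e ∈ entries, eKY f e = .inr (a, t) := by
          rcases mem_union.1 hc with h | h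
          · obtain ⟨e, -, h'⟩ := mem_image.1 h
            simp [eKX, xCoord] at h'
          · obtain ⟨e, he, h'⟩ := mem_image.1 h
            exact ⟨e, he, h'⟩
        simp only [mkLayout, valMap, dif_pos hex]
    val_fibre := fun c hc v => by
      rcases c with ⟨γ, k⟩ | ⟨a, t⟩
      · have hex : ¬ ∃ e ∈ entries, eKX f e = .inl (γ, k) :=
          fun ⟨e, he, h'⟩ => hc (h' ▸ eKX_mem he)
        simp only [mkLayout, valMap, dif_neg hex]
        exact card_le_one.2 (by simp) |>.trans one_le_two
      · have hex : ¬ ∃ e ∈ entries, eKY f e = .inr (a, t) :=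
          fun ⟨e, he, h'⟩ => hc (h' ▸ eKY_mem he)
        simp only [mkLayout, valMap, dif_neg hex, softVal]
        split_ifs
        · exact (pick_fibre v).1
        · exact avoidVal_fibre _ v
        · exact (pick_fibre v).2
        · exact card_le_one.2 (by simp) |>.trans one_le_two
        · exact card_le_one.2 (by simp) |>.trans one_le_two
    val_free_x := fun a t hx => by
      have hx' : xCoord a t ∉ fixedSet f := hx
      have hy : yCoord a t ∉ fixedSet f := fun h => hx' (xfix_of_yfix h)
      have hexX : ¬ ∃ e ∈ entries, eKX f e = .inl (grpOf a, key a t) :=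
        fun ⟨e, he, h'⟩ => hx' (by rw [xCoord, ← h']; exact eKX_mem he)
      have hexY : ¬ ∃ e ∈ entries, eKY f e = .inr (a, t) :=
        fun ⟨e, he, h'⟩ => hy (by rw [yCoord, ← h']; exact eKY_mem he)
      refine ⟨fun v => by simp only [mkLayout, xCoord, valMap, dif_neg hexX, id], hy, fun v => ?_⟩
      simp only [mkLayout, yCoord, valMap, dif_neg hexY, softVal]
      split_ifs with h <;> try rfl
      all_goals
        exfalso
        apply hx'
      · subst a; exact h.1
      · subst a; exact h.2
      · subst a; exact h.2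
    fixed_count := fun a => fixed_count_le hq hm a
    fixed_load := fun a ξ => hf.fixed_load_le hQ num a ξ
    fixed_load_x := fun a x => hf.fixed_load_x_le hQ num a x
    fixed01 := fun ω s hs h0 h1 hL => by
      have h0' : xCoord 0 s ∈ fixedSet f := h0
      have h1' : xCoord 1 s ∈ fixedSet f := h1
      by_cases hy1 : yCoord 1 s ∈ fixedSet f
      · obtain ⟨⟨x, r⟩, he, hA, hT⟩ := yfix hy1
        rw [mem_entries] at he
        have T : ∀ r : Fin 5, pen r = 1 → r = 1 := by decide
        obtain rfl := T r hA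
        rcases x with x | i
        · have h4 : (4 : Fin 5) ∈ actS x := by
            rcases x with ⟨i, z⟩ | ⟨l, z⟩
            · have T1 : ∀ i, (1 : Fin 5) ∈ (![{2, 3}, {0, 1, 4}] : Fin 2 → Finset (Fin 5)) i →
                  (4 : Fin 5) ∈ (![{2, 3}, {0, 1, 4}] : Fin 2 → Finset (Fin 5)) i := by decide
              exact T1 i he
            · exact mem_univ _
          have e1 := hf.labels_entry hQ num ω (e := (.inl x, 1)) (mem_entries.2 he)
          have e4 := hf.labels_entry hQ num ω (e := (.inl x, 4)) (mem_entries.2 h4)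
          rw [show eA ((.inl x, (4 : Fin 5)) : Entry K) = 0 from rfl,
            show eT f ((.inl x, (4 : Fin 5)) : Entry K) = s from hT] at e4
          rw [hA, hT] at e1
          rw [e4, e1, Prod.mk.injEq] at hL
          have h := add_left_cancel (hL.2)
          rcases x with ⟨i, g, z⟩ | ⟨l, i, y⟩
          · simp [eC] at h
            exact (hf.sh_ne _).2 h.symm
          · simp [eC] at h
            exact (hf.sh_ne _).2 h.symm
        · exact hs (.inl ⟨i, hT⟩)
      · have hno1 : ¬ ∃ e ∈ entries, eKY f e = .inr ((1 : Fin 4), s) :=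
          fun ⟨e, he, h'⟩ => hy1 (by rw [yCoord, ← h']; exact eKY_mem he)
        have E1 : valMap f sh (yCoord 1 s) = softVal f sh 1 s := dif_neg hno1
        have hL2 : valMap f sh (yCoord 0 s) (ω (yCoord 0 s)) =
            valMap f sh (yCoord 1 s) (ω (yCoord 1 s)) := congrArg Prod.snd hL
        rw [E1] at hL2
        simp only [softVal, if_pos (And.intro h0' h1'), show (1 : Fin 4) ≠ 0 by decide, if_false,
          if_true] at hL2
        by_cases hy0 : ∃ e ∈ entries, eKY f e = yCoord (0 : Fin 4) s
        · rw [show valMap f sh (yCoord 0 s) = fun _ => eY sh hy0.choose from dif_pos hy0,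
            dif_pos hy0] at hL2
          exact avoidVal_ne _ _ hL2.symm
        · rw [show valMap f sh (yCoord 0 s) = softVal f sh 0 s from dif_neg hy0,
            dif_neg hy0] at hL2
          simp only [softVal, if_pos (And.intro h0' h1'), if_true] at hL2
          exact pickLow_ne_pickHigh _ _ hL2
    key_fibre := key_fibre_le hq
    key01 := key01_le hQ
    cross_key := fun j P h hP => key_cross_eq hq hP j h
    mates := by
      refine ⟨excPts q, excPts_card hq, fun j P hj hP hu => ⟨mateSet f j P, ?_⟩⟩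
      obtain ⟨h1, h2, h5⟩ := hf.mates hQ j hP hj hu
      refine ⟨h1, h2, h5, fun p hp => ?_⟩
      obtain ⟨-, hne, hpj, hpc, hpw, hkey, hyb, hyd⟩ := mem_filter.1 hp
      refine ⟨hne, hpj, hpc, hpw, ?_⟩
      rintro a (rfl | rfl)
      · exact ⟨hkey, hyb⟩
      · exact ⟨((key_cross_eq hq hpc j hpj).symm.trans hkey).trans (key_cross_eq hq hP j hj), hyd⟩ }

/-- A layout exists. -/
theorem layout_exists {q : ℕ} [Fact q.Prime] {K : Type*} [Field K] [Fintype K] [DecidableEq K]
    [CharP K 2] (hm : 2 ^ 60 ≤ Fintype.card K) (hq : Fintype.card K ^ 2 ≤ 1024 * q) :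
    LayoutExists q K := by
  classical
  have hQ : 2 ^ 100 ≤ q := by
    have h1 := (Nat.pow_le_pow_left hm 2).trans hq
    norm_num at h1 ⊢
    omega
  obtain ⟨f, hf1, hf2⟩ := exists_points hQ hm hq
  obtain ⟨e⟩ : Nonempty (ShiftIdx ↪ {v : K // v ≠ 0 ∧ v ≠ 1}) := by
    refine Function.Embedding.nonempty_of_card_le ?_
    have h : Fintype.card K ≤ Fintype.card {v : K // v ≠ 0 ∧ v ≠ 1} + 2 := by
      rw [Fintype.card_subtype]
      refine le_trans ?_ (Nat.add_le_add_left (card_le_two (a := (0 : K)) (b := 1)) _)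
      rw [← card_univ]
      refine (card_le_card fun v _ => ?_).trans (card_union_le _ _)
      by_cases h0 : v = 0
      · simp [h0]
      by_cases h1 : v = 1
      · simp [h1]
      simp [h0, h1]
    simp only [Fintype.card_sum, Fintype.card_prod, Fintype.card_fin]
    omega
  have hcard : Fintype.card (Option K) = Fintype.card (ZMod (modM K)) := by
    rw [Fintype.card_option, ZMod.card]
  let num : Option K ≃ ZMod (modM K) := Fintype.equivOfCardEq hcard
  let sh : ShiftIdx → K := fun i => (e i).1
  have hP : Picked f sh :=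
    { good := fun x => (hf1 x).1
      avoid := fun x => (hf1 x).2
      disj := hf2
      sh_inj := Subtype.val_injective.comp e.injective
      sh_ne := fun i => (e i).2 }
  exact ⟨mkLayout f sh num, hP.layoutOK hQ (by omega) num.bijective⟩

end Vale.Agent.P045
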