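import Mathlib
import Vale.Agent.P045.RandDefs
import Vale.Agent.P045.Geom
import Vale.Agent.P045.TriesCore
import Vale.Agent.P045.StageB

/-!
# P045: the tagged columns
-/

namespace Vale.Agent.P045

open Finset

variable {q : ℕ} [Fact q.Prime] {K : Type*} [Field K] [Fintype K] [DecidableEq K]

omit [Fintype K] in
/-- A line of the label plane meets another line in one value. -/
lemma vline_inter {ξ : Option K × K} {d c : K} (hne : ξ ≠ (some d, c)) {v v' : K × K}
    (h : Data.InVLine ξ v) (hv : coset d v = c) (h' : Data.InVLine ξ v') (hv' : coset d v' = c) :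
    v = v' := by
  obtain ⟨o, c'⟩ := ξ
  simp only [coset] at hv hv'
  cases o with
  | none =>
    simp only [Data.InVLine] at h h'
    exact Prod.ext (h.trans h'.symm) (by linear_combination hv - hv' + d * h - d * h')
  | some d' =>
    simp only [Data.InVLine, coset] at h h'
    by_cases he : d' = d
    · exact absurd (by subst he; rw [← h, ← hv]) hne
    · have h1 : (d' - d) * (v.1 - v'.1) = 0 := by linear_combination hv - hv' - h + h'
      have h2 : v.1 - v'.1 = 0 := (mul_eq_zero.1 h1).resolve_left (sub_ne_zero.2 he)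
      exact Prod.ext (sub_eq_zero.1 h2) (by linear_combination hv - hv' + d * h2)

open Classical in
/-- The points of `Ys` that tags of the slope `s` can delete. -/
noncomputable def hitPts (D : Data q K) (Ys : Finset (Pt q)) (s : Slope q) : Finset (Pt q) :=
  Ys.filter fun p => row p ≠ s ∧ coset (D.dir s) (D.L 1 (row p)) = coset (D.dir s) (D.L 1 s)

open Classical in
/-- All tags together can hit few points, counted with the candidates. -/
lemma sum_hits_le {D : Data q K} (hB : StageB D.L D.dir) (Ys : Finset (Pt q)) :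
    ∑ s : {s : Slope q // ¬ IsSideSlope s},
      ((D.tagCand s.1).filter (· ∈ (hitPts D Ys s.1).image col)).card ≤ Ys.card * (2 * kap) := by
  calc ∑ s : {s : Slope q // ¬ IsSideSlope s},
        ((D.tagCand s.1).filter (· ∈ (hitPts D Ys s.1).image col)).card
      ≤ ∑ s : {s : Slope q // ¬ IsSideSlope s},
        (Ys.filter fun p => col p ∈ D.tagCand s.1 ∧
          coset (D.dir s.1) (D.L 1 (row p)) = coset (D.dir s.1) (D.L 1 s.1)).card := by
        refine Finset.sum_le_sum fun s _ => ?_
        refine le_trans (card_le_card (t := (Ys.filter fun p => col p ∈ D.tagCand s.1 ∧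
          coset (D.dir s.1) (D.L 1 (row p)) = coset (D.dir s.1) (D.L 1 s.1)).image col)
          fun t ht => ?_) card_image_le
        obtain ⟨h1, h2⟩ := mem_filter.1 ht
        obtain ⟨p, hp, rfl⟩ := mem_image.1 h2
        obtain ⟨hpY, -, hkey⟩ := mem_filter.1 hp
        exact mem_image.2 ⟨p, mem_filter.2 ⟨hpY, h1, hkey⟩, rfl⟩
    _ = ∑ p ∈ Ys, (univ.filter fun s : {s : Slope q // ¬ IsSideSlope s} => col p ∈ D.tagCand s.1 ∧
          coset (D.dir s.1) (D.L 1 (row p)) = coset (D.dir s.1) (D.L 1 s.1)).card := by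
        simp only [card_filter]
        exact Finset.sum_comm
    _ ≤ Ys.card * (2 * kap) := by
        refine Finset.sum_le_card_nsmul _ _ _ fun p _ => ?_
        refine le_trans ?_ (hB.rel (D.L 0 (col p)) (D.L 1 (row p)))
        refine card_le_card_of_injOn Subtype.val ?_ Subtype.val_injective.injOn
        intro s hs
        obtain ⟨-, h1, h2⟩ := mem_filter.1 hs
        exact mem_filter.2 ⟨mem_univ _, s.2, (mem_filter.1 h1).2.1.symm, h2.symm⟩

open Classical in
/-- Deleted points with different columns are paid for by different tags. -/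
lemma killed_le_hits (D : Data q K) (Z : {s : Slope q // ¬ IsSideSlope s} → Finset (Slope q))
    (Ys : Finset (Pt q)) (hinj : Set.InjOn col (Ys : Set (Pt q))) :
    (Ys.filter (D.withZ fun t => if h : ¬ IsSideSlope t then Z ⟨t, h⟩ else ∅).Kill₂).card ≤
      ∑ s, (Z s ∩ (hitPts D Ys s.1).image col).card := by
  rw [← Finset.card_sigma]
  refine le_trans (card_le_card_of_injOn (t := (univ.sigma fun s =>
    Z s ∩ (hitPts D Ys s.1).image col).image fun z => z.2) col ?_ ?_) card_image_le
  · intro p hp
    obtain ⟨hpY, -, s, hs, hne, hZ, hkey⟩ := mem_filter.1 hp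
    simp only [Data.withZ, dif_pos hs] at hZ hkey
    refine mem_image.2 ⟨⟨⟨s, hs⟩, col p⟩, mem_sigma.2 ⟨mem_univ _, mem_inter.2 ⟨hZ,
      mem_image.2 ⟨p, mem_filter.2 ⟨hpY, Ne.symm hne, hkey⟩, rfl⟩⟩⟩, rfl⟩
  · exact hinj.mono fun p hp => (mem_filter.1 hp).1

open Classical in
/-- Stage C: tagged columns exist. -/
theorem exists_stageC (hBig : Big q K) (D : Data q K) (hA : StageA D.L)
    (hB : StageB D.L D.dir)
    (hlow : ∀ s : Slope q, ¬ IsSideSlope s → q ≤ 128 * Fintype.card K * (D.tagCand s).card) :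
    ∃ Z, StageC (D.withZ Z) := by
  obtain ⟨-, hqhi⟩ := big_q (h := hBig)
  have hm := hBig.card_eq
  have hload := loadMax_le hBig
  have hkap : kap = 2 ^ 24 := rfl
  have htries : tries = 2 ^ 27 := rfl
  have hK : ∀ s : {s : Slope q // ¬ IsSideSlope s}, 2 ^ 1007 ≤ (D.tagCand s.1).card := by
    intro s
    have h1 := hBig.lo
    have h2 := hlow s.1 s.2
    have h3 : (2 : ℕ) ^ 1024 = 131072 * 2 ^ 1007 :=
      (two_pow_split (a := 17) (b := 1007) rfl).trans (by norm_num)
    rw [hm, h3] at h1 h2
    have hA0 : 0 < (2 : ℕ) ^ 1007 := Nat.two_pow_pos 1007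
    generalize (2 : ℕ) ^ 1007 = A at h1 h2 hA0 ⊢
    generalize (D.tagCand s.1).card = c at h2 ⊢
    refine Nat.le_of_mul_le_mul_left ?_ (Nat.mul_pos (n := 131072 * 131072) (m := A) (by norm_num) hA0)
    calc 131072 * 131072 * A * A = (131072 * A) ^ 2 := by ring
      _ ≤ 1024 * q := h1
      _ ≤ 1024 * (128 * (131072 * A) * c) := Nat.mul_le_mul_left _ h2
      _ = 131072 * 131072 * A * c := by ring
  have hKhi : ∀ s : {s : Slope q // ¬ IsSideSlope s}, (D.tagCand s.1).card + 1 ≤ 2 ^ 1017 := by
    intro s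
    have h1 : (D.tagCand s.1).card ≤ loadMax q K := by
      refine le_trans ?_ (hA.load 0 (some (D.dir s.1), coset (D.dir s.1) (D.L 0 s.1)))
      refine card_le_card fun t ht => ?_
      exact mem_filter.2 ⟨mem_univ _, (mem_filter.1 ht).2.1⟩
    have h2 := h1.trans hload
    rw [show (2 : ℕ) ^ 1017 = 2 * 2 ^ 1016 from
      (two_pow_split (a := 1) (b := 1016) rfl).trans (by rw [pow_one])]
    have h3 := Nat.one_le_two_pow (n := 1016)
    generalize (2 : ℕ) ^ 1016 = A at h2 h3 ⊢
    omega
  let ext : ({s : Slope q // ¬ IsSideSlope s} → Finset (Slope q)) → Slope q → Finset (Slope q) :=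
    fun Z t => if h : ¬ IsSideSlope t then Z ⟨t, h⟩ else ∅
  let J := Slope q ⊕ ((Fin 4 × Line q × (Option K × K)) ⊕ Line q)
  let Ys₁ : Fin 4 × Line q × (Option K × K) → Finset (Pt q) := fun j =>
    if Role j.1 j.2.1 ∧ j.1 ≠ 0 then bandPts D.L j.1 j.2.1 j.2.2 else ∅
  let Ys₂ : Line q → Finset (Pt q) := fun l => if OnLine (cen 0) l then ∅ else plainPts l
  let A : J → {s : Slope q // ¬ IsSideSlope s} → Finset (Slope q) := Sum.elim (fun t _ => {t})
    (Sum.elim (fun j s => (hitPts D (Ys₁ j) s.1).image col)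
      (fun l s => (hitPts D (Ys₂ l) s.1).image col))
  obtain ⟨k₁, hk₁⟩ : ∃ n : ℕ, n = 2 ^ 47 := ⟨_, rfl⟩
  obtain ⟨k₂, hk₂⟩ : ∃ n : ℕ, n = 2 ^ 64 := ⟨_, rfl⟩
  obtain ⟨k₃, hk₃⟩ : ∃ n : ℕ, n = 2 ^ 63 * Fintype.card K := ⟨_, rfl⟩
  let k : J → ℕ := Sum.elim (fun _ => k₁) (Sum.elim (fun _ => k₂) (fun _ => k₃))
  let F : ({s : Slope q // ¬ IsSideSlope s} → Finset (Slope q)) →
      {s : Slope q // ¬ IsSideSlope s} → Finset (Slope q) := fun Z s =>
    ((bandPts D.L 1 (lineThru (cen 1) s.1)
      (some (D.dir s.1), coset (D.dir s.1) (D.L 0 s.1))).filter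
        (D.withZ (ext Z)).Kill₂).image col
  have hF : ∀ Z Z' s, (∀ s', s' ≠ s → Z s' = Z' s') → F Z s = F Z' s := by
    intro Z Z' s h
    simp only [F]
    congr 1
    refine filter_congr fun p hp => ?_
    obtain ⟨hp1, -⟩ := mem_filter.1 hp
    obtain ⟨hp1, hp2⟩ := mem_plainPts.1 hp1
    have hrow : row p = s.1 := by
      have := slopeTo_of_plain (a := 1) hp1 (onLine_lineThru _ _) hp2
      rwa [lineThru_fst] at this
    have key : ∀ t : Slope q, t ≠ row p → ext Z t = ext Z' t := by
      intro t ht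
      simp only [ext]
      by_cases hs : ¬ IsSideSlope t
      · rw [dif_pos hs, dif_pos hs]
        exact h _ fun e => ht (by rw [hrow, ← e])
      · rw [dif_neg hs, dif_neg hs]
    simp only [Data.Kill₂, Data.withZ]
    refine and_congr_right fun _ => exists_congr fun t => and_congr_right fun _ =>
      and_congr_right fun ht => ?_
    rw [key t ht]
  have hroleRow : ∀ s : Slope q, ¬ IsSideSlope s → Role 1 (lineThru (cen 1 : Pt q) s) := by
    intro s hs
    refine ⟨onLine_lineThru _ _, fun a ha hon => hs ?_⟩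
    have hq : 1000 ≤ q := by
      refine le_trans ?_ (big_q (h := hBig)).1
      exact le_trans (by norm_num : 1000 ≤ 2 ^ 10) (Nat.pow_le_pow_right (by norm_num) (by norm_num))
    have hne : ∀ {x y : Pt q}, x.1 - y.1 ≠ 0 → x ≠ y := fun h e => h (by rw [e, sub_self])
    rw [← lineThru_fst (cen 1 : Pt q) s]
    fin_cases a
    · refine Or.inl ⟨0, congrArg Prod.fst (line_eq_of_two (hne ?_) (onLine_slopeTo _ _)
        (onLine_lineThru _ _) (onLine_lineThru _ _) hon)⟩
      simp [cen, fstC, sndC]
    · exact absurd rfl ha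
    · refine Or.inr ⟨(1, 0), congrArg Prod.fst (line_eq_of_two (hne ?_) (onLine_lineThru _ _)
        (onLine_slopeTo _ _) (onLine_lineThru _ _) hon)⟩
      simp [cen]
      intro h
      exact intCast_ne_zero hq (z := -1) (by norm_num) (by norm_num)
        (by push_cast; linear_combination h)
    · refine Or.inr ⟨(1, 1), congrArg Prod.fst (line_eq_of_two (hne ?_) (onLine_lineThru _ _)
        (onLine_slopeTo _ _) (onLine_lineThru _ _) hon)⟩
      simp [cen]
      intro h
      exact intCast_ne_zero hq (z := 2) (by norm_num) (by norm_num)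
        (by push_cast; linear_combination h)
  have hJ : Fintype.card J ≤ 2 ^ 8002 := by
    have hsl : Fintype.card (Slope q) ≤ 2 ^ 2040 := by
      rw [card_slope, show (2 : ℕ) ^ 2040 = 2 * 2 ^ 2039 from
        (two_pow_split (a := 1) (b := 2039) rfl).trans (by rw [pow_one])]
      have h1 := Nat.one_le_two_pow (n := 2039)
      generalize (2 : ℕ) ^ 2039 = B at hqhi h1 ⊢
      omega
    have hline : Fintype.card (Line q) ≤ 2 ^ 4080 := by
      rw [Fintype.card_prod, ZMod.card, two_pow_split (a := 2040) (b := 2040) rfl]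
      exact Nat.mul_le_mul hsl (hqhi.trans (Nat.pow_le_pow_right (by norm_num) (by norm_num)))
    have he : (2 : ℕ) ^ 1024 + 1 ≤ 2 ^ 1025 := by
      rw [show (2 : ℕ) ^ 1025 = 2 * 2 ^ 1024 from
        (two_pow_split (a := 1) (b := 1024) rfl).trans (by rw [pow_one])]
      have h1 := Nat.one_le_two_pow (n := 1024)
      generalize (2 : ℕ) ^ 1024 = B at h1 ⊢
      omega
    have h2 : Fintype.card (Fin 4 × Line q × (Option K × K)) ≤ 2 ^ 8000 := by
      rw [Fintype.card_prod, Fintype.card_fin, Fintype.card_prod (Line q),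
        Fintype.card_prod (Option K), Fintype.card_option, hm]
      calc 4 * (Fintype.card (Line q) * ((2 ^ 1024 + 1) * 2 ^ 1024))
          ≤ 2 ^ 2 * (2 ^ 4080 * (2 ^ 1025 * 2 ^ 1024)) := by gcongr; norm_num
        _ = 2 ^ (2 + (4080 + (1025 + 1024))) := by rw [← pow_add, ← pow_add, ← pow_add]
        _ ≤ 2 ^ 8000 := Nat.pow_le_pow_right (by norm_num) (by norm_num)
    have h3 : (2 : ℕ) ^ 8002 = 4 * 2 ^ 8000 :=
      (two_pow_split (a := 2) (b := 8000) rfl).trans (by norm_num)
    have h4 := hsl.trans (Nat.pow_le_pow_right (by norm_num) (by norm_num : 2040 ≤ 8000))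
    have h5 := hline.trans (Nat.pow_le_pow_right (by norm_num) (by norm_num : 4080 ≤ 8000))
    rw [Fintype.card_sum, Fintype.card_sum, h3]
    generalize (2 : ℕ) ^ 8000 = B at h2 h4 h5 ⊢
    omega
  have hS : Fintype.card {s : Slope q // ¬ IsSideSlope s} ≤ 2 ^ 8002 :=
    (Fintype.card_subtype_le _).trans (le_trans (by rw [Fintype.card_sum]; omega) hJ)
  obtain ⟨Z, hZ, hhit, hsurv⟩ := exists_tries (fun s : {s : Slope q // ¬ IsSideSlope s} =>
      D.tagCand s.1) tries (2 ^ 1007) (2 ^ 64) (4 * kap) 8002 1017 942 (Nat.two_pow_pos 1007)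
    hK hKhi univ A k (by rwa [card_univ]) (by
      intro j _
      have h47 : 8002 + 2 ≤ 2 ^ 47 := by norm_num
      rcases j with t | j | l
      · exact le_of_le_of_eq h47 hk₁.symm
      · exact le_of_le_of_eq (h47.trans (Nat.pow_le_pow_right (by norm_num) (by norm_num))) hk₂.symm
      · exact le_of_le_of_eq (h47.trans ((Nat.pow_le_pow_right (by norm_num)
          (by norm_num : 47 ≤ 63)).trans (Nat.le_mul_of_pos_right _ Fintype.card_pos))) hk₃.symm)
    (by
      intro j _
      rcases j with t | j | l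
      · calc 8 * (tries * ∑ s : {s : Slope q // ¬ IsSideSlope s},
              ((D.tagCand s.1).filter (· ∈ A (.inl t) s)).card)
            ≤ 2 ^ 3 * (2 ^ 27 * 2 ^ 1024) := by
              gcongr
              · norm_num
              · rw [htries]
              · refine le_trans ?_ ((hB.cand t).trans hm.le)
                calc ∑ s : {s : Slope q // ¬ IsSideSlope s},
                      ((D.tagCand s.1).filter (· ∈ A (.inl t) s)).card
                    = (univ.filter fun s : {s : Slope q // ¬ IsSideSlope s} =>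
                        t ∈ D.tagCand s.1).card := by
                      rw [card_filter]
                      refine Finset.sum_congr rfl fun s _ => ?_
                      simp only [A, Sum.elim_inl, mem_singleton, Finset.filter_eq']
                      split <;> simp
                  _ ≤ _ := by
                      refine card_le_card_of_injOn Subtype.val ?_ Subtype.val_injective.injOn
                      intro s hs
                      obtain ⟨-, h1, h2, -⟩ := mem_filter.1 (mem_filter.1 hs).2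
                      exact mem_filter.2 ⟨mem_univ _, s.2, h1, h2⟩
          _ = k (.inl t) * 2 ^ 1007 := by
              simp only [k, Sum.elim_inl]
              rw [hk₁, ← pow_add, ← pow_add, ← pow_add]
      · calc 8 * (tries * ∑ s : {s : Slope q // ¬ IsSideSlope s},
              ((D.tagCand s.1).filter (· ∈ A (.inr (.inl j)) s)).card)
            ≤ 2 ^ 3 * (2 ^ 27 * (2 ^ 1016 * 2 ^ 25)) := by
              gcongr
              · norm_num
              · rw [htries]
              · refine (sum_hits_le hB (Ys₁ j)).trans (Nat.mul_le_mul ?_ (by rw [hkap]; norm_num))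
                simp only [Ys₁]
                split
                · next h => exact (card_bandPts_le hA h.1 _).trans hload
                · simp
          _ = k (.inr (.inl j)) * 2 ^ 1007 := by
              simp only [k, Sum.elim_inr, Sum.elim_inl]
              rw [hk₂, ← pow_add, ← pow_add, ← pow_add, ← pow_add]
      · calc 8 * (tries * ∑ s : {s : Slope q // ¬ IsSideSlope s},
              ((D.tagCand s.1).filter (· ∈ A (.inr (.inr l)) s)).card)
            ≤ 2 ^ 3 * (2 ^ 27 * (2 ^ 2039 * 2 ^ 25)) := by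
              gcongr
              · norm_num
              · rw [htries]
              · refine (sum_hits_le hB (Ys₂ l)).trans (Nat.mul_le_mul ?_ (by rw [hkap]; norm_num))
                simp only [Ys₂]
                split
                · simp
                · exact (card_plainPts_le l).trans hqhi
          _ = k (.inr (.inr l)) * 2 ^ 1007 := by
              simp only [k, Sum.elim_inr]
              rw [hk₃, hm, ← pow_add, ← pow_add, ← pow_add, ← pow_add, ← pow_add])
    F hF hS (by
      calc (2 ^ 64 + 4 * kap) * 2 ^ 942 ≤ (2 ^ 65) * 2 ^ 942 := by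
            gcongr; rw [hkap]; norm_num
        _ = 2 ^ 1007 := by rw [← pow_add])
    (by rw [hkap, htries]; norm_num)
  have band : ∀ a l ξ, Role a l → a ≠ 0 →
      ((bandPts D.L a l ξ).filter (D.withZ (ext Z)).Kill₂).card < 2 ^ 64 := by
    intro a l ξ ha ha0
    have h := hhit (.inr (.inl (a, l, ξ))) (mem_univ _)
    simp only [A, k, Ys₁, Sum.elim_inr, Sum.elim_inl, if_pos (And.intro ha ha0)] at h
    rw [hk₂] at h
    refine lt_of_le_of_lt (killed_le_hits D Z _ ?_) h
    exact (plainPts_injOn (ha.2 0 (Ne.symm ha0))).mono fun p hp => (mem_filter.1 hp).1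
  have hosts : ∀ t, (univ.filter fun s => t ∈ Z s).card ≤ 2 ^ 47 := by
    intro t
    have h := hhit (.inl t) (mem_univ _)
    simp only [A, k, Sum.elim_inl] at h
    rw [hk₁] at h
    refine le_trans (le_of_eq ?_) h.le
    rw [card_filter]
    refine Finset.sum_congr rfl fun s _ => ?_
    by_cases ht : t ∈ Z s <;> simp [ht]
  have colKill : ∀ (l : Line q), OnLine (cen 0) l → ∀ (Ys : Finset (Pt q)) (N : ℕ),
      Ys ⊆ plainPts l →
      (∀ s : {s : Slope q // ¬ IsSideSlope s}, l.1 ∈ Z s →
        (hitPts D Ys s.1).card ≤ N) →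
      (Ys.filter (D.withZ (ext Z)).Kill₂).card ≤ 2 ^ 47 * N := by
    intro l hl Ys N hsub hN
    refine le_trans (card_le_card (t := (univ.filter fun s => l.1 ∈ Z s).biUnion
      fun s => hitPts D Ys s.1) fun p hp => ?_) (le_trans card_biUnion_le ?_)
    · obtain ⟨hpY, hpl, s, hs, hne, hcol, hkey⟩ := mem_filter.1 hp
      simp only [Data.withZ, ext, dif_pos hs] at hcol hkey
      rw [show col p = l.1 from slopeTo_of_plain hpl hl (mem_plainPts.1 (hsub hpY)).2] at hcol
      exact mem_biUnion.2 ⟨⟨s, hs⟩, mem_filter.2 ⟨mem_univ _, hcol⟩,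
        mem_filter.2 ⟨hpY, Ne.symm hne, hkey⟩⟩
    · exact (Finset.sum_le_card_nsmul _ _ N fun s hs => hN s (mem_filter.1 hs).2).trans
        (Nat.mul_le_mul_right _ (hosts l.1))
  refine ⟨ext Z, ?_, ?_, ?_, ?_, ?_⟩
  · intro s hs t ht
    simp only [Data.withZ, ext, dif_pos hs] at ht
    exact (hZ ⟨s, hs⟩).1 ht
  · intro s
    simp only [Data.withZ, ext]
    split
    · exact (hZ _).2
    · simp
  · intro a l ξ ha hnk
    by_cases ha0 : a = 0
    · subst ha0
      have hl1 : ¬ OnLine (cen 1) l := ha.2 1 (by decide)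
      refine le_trans (colKill l ha.1 _ kap (fun p hp => (mem_filter.1 hp).1) fun s hs => ?_)
        (by rw [hkap]; norm_num)
      have hξ : ξ ≠ (some (D.dir s.1), coset (D.dir s.1) (D.L 1 s.1)) := by
        intro e
        refine hnk (Or.inr ⟨rfl, s.1, s.2, ?_, e⟩)
        simpa only [Data.withZ, ext, dif_pos s.2, Subtype.coe_eta] using hs
      have hval : ∀ p ∈ hitPts D (bandPts D.L 0 l ξ) s.1,
          Data.InVLine ξ (D.L 1 (row p)) ∧
            coset (D.dir s.1) (D.L 1 (row p)) = coset (D.dir s.1) (D.L 1 s.1) := fun p hp =>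
        ⟨(mem_filter.1 (mem_filter.1 hp).1).2, (mem_filter.1 hp).2.2⟩
      rcases (hitPts D (bandPts D.L 0 l ξ) s.1).eq_empty_or_nonempty with h0 | ⟨p₀, hp₀⟩
      · exact le_of_eq_of_le (card_eq_zero.2 h0) (Nat.zero_le _)
      · refine le_trans ?_ (hA.mult 1 (D.L 1 (row p₀)))
        refine card_le_card_of_injOn row (fun p hp => ?_) ?_
        · obtain ⟨h1, h2⟩ := hval p hp
          obtain ⟨h3, h4⟩ := hval p₀ hp₀
          exact mem_filter.2 ⟨mem_univ _, vline_inter hξ h1 h2 h3 h4⟩
        · exact (plainPts_injOn hl1).mono fun p hp => (mem_filter.1 (mem_filter.1 hp).1).1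
    · exact (band a l ξ ha ha0).le.trans (Nat.pow_le_pow_right (by norm_num) (by norm_num))
  · intro l
    by_cases hl : OnLine (cen 0) l
    · refine le_trans (colKill l hl _ (2 ^ 1016) subset_rfl fun s _ => ?_) ?_
      · refine le_trans ?_ ((hA.load 1 (some (D.dir s.1), coset (D.dir s.1) (D.L 1 s.1))).trans hload)
        refine card_le_card_of_injOn row (fun p hp => ?_) ?_
        · exact mem_filter.2 ⟨mem_univ _, (mem_filter.1 hp).2.2⟩
        · intro p hp p' hp'
          have hp1 := mem_plainPts.1 (mem_filter.1 hp).1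
          by_cases h1 : OnLine (cen 1) l
          · exact (not_onLine_both hp1.1 hp1.2 hl h1).elim
          · exact plainPts_injOn h1 (mem_filter.1 hp).1 (mem_filter.1 hp').1
      · rw [hm, ← pow_add, ← pow_add]
        exact Nat.pow_le_pow_right (by norm_num) (by norm_num)
    · have h := hhit (.inr (.inr l)) (mem_univ _)
      simp only [A, k, Ys₂, Sum.elim_inr, if_neg hl] at h
      rw [hk₃] at h
      exact (killed_le_hits D Z _ (plainPts_injOn hl)).trans h.le
  · intro s hs
    have hFs : (F Z ⟨s, hs⟩).card ≤ 2 ^ 64 :=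
      card_image_le.trans (band 1 _ _ (hroleRow s hs) (by decide)).le
    refine (hsurv ⟨s, hs⟩ hFs).trans ?_
    refine card_le_card_of_surjOn col ?_
    intro t ht
    obtain ⟨htZ, htF⟩ := mem_sdiff.1 ht
    have hc := (hZ ⟨s, hs⟩).1 htZ
    obtain ⟨htag, -, -, ⟨p, hp, hrow, hcol⟩, -⟩ := (mem_filter.1 hc).2
    refine ⟨p, mem_filter.2 ⟨mem_univ _, hp, hrow, ?_, fun hk => ?_⟩, hcol⟩
    · simpa only [Data.withZ, ext, dif_pos hs, hcol] using htZ
    · refine htF (mem_image.2 ⟨p, mem_filter.2 ⟨mem_filter.2 ⟨mem_plainPts.2 ⟨hp, ?_⟩, ?_⟩, hk⟩, hcol⟩)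
      · have := onLine_slopeTo (cen 1 : Pt q) p
        rwa [show slopeTo (cen 1) p = s from hrow] at this
      · show coset (D.dir s) (D.L 0 (col p)) = coset (D.dir s) (D.L 0 s)
        rw [hcol]
        exact htag

end Vale.Agent.P045
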