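import Mathlib
import Vale.Agent.P045.Exists
import Vale.Agent.P045.LayoutBuild
import Vale.Agent.P045.StageC

/-!
# P045: data with all properties exist
-/

namespace Vale.Agent.P045

/-- Data with all properties exist. -/
theorem exists_good :
    ∃ (q : ℕ) (_ : Fact q.Prime) (K : Type) (_ : Field K) (_ : Fintype K) (_ : DecidableEq K)
      (D : Data q K) (T κ g Dl err kk : ℕ),
      Good D T κ g Dl err ∧ Sizes q (Fintype.card K) T κ g Dl err kk :=
  exists_good_of (fun _ _ _ _ _ _ _ hm hq => layout_exists hm hq)
    (fun _ _ _ _ _ _ => fun D h hA hB hl => exists_stageC h D hA hB hl)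

end Vale.Agent.P045
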