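import Mathlib
import Vale.Agent.P045.Good
import Vale.Agent.P045.Geom

/-!
# P045: any two points share a block
-/

namespace Vale.Agent.P045

open Finset

variable {q : ℕ} [Fact q.Prime]

/-- Three collinear points. -/
private lemma det_zero {o p r : Pt q} {l : Line q} (ho : OnLine o l) (hp : OnLine p l)
    (hr : OnLine r l) : (p.1 - o.1) * (r.2 - o.2) = (p.2 - o.2) * (r.1 - o.1) := by
  rcases l with ⟨_ | a, b⟩
  · simp only [OnLine] at ho hp hr
    simp [ho, hp, hr]
  · simp only [OnLine] at ho hp hr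
    rw [ho, hp, hr]; ring

private lemma two_three_ne (hq : 1000 ≤ q) : (2 : ZMod q) ≠ 0 ∧ (3 : ZMod q) ≠ 0 := by
  refine ⟨?_, ?_⟩
  · exact_mod_cast intCast_ne_zero (q := q) hq (z := 2) (by norm_num) (by norm_num)
  · exact_mod_cast intCast_ne_zero (q := q) hq (z := 3) (by norm_num) (by norm_num)

/-- The centres as integer vectors. -/
private def cenZ : Fin 4 → ℤ × ℤ := ![(0, 0), (-1, 0), (-2, -2), (1, -1)]

private lemma cen_eq (a : Fin 4) :
    cen (q := q) a = (((cenZ a).1 : ZMod q), ((cenZ a).2 : ZMod q)) := by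
  fin_cases a <;> simp [cen, cenZ]

private lemma cen_injective (hq : 1000 ≤ q) : Function.Injective (cen (q := q)) := by
  intro a a' he
  by_contra hne
  rw [cen_eq, cen_eq, Prod.mk.injEq] at he
  have h := (show ∀ a a' : Fin 4, a ≠ a' →
    (cenZ a).1 - (cenZ a').1 ≠ 0 ∧ ((cenZ a).1 - (cenZ a').1).natAbs < 1000 by decide) a a' hne
  refine intCast_ne_zero (q := q) hq h.1 h.2 ?_
  push_cast
  rw [he.1, sub_self]

/-- No three centres are collinear. -/
private lemma no_three (hq : 1000 ≤ q) {a b c : Fin 4} (hab : a ≠ b) (hac : a ≠ c) (hbc : b ≠ c)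
    {l : Line q} (ha : OnLine (cen a) l) (hb : OnLine (cen b) l) (hc : OnLine (cen c) l) :
    False := by
  have hd := det_zero ha hb hc
  rw [cen_eq, cen_eq, cen_eq] at hd
  have h := (show ∀ a b c : Fin 4, a ≠ b → a ≠ c → b ≠ c →
    ((cenZ b).1 - (cenZ a).1) * ((cenZ c).2 - (cenZ a).2) -
        ((cenZ b).2 - (cenZ a).2) * ((cenZ c).1 - (cenZ a).1) ≠ 0 ∧
      (((cenZ b).1 - (cenZ a).1) * ((cenZ c).2 - (cenZ a).2) -
        ((cenZ b).2 - (cenZ a).2) * ((cenZ c).1 - (cenZ a).1)).natAbs < 1000 by decide)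
    a b c hab hac hbc
  refine intCast_ne_zero (q := q) hq h.1 h.2 ?_
  push_cast
  linear_combination hd

private lemma cen_same_fst (i : Fin 2) : OnLine (cen (q := q) (fstC i)) (sameSide i) :=
  onLine_lineThru _ _

private lemma cen_same_snd (i : Fin 2) : OnLine (cen (q := q) (sndC i)) (sameSide i) :=
  onLine_slopeTo _ _

private lemma cen_crossA (j : Fin 2 × Fin 2) : OnLine (cen (q := q) (crossA j)) (crossSide j) :=
  onLine_lineThru _ _

private lemma cen_crossC (j : Fin 2 × Fin 2) : OnLine (cen (q := q) (crossC j)) (crossSide j) :=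
  onLine_slopeTo _ _

private lemma fstC_ne_sndC (i i' : Fin 2) : fstC i ≠ sndC i' := by revert i i'; decide

private lemma crossA_ne_crossC (j j' : Fin 2 × Fin 2) : crossA j ≠ crossC j' := by
  revert j j'; decide

private lemma grp_side : ∀ a : Fin 4, ∃ i, a = fstC i ∨ a = sndC i := by decide

private lemma grp_pair : ∀ a : Fin 4, ∃ γ : Fin 2, (a = fstC γ ∧ partner a = sndC γ) ∨
    (a = sndC γ ∧ partner a = fstC γ) := by decide

private lemma same_cross : ∀ (i : Fin 2) (j : Fin 2 × Fin 2),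
    ∃ a, (a = fstC i ∨ a = sndC i) ∧ (a = crossA j ∨ a = crossC j) := by decide

private lemma cross_partner : ∀ j : Fin 2 × Fin 2,
    crossA j ≠ partner (crossA j) ∧ crossC j ≠ partner (crossA j) ∧
      crossA j ≠ partner (crossC j) ∧ crossC j ≠ partner (crossC j) := by decide

private lemma crossA_partner : ∀ (a : Fin 4) (j : Fin 2 × Fin 2),
    (a = 0 ∨ a = 1) → crossA j ≠ a → crossA j = partner a := by decide

private lemma same_cross_off : ∀ (i : Fin 2) (j : Fin 2 × Fin 2),
    (crossA j ≠ fstC i ∧ crossA j ≠ sndC i) ∨ (crossC j ≠ fstC i ∧ crossC j ≠ sndC i) := by decide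

private lemma cross_off : ∀ j j' : Fin 2 × Fin 2, j ≠ j' →
    (crossA j' ≠ crossA j ∧ crossA j' ≠ crossC j) ∨
      (crossC j' ≠ crossA j ∧ crossC j' ≠ crossC j) := by decide

private lemma fstC_inj : ∀ i i' : Fin 2, fstC i = fstC i' → i = i' := by decide

private lemma cross_disjoint : ∀ j j' : Fin 2 × Fin 2, ¬crossA j = crossA j' →
    ¬crossC j = crossC j' →
    (j = (0, 0) ∧ j' = (1, 1)) ∨ (j = (1, 1) ∧ j' = (0, 0)) ∨
      (j = (0, 1) ∧ j' = (1, 0)) ∨ (j = (1, 0) ∧ j' = (0, 1)) := by decide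

private lemma sameSide_inj (hq : 1000 ≤ q) : Function.Injective (sameSide (q := q)) := by
  intro i i' h
  by_contra hne
  exact no_three hq (fstC_ne_sndC i i) (fun e => hne (fstC_inj i i' e))
    (Ne.symm (fstC_ne_sndC i' i)) (cen_same_fst i) (cen_same_snd i) (h ▸ cen_same_fst i')

private lemma sameSide_ne_crossSide (hq : 1000 ≤ q) (i : Fin 2) (j : Fin 2 × Fin 2) :
    sameSide (q := q) i ≠ crossSide j := by
  intro h
  rcases same_cross_off i j with ⟨e, e'⟩ | ⟨e, e'⟩
  · exact no_three hq (fstC_ne_sndC i i) e.symm e'.symm (cen_same_fst i) (cen_same_snd i)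
      (h ▸ cen_crossA j)
  · exact no_three hq (fstC_ne_sndC i i) e.symm e'.symm (cen_same_fst i) (cen_same_snd i)
      (h ▸ cen_crossC j)

private lemma crossSide_inj (hq : 1000 ≤ q) : Function.Injective (crossSide (q := q)) := by
  intro j j' h
  by_contra hne
  rcases cross_off j j' hne
    with ⟨e, e'⟩ | ⟨e, e'⟩
  · exact no_three hq (crossA_ne_crossC j j) e.symm e'.symm (cen_crossA j) (cen_crossC j)
      (h ▸ cen_crossA j')
  · exact no_three hq (crossA_ne_crossC j j) e.symm e'.symm (cen_crossA j) (cen_crossC j)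
      (h ▸ cen_crossC j')

/-- A line through two centres is one of the six sides. -/
private lemma side_of_two_centres (hq : 1000 ≤ q) {a a' : Fin 4} {l : Line q} (hne : a' ≠ a)
    (ha : OnLine (cen a) l) (ha' : OnLine (cen a') l) :
    (∃ i, l = sameSide i) ∨ ∃ j, l = crossSide j := by
  have key : ∀ l', OnLine (cen (q := q) a) l' → OnLine (cen a') l' → l = l' := fun l' h h' =>
    line_eq_of_two ((cen_injective hq).ne hne) ha ha' h h'
  have hS : (∃ i, (a = fstC i ∧ a' = sndC i) ∨ (a = sndC i ∧ a' = fstC i)) ∨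
      ∃ j, (a = crossA j ∧ a' = crossC j) ∨ (a = crossC j ∧ a' = crossA j) := by
    clear key ha ha'; revert hne; revert a a'; decide
  rcases hS with ⟨i, ⟨e, e'⟩ | ⟨e, e'⟩⟩ | ⟨j, ⟨e, e'⟩ | ⟨e, e'⟩⟩ <;> subst e <;> subst e'
  · exact .inl ⟨i, key _ (cen_same_fst i) (cen_same_snd i)⟩
  · exact .inl ⟨i, key _ (cen_same_snd i) (cen_same_fst i)⟩
  · exact .inr ⟨j, key _ (cen_crossA j) (cen_crossC j)⟩
  · exact .inr ⟨j, key _ (cen_crossC j) (cen_crossA j)⟩

/-- A point on two cross sides is a centre or lies on an auxiliary line. -/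
private lemma cross_two (hq : 1000 ≤ q) {p : Pt q} {j j' : Fin 2 × Fin 2} (hj : j ≠ j')
    (h : OnLine p (crossSide j)) (h' : OnLine p (crossSide j')) : IsCen p ∨ OnW p := by
  obtain ⟨h2, h3⟩ := two_three_ne (q := q) hq
  have hll := (crossSide_inj hq).ne hj
  by_cases hA : crossA j = crossA j'
  · exact .inl ⟨crossA j, (pt_eq_of_two hll (cen_crossA j) h (hA ▸ cen_crossA j') h').symm⟩
  by_cases hC : crossC j = crossC j'
  · exact .inl ⟨crossC j, (pt_eq_of_two hll (cen_crossC j) h (hC ▸ cen_crossC j') h').symm⟩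
  right
  have hd := det_zero (cen_crossA j) h (cen_crossC j)
  have hd' := det_zero (cen_crossA j') h' (cen_crossC j')
  rcases cross_disjoint j j' hA hC with ⟨rfl, rfl⟩ | ⟨rfl, rfl⟩ | ⟨rfl, rfl⟩ | ⟨rfl, rfl⟩ <;>
    simp [crossA, crossC, cen] at hd hd'
  · refine ⟨1, ?_⟩
    have hc : (3 : ZMod q) * (-2 / 3) = -2 := mul_div_cancel₀ _ h3
    simp only [wLine, OnLine, Matrix.cons_val_one, Matrix.cons_val_zero]
    apply mul_left_cancel₀ (mul_ne_zero h2 h3)
    linear_combination 2 * hd.resolve_right h2 - 4 * hd' - 2 * hc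
  · refine ⟨1, ?_⟩
    have hc : (3 : ZMod q) * (-2 / 3) = -2 := mul_div_cancel₀ _ h3
    simp only [wLine, OnLine, Matrix.cons_val_one, Matrix.cons_val_zero]
    apply mul_left_cancel₀ (mul_ne_zero h2 h3)
    linear_combination 2 * hd'.resolve_right h2 - 4 * hd - 2 * hc
  · refine ⟨3, ?_⟩
    have hc : (3 : ZMod q) * (2 / 3) = 2 := mul_div_cancel₀ _ h3
    simp [wLine, OnLine]
    apply mul_left_cancel₀ h3
    linear_combination -2 * hd + hd' - hc
  · refine ⟨3, ?_⟩
    have hc : (3 : ZMod q) * (2 / 3) = 2 := mul_div_cancel₀ _ h3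
    simp [wLine, OnLine]
    apply mul_left_cancel₀ h3
    linear_combination -2 * hd' + hd - hc

/-- Two labels with different abscissae lie on a common line of some direction. -/
private lemma exists_coset_eq {K : Type*} [Field K] {v w : K × K} (h : v.1 ≠ w.1) :
    ∃ d, coset d v = coset d w := by
  refine ⟨(v.2 - w.2) / (v.1 - w.1), ?_⟩
  have := div_mul_cancel₀ (v.2 - w.2) (sub_ne_zero.2 h)
  simp only [coset]
  linear_combination -this

variable {K : Type*} [Field K] [Fintype K] [DecidableEq K] {D : Data q K}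

private lemma not_isCen (h : Design D) {p : Pt q} (hp : p ∈ D.pts) : ¬ IsCen p := by
  classical
  rintro ⟨a, ha⟩
  have hside : OnSide p := by
    obtain ⟨i, hi⟩ := grp_side a
    refine .inl ⟨i, ?_⟩
    rcases hi with rfl | rfl <;> rw [← ha]
    exacts [cen_same_fst i, cen_same_snd i]
  rcases (mem_filter.1 hp).2 with hP | ⟨i, g, z, hz⟩ | ⟨l, i, z, hz⟩ | hX
  · exact hP.1.1 hside
  · exact (h.om_off i g z).1 (hz ▸ ⟨a, ha⟩)
  · exact (h.wp_line l i z).2.1 (hz ▸ hside)
  · exact hX.2.1 ⟨a, ha⟩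

private lemma effPencil_self {p : Pt q} {a : Fin 4}
    (h : ∀ j, OnLine (cen a) (crossSide (q := q) j) → ¬ OnLine p (crossSide j)) :
    effPencil a p = a := if_neg fun ⟨j, h1, h2⟩ => h j h1 h2

/-- A point of the construction on a cross side. -/
private lemma cross_pt (h : Design D) {p : Pt q} (hp : p ∈ D.pts) {j : Fin 2 × Fin 2}
    (hj : OnLine p (crossSide j)) : ¬ IsCen p ∧ ¬ OnW p ∧ ¬ Plain p ∧ ∀ i, ¬ D.IsOm i p := by
  classical
  have hcr : OnCross p := ⟨j, hj⟩
  have hnp : ¬ Plain p := fun hP => hP.1 (.inr hcr)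
  have hom : ∀ i, ¬ D.IsOm i p := fun i ⟨g, z, hz⟩ => (h.om_off i g z).2.1 (hz ▸ hcr)
  refine ⟨not_isCen h hp, ?_, hnp, hom⟩
  rcases (mem_filter.1 hp).2 with hP | ⟨i, g, z, hz⟩ | ⟨l, i, z, hz⟩ | hX
  · exact absurd hP.1 hnp
  · exact absurd ⟨g, z, hz⟩ (hom i)
  · exact absurd (hz ▸ (.inr hcr : OnSide p)) (h.wp_line l i z).2.1
  · exact hX.2.2

/-- On a cross side the labels of partners agree. -/
private lemma cross_lab (h : Design D) (hq : 1000 ≤ q) {p : Pt q} (hp : p ∈ D.pts)
    {j : Fin 2 × Fin 2} (hj : OnLine p (crossSide j)) :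
    (∀ a, a = crossA j ∨ a = crossC j →
      effPencil a p = partner a ∧ effPencil (partner a) p = partner a) := by
  classical
  obtain ⟨hc, hw, -, -⟩ := cross_pt h hp hj
  intro a ha
  have hon : OnLine (cen a) (crossSide (q := q) j) := by
    rcases ha with rfl | rfl
    exacts [cen_crossA j, cen_crossC j]
  refine ⟨if_pos ⟨j, hon, hj⟩, effPencil_self fun j' h' hp' => ?_⟩
  by_cases he : j' = j
  · subst he
    rcases ha with rfl | rfl
    · exact no_three hq (crossA_ne_crossC j' j') (cross_partner j').1 (cross_partner j').2.1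
        (cen_crossA j') (cen_crossC j') h'
    · exact no_three hq (crossA_ne_crossC j' j') (cross_partner j').2.2.1
        (cross_partner j').2.2.2 (cen_crossA j') (cen_crossC j') h'
  · rcases cross_two hq he hp' hj with h1 | h1
    exacts [hc h1, hw h1]

/-- The block of a point whose colour is not overridden. -/
private lemma block_cell {p : Pt q} {γ : Fin 2} {d : K} (h1 : ¬ D.IsOm γ p)
    (h2 : ¬(γ = 0 ∧ D.Tagged p ∧ d = D.dir (row p))) :
    D.block p (.inr (γ, d)) =
      .cell γ d (coset d (D.lab (fstC γ) p)) (coset d (D.lab (sndC γ) p)) := by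
  simp only [Data.block, if_neg h1, if_neg h2]

private lemma block_spec {p : Pt q} {γ : Fin 2} {d : K} (h1 : D.IsOm γ p) :
    D.block p (.inr (γ, d)) = D.specAt γ (some d) p := by
  simp only [Data.block, if_pos h1]

private lemma omIdx_eq (h : Design D) (i : Fin 2) (g : Fin 21) (z : Option K) :
    D.omIdx i (D.om i g z) = (g, z) := by
  classical
  have hex : ∃ w : Fin 21 × Option K, D.om i w.1 w.2 = D.om i g z := ⟨(g, z), rfl⟩
  rw [Data.omIdx, dif_pos hex]
  have he : (fun w : Fin 2 × Fin 21 × Option K => D.om w.1 w.2.1 w.2.2) (i, hex.choose) =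
      (fun w : Fin 2 × Fin 21 × Option K => D.om w.1 w.2.1 w.2.2) (i, g, z) := hex.choose_spec
  exact (Prod.ext_iff.1 (h.om_inj he)).2

/-- Two points of a side joining centres of one group. -/
private lemma share_same (h : Design D) (hq : 1000 ≤ q) {x y : Pt q} {i : Fin 2}
    (hx : x ∈ D.pts) (hy : y ∈ D.pts) (hxl : OnLine x (sameSide i))
    (hyl : OnLine y (sameSide i)) : ∃ c : Colour q K, D.block x c = D.block y c := by
  classical
  have hom : ∀ p ∈ D.pts, OnLine p (sameSide i) → ∃ g z, D.om i g z = p := by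
    intro p hp hl
    rcases (mem_filter.1 hp).2 with hP | ⟨i', g, z, hz⟩ | ⟨l, k, z, hz⟩ | hX
    · exact absurd (.inl ⟨i, hl⟩) hP.1.1
    · by_cases he : i = i'
      · exact ⟨g, z, he ▸ hz⟩
      · exact absurd (hz ▸ hl) ((h.om_off i' g z).2.2.2 i he)
    · exact absurd (hz ▸ (.inl ⟨i, hl⟩ : OnSide p)) (h.wp_line l k z).2.1
    · exfalso
      obtain ⟨j, hj⟩ := hX.1
      obtain ⟨a, ha, hb⟩ := same_cross i j
      have hc1 : OnLine (cen a) (sameSide (q := q) i) := by
        rcases ha with rfl | rfl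
        exacts [cen_same_fst i, cen_same_snd i]
      have hc2 : OnLine (cen a) (crossSide (q := q) j) := by
        rcases hb with rfl | rfl
        exacts [cen_crossA j, cen_crossC j]
      exact hX.2.1 ⟨a, (pt_eq_of_two (sameSide_ne_crossSide hq i j) hc1 hl hc2 hj).symm⟩
  obtain ⟨g, u, rfl⟩ := hom x hx hxl
  obtain ⟨k, v, rfl⟩ := hom y hy hyl
  by_cases hgk : g = k
  · subst hgk
    have ho : ∀ z, ¬ D.IsOm (1 - i) (D.om i g z) := fun z ⟨g', z', hz⟩ =>
      (h.om_off i g z).2.2.2 (1 - i) (by fin_cases i <;> decide) (hz ▸ h.om_side (1 - i) g' z')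
    have ht : ∀ z d, ¬(1 - i = 0 ∧ D.Tagged (D.om i g z) ∧ d = D.dir (row (D.om i g z))) :=
      fun z d ht => ht.2.1.1.1 (.inl ⟨i, h.om_side i g z⟩)
    obtain ⟨d, hd, hd'⟩ : ∃ d,
        coset d (D.lab (fstC (1 - i)) (D.om i g u)) =
          coset d (D.lab (fstC (1 - i)) (D.om i g v)) ∧
        coset d (D.lab (sndC (1 - i)) (D.om i g u)) =
          coset d (D.lab (sndC (1 - i)) (D.om i g v)) := by
      simp only [h.om_fst, h.om_snd]
      by_cases hX : u.getD 0 = v.getD 0
      · exact ⟨0, by rw [hX], by rw [hX]⟩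
      · obtain ⟨d, hd⟩ := exists_coset_eq (v := (u.getD 0, u.getD 0 ^ 2))
          (w := (v.getD 0, v.getD 0 ^ 2)) hX
        refine ⟨d, hd, ?_⟩
        simp only [coset] at hd ⊢
        linear_combination hd
    exact ⟨.inr (1 - i, d),
      by rw [block_cell (ho u) (ht u d), block_cell (ho v) (ht v d), hd, hd']⟩
  · obtain ⟨w, hw⟩ := h.small k g (Ne.symm hgk)
    obtain ⟨κ, hκ⟩ := h.num_bij.2 ((D.num v - D.num u) * (↑w⁻¹ : ZMod (modM K)))
    have hsp : D.specAt i κ (D.om i g u) = D.specAt i κ (D.om i k v) := by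
      simp only [Data.specAt, omIdx_eq h]
      have e : D.num κ * (w : ZMod (modM K)) = D.num v - D.num u := by
        rw [hκ, Units.inv_mul_cancel_right]
      rw [hw] at e
      congr 1
      linear_combination e
    cases κ with
    | none =>
      refine ⟨.inl (sameSide (q := q) i).1, ?_⟩
      have hb : ∀ p, OnLine p (sameSide i) →
          D.block p (.inl (sameSide (q := q) i).1) = D.specAt i none p := by
        intro p hp
        have hex : ∃ i', lineThru p (sameSide (q := q) i).1 = sameSide i' := ⟨i, lineThru_eq hp⟩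
        have hi : hex.choose = i :=
          sameSide_inj hq (hex.choose_spec.symm.trans (lineThru_eq hp))
        simp only [Data.block, dif_pos hex, hi]
      rw [hb _ hxl, hb _ hyl, hsp]
    | some d =>
      exact ⟨.inr (i, d), by rw [block_spec ⟨g, u, rfl⟩, block_spec ⟨k, v, rfl⟩, hsp]⟩

/-- Two points of an auxiliary line. -/
private lemma share_W (h : Design D) {x y : Pt q} {l : Fin 6} (hx : x ∈ D.pts) (hy : y ∈ D.pts)
    (hxl : OnLine x (wLine l)) (hyl : OnLine y (wLine l))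
    (hs : ¬ ∃ i, wLine (q := q) l = sameSide i) :
    ∃ c : Colour q K, D.block x c = D.block y c := by
  classical
  have hwp : ∀ p ∈ D.pts, OnLine p (wLine l) → ∃ i z, D.wp l i z = p := by
    intro p hp hl
    rcases (mem_filter.1 hp).2 with hP | ⟨i', g, z, hz⟩ | ⟨l', k, z, hz⟩ | hX
    · exact absurd ⟨l, hl⟩ hP.1.2
    · exact absurd (hz ▸ (⟨l, hl⟩ : OnW p)) (h.om_off i' g z).2.2.1
    · have he := (h.wp_line l' k z).2.2 l (hz.symm ▸ hl)
      exact ⟨k, z, he.symm ▸ hz⟩
    · exact absurd ⟨l, hl⟩ hX.2.2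
  obtain ⟨i, u, rfl⟩ := hwp x hx hxl
  obtain ⟨k, v, rfl⟩ := hwp y hy hyl
  have hb : ∀ p, OnLine p (wLine l) →
      D.block p (.inl (wLine (q := q) l).1) = .line (wLine l) (.one (D.lab 0 p).1) := by
    intro p hp
    simp only [Data.block, lineThru_eq hp]
    rw [dif_neg hs, if_pos ⟨l, rfl⟩]
  by_cases huv : u = v
  · refine ⟨.inl (wLine (q := q) l).1, ?_⟩
    rw [hb _ hxl, hb _ hyl, h.wp_lab0, h.wp_lab0, huv]
  · obtain ⟨d, hd⟩ := exists_coset_eq (v := (u, u ^ 2 + D.sh (.inr (l, i)) ^ 2))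
      (w := (v, v ^ 2 + D.sh (.inr (l, k)) ^ 2)) huv
    have ho : ∀ i z, ¬ D.IsOm 0 (D.wp l i z) := fun i z ⟨g', z', hz⟩ =>
      (h.wp_line l i z).2.1 (.inl ⟨0, hz ▸ h.om_side 0 g' z'⟩)
    have ht : ∀ i z d, ¬((0 : Fin 2) = 0 ∧ D.Tagged (D.wp l i z) ∧
        d = D.dir (row (D.wp l i z))) :=
      fun i z d ht => ht.2.1.1.2 ⟨l, (h.wp_line l i z).1⟩
    refine ⟨.inr (0, d), ?_⟩
    rw [block_cell (ho i u) (ht i u d), block_cell (ho k v) (ht k v d),
      show fstC 0 = 0 from rfl, show sndC 0 = 1 from rfl, h.wp_lab0, h.wp_lab0, h.wp_lab1,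
      h.wp_lab1]
    simp only [coset] at hd ⊢
    rw [hd, show u ^ 2 + D.sh (.inr (l, i)) ^ 2 + D.sh (.inr (l, 0)) - d * u =
      v ^ 2 + D.sh (.inr (l, k)) ^ 2 + D.sh (.inr (l, 0)) - d * v by linear_combination hd]

/-- Two points of a cross side. -/
private lemma share_cross (h : Design D) (hq : 1000 ≤ q) {x y : Pt q} {j : Fin 2 × Fin 2}
    (hx : x ∈ D.pts) (hy : y ∈ D.pts) (hxl : OnLine x (crossSide j))
    (hyl : OnLine y (crossSide j)) (hW : ¬ ∃ l, crossSide (q := q) j = wLine l) :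
    ∃ c : Colour q K, D.block x c = D.block y c := by
  classical
  have hlab : ∀ p ∈ D.pts, OnLine p (crossSide j) →
      D.lab 0 p = D.lab 1 p ∧ D.lab 2 p = D.lab 3 p := by
    intro p hp hl
    have hab := cross_lab h hq hp hl
    have e : ∀ a, a = crossA j ∨ a = crossC j → D.lab a p = D.lab (partner a) p := fun a ha => by
      simp only [Data.lab, (hab a ha).1, (hab a ha).2]
    have eA := e _ (.inl rfl)
    have eC := e _ (.inr rfl)
    obtain ⟨j1, j2⟩ := j
    fin_cases j1 <;> fin_cases j2 <;> simp [crossA, crossC, partner] at eA eC <;>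
      first
        | exact ⟨eA, eC⟩
        | exact ⟨eA.symm, eC⟩
        | exact ⟨eA, eC.symm⟩
        | exact ⟨eA.symm, eC.symm⟩
  have hb : ∀ p, OnLine p (crossSide j) → D.block p (.inl (crossSide (q := q) j).1) =
      .line (crossSide j) (.two (D.lab 0 p).1 (D.lab 2 p).1) := by
    intro p hp
    simp only [Data.block, lineThru_eq hp]
    rw [dif_neg fun ⟨i, hi⟩ => sameSide_ne_crossSide hq i j hi.symm, if_neg hW,
      if_pos ⟨j, rfl⟩]
  have hcell : ∀ γ : Fin 2, ∀ d, ∀ p ∈ D.pts, OnLine p (crossSide j) → D.block p (.inr (γ, d)) =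
      .cell γ d (coset d (D.lab (fstC γ) p)) (coset d (D.lab (sndC γ) p)) := fun γ d p hp hl =>
    block_cell ((cross_pt h hp hl).2.2.2 γ) fun ht => (cross_pt h hp hl).2.2.1 ht.2.1.1
  obtain ⟨x01, x23⟩ := hlab x hx hxl
  obtain ⟨y01, y23⟩ := hlab y hy hyl
  by_cases h0 : (D.lab 0 x).1 = (D.lab 0 y).1
  · by_cases h2 : (D.lab 2 x).1 = (D.lab 2 y).1
    · exact ⟨.inl (crossSide (q := q) j).1, by rw [hb x hxl, hb y hyl, h0, h2]⟩
    · obtain ⟨d, hd⟩ := exists_coset_eq h2
      refine ⟨.inr (1, d), ?_⟩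
      rw [hcell 1 d x hx hxl, hcell 1 d y hy hyl, show fstC 1 = 2 from rfl,
        show sndC 1 = 3 from rfl, ← x23, ← y23, hd]
  · obtain ⟨d, hd⟩ := exists_coset_eq h0
    refine ⟨.inr (0, d), ?_⟩
    rw [hcell 0 d x hx hxl, hcell 0 d y hy hyl, show fstC 0 = 0 from rfl,
      show sndC 0 = 1 from rfl, ← x01, ← y01, hd]

/-- A plain point carries its column and row labels. -/
private lemma plain_lab {p : Pt q} (hp : Plain p) :
    D.lab 0 p = D.L 0 (col p) ∧ D.lab 1 p = D.L 1 (row p) := by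
  have e : ∀ a, effPencil a p = a := fun a =>
    effPencil_self fun j _ hl => hp.1 (.inr ⟨j, hl⟩)
  constructor <;> simp only [Data.lab, e] <;> rfl

/-- A tagged point and a point on the same line through centre `0` or `1` sharing both cosets of
the direction of the tag: the other point carries the same tag. -/
private lemma tag_match (h : Design D) (hq : 1000 ≤ q) {x y : Pt q} {a : Fin 4} {l : Line q}
    (hxy : x ≠ y) (hy : y ∈ D.pts) (ha : a = 0 ∨ a = 1) (hal : OnLine (cen a) l)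
    (hxl : OnLine x l) (hyl : OnLine y l) (hns : ∀ i, l ≠ sameSide i)
    (hnc : ∀ j, l ≠ crossSide j) (hT : D.Tagged x)
    (h0 : coset (D.dir (row x)) (D.lab 0 x) = coset (D.dir (row x)) (D.lab 0 y))
    (h1 : coset (D.dir (row x)) (D.lab 1 x) = coset (D.dir (row x)) (D.lab 1 y)) :
    D.Tagged y ∧ row y = row x := by
  classical
  obtain ⟨hPl, hns', hZ⟩ := hT
  obtain ⟨e0, e1⟩ := plain_lab (D := D) hPl
  obtain ⟨zc, -, -⟩ := h.Z_coset (row x) hns' (col x) hZ
  rw [e0, zc] at h0
  rw [e1] at h1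
  have hxc : ∀ b, x ≠ cen b := fun b he => hPl.1 <| by
    obtain ⟨i, hi⟩ := grp_side b
    refine .inl ⟨i, ?_⟩
    rcases hi with rfl | rfl <;> rw [he]
    exacts [cen_same_fst i, cen_same_snd i]
  have hyc : ∀ b, y ≠ cen b := fun b he => not_isCen h hy ⟨b, he.symm⟩
  have hslope : slopeTo (cen a) x = slopeTo (cen a) y := by
    rw [slopeTo_eq (hxc a) hal hxl, slopeTo_eq (hyc a) hal hyl]
  have hOm0 : ¬ D.IsOm 0 y := fun ⟨g, z, hz⟩ => by
    refine hns 0 (line_eq_of_two (hyc a) hal hyl ?_ (hz ▸ h.om_side 0 g z))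
    rcases ha with rfl | rfl
    exacts [cen_same_fst 0, cen_same_snd 0]
  -- a cross point passes through the other centre of group 0
  have hcr : OnCross y → effPencil (partner a) y = a := by
    rintro ⟨j, hj⟩
    have hne : crossA j ≠ a := fun he =>
      hnc j (line_eq_of_two (hyc a) hal hyl (he ▸ cen_crossA j) hj)
    have he : crossA j = partner a := crossA_partner a j ha hne
    have := (cross_lab h hq hy hj _ (.inl he.symm)).1
    rw [this]; rcases ha with rfl | rfl <;> rfl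
  rcases ha with rfl | rfl
  · -- the common line is the column
    exfalso
    have hcol : col y = col x := hslope.symm
    have hspec : D.IsOm 1 y ∨ D.IsW y → False := fun hs =>
      h.Z_special (row x) hns' y hs (hcol ▸ hZ) h1.symm
    rcases (mem_filter.1 hy).2 with hP | ⟨i, hi⟩ | hW | hX
    · have hrow : row x ≠ row y := fun he => hxy (pt_eq_of_slopes (O := cen 0) (O' := cen 1)
        hcol.symm he fun hh => by
          have hl : lineThru (cen 0) (slopeTo (cen 0) x) = l :=
            line_eq_of_two (hxc 0) (onLine_lineThru _ _) (onLine_slopeTo _ _) hal hxl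
          exact hns 0 (line_eq_of_two ((cen_injective hq).ne (by decide : (1 : Fin 4) ≠ 0))
            hal (hl ▸ hh) (cen_same_fst 0) (cen_same_snd 0)))
      refine hP.2.2 ⟨hP.1, row x, hns', hrow, hcol ▸ hZ, ?_⟩
      rw [← (plain_lab (D := D) hP.1).2]; exact h1.symm
    · fin_cases i
      · exact hOm0 hi
      · exact hspec (.inl hi)
    · exact hspec (.inr hW)
    · have e : D.lab 1 y = D.L 0 (col x) := by
        simp only [Data.lab, show effPencil 1 y = 0 from hcr hX.1]
        rw [← hcol]; rfl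
      rw [e, zc] at h1
      exact h.dir_ok (row x) hns' h1.symm
  · -- the common line is the row
    have hrow : row y = row x := hslope.symm
    refine ⟨?_, hrow⟩
    have hspec : D.IsOm 1 y ∨ D.IsW y → False := fun hs =>
      h.row_special y hs (hrow ▸ hns') (D.dir (row x)) (by rw [hrow]; exact h0.symm)
    rcases (mem_filter.1 hy).2 with hP | ⟨i, hi⟩ | hW | hX
    · by_contra hT'
      refine hP.2.1 ⟨hP.1, hrow ▸ hns', fun hh => hT' ⟨hP.1, hrow ▸ hns', hh⟩, ?_⟩
      rw [hrow, ← (plain_lab (D := D) hP.1).1]; exact h0.symm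
    · exfalso; fin_cases i
      · exact hOm0 hi
      · exact hspec (.inl hi)
    · exact (hspec (.inr hW)).elim
    · exfalso
      have e : D.lab 0 y = D.L 1 (row x) := by
        simp only [Data.lab, show effPencil 0 y = 1 from hcr hX.1]
        rw [← hrow]; rfl
      rw [e] at h0
      exact h.dir_ok (row x) hns' h0

/-- Two points on a line through exactly one centre. -/
private lemma share_centre (h : Design D) (hq : 1000 ≤ q) {x y : Pt q} {a : Fin 4} {l : Line q}
    (hxy : x ≠ y) (hx : x ∈ D.pts) (hy : y ∈ D.pts) (hal : OnLine (cen a) l)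
    (hxl : OnLine x l) (hyl : OnLine y l) (hns : ∀ i, l ≠ sameSide i)
    (hnw : ∀ i, l ≠ wLine i) (hnc : ∀ j, l ≠ crossSide j) :
    ∃ c : Colour q K, D.block x c = D.block y c := by
  classical
  have huniq : ∀ a', OnLine (cen a') l → a' = a := fun a' h' => by
    by_contra hne
    rcases side_of_two_centres hq hne hal h' with ⟨i, hi⟩ | ⟨j, hj⟩
    exacts [hns i hi, hnc j hj]
  have hA : ∀ p ∈ D.pts, OnLine p l → D.lab a p = D.L a l.1 := by
    intro p hp hpl
    have hne : p ≠ cen a := fun he => not_isCen h hp ⟨a, he.symm⟩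
    rw [Data.lab, effPencil_self fun j hj hj' => hnc j (line_eq_of_two hne hal hpl hj hj'),
      slopeTo_eq hne hal hpl]
  by_cases hX : (D.lab (partner a) x).1 = (D.lab (partner a) y).1
  · refine ⟨.inl l.1, ?_⟩
    have hb : ∀ p, OnLine p l →
        D.block p (.inl l.1) = .line l (.one (D.lab (partner a) p).1) := by
      intro p hp
      simp only [Data.block, lineThru_eq hp]
      rw [dif_neg fun ⟨i, hi⟩ => hns i hi, if_neg fun ⟨i, hi⟩ => hnw i hi,
        if_neg fun ⟨j, hj⟩ => hnc j hj]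
      have hex : ∃ a', OnLine (cen a') l := ⟨a, hal⟩
      rw [dif_pos hex, huniq _ hex.choose_spec]
    rw [hb x hxl, hb y hyl, hX]
  · obtain ⟨d, hd⟩ := exists_coset_eq hX
    have hda : coset d (D.lab a x) = coset d (D.lab a y) := by rw [hA x hx hxl, hA y hy hyl]
    obtain ⟨γ, hγ⟩ := grp_pair a
    obtain ⟨hf, hs⟩ : coset d (D.lab (fstC γ) x) = coset d (D.lab (fstC γ) y) ∧
        coset d (D.lab (sndC γ) x) = coset d (D.lab (sndC γ) y) := by
      rcases hγ with ⟨e, e'⟩ | ⟨e, e'⟩ <;> rw [← e, ← e']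
      exacts [⟨hda, hd⟩, ⟨hd, hda⟩]
    refine ⟨.inr (γ, d), ?_⟩
    have ho : ∀ p ∈ D.pts, OnLine p l → ¬ D.IsOm γ p := by
      rintro p hp hpl ⟨g, z, hz⟩
      refine hns γ (line_eq_of_two (fun he => not_isCen h hp ⟨a, he.symm⟩) hal hpl ?_
        (hz ▸ h.om_side γ g z))
      rcases hγ with ⟨e, -⟩ | ⟨e, -⟩ <;> rw [e]
      exacts [cen_same_fst γ, cen_same_snd γ]
    by_cases hx' : γ = 0 ∧ D.Tagged x ∧ d = D.dir (row x)
    · obtain ⟨rfl, hT, rfl⟩ := hx'
      obtain ⟨hTy, hrow⟩ := tag_match h hq hxy hy (hγ.imp And.left And.left) hal hxl hyl hns hnc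
        hT hf hs
      simp only [Data.block, if_neg (ho x hx hxl), if_neg (ho y hy hyl)]
      rw [if_pos ⟨trivial, hT, trivial⟩, if_pos ⟨trivial, hTy, by rw [hrow]⟩, hrow]
    by_cases hy' : γ = 0 ∧ D.Tagged y ∧ d = D.dir (row y)
    · obtain ⟨rfl, hT, rfl⟩ := hy'
      obtain ⟨hTx, hrow⟩ := tag_match h hq hxy.symm hx (hγ.imp And.left And.left) hal hyl hxl
        hns hnc hT hf.symm hs.symm
      exact absurd ⟨rfl, hTx, by rw [hrow]⟩ hx'
    rw [block_cell (ho x hx hxl) hx', block_cell (ho y hy hyl) hy', hf, hs]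

/-- Any two points share a block. -/
theorem Data.exists_shared_block {D : Data q K} (h : Design D) (hq : 1000 ≤ q) {x y : Pt q}
    (hx : x ∈ D.pts) (hy : y ∈ D.pts) : ∃ c : Colour q K, D.block x c = D.block y c := by
  classical
  rcases eq_or_ne x y with rfl | hxy
  · exact ⟨.inl none, rfl⟩
  obtain ⟨l, hxl, hyl⟩ : ∃ l, OnLine x l ∧ OnLine y l :=
    ⟨lineThru x (slopeTo x y), onLine_lineThru _ _, onLine_slopeTo _ _⟩
  by_cases hs : ∃ i, l = sameSide i
  · obtain ⟨i, rfl⟩ := hs
    exact share_same h hq hx hy hxl hyl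
  by_cases hw : ∃ i, l = wLine i
  · obtain ⟨i, rfl⟩ := hw
    exact share_W h hx hy hxl hyl hs
  by_cases hc : ∃ j, l = crossSide j
  · obtain ⟨j, rfl⟩ := hc
    exact share_cross h hq hx hy hxl hyl hw
  by_cases ha : ∃ a, OnLine (cen a) l
  · obtain ⟨a, ha⟩ := ha
    exact share_centre h hq hxy hx hy ha hxl hyl (not_exists.1 hs) (not_exists.1 hw)
      (not_exists.1 hc)
  · refine ⟨.inl l.1, ?_⟩
    simp only [Data.block, lineThru_eq hxl, lineThru_eq hyl]
    rw [dif_neg hs, if_neg hw, if_neg hc, dif_neg ha, dif_neg hs, if_neg hw, if_neg hc,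
      dif_neg ha]

end Vale.Agent.P045
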