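import Mathlib

/-!
# P045: the top degree form of a bivariate polynomial vanishing on the whole plane
-/

namespace Vale.Agent.P045

open Polynomial Finset

variable {F : Type*} [Field F]

/-- `X ↦ T`, `Y ↦ Y T`: the coefficient of `T ^ n` is the form of degree `n`, taken at `X = 1`. -/
noncomputable def topMap : MvPolynomial (Fin 2) F →ₐ[F] F[X][X] :=
  MvPolynomial.aeval ![X, C X * X]

theorem topMap_monomial (m : Fin 2 →₀ ℕ) (c : F) :
    topMap (MvPolynomial.monomial m c) = C (C c * X ^ m 1) * X ^ (m 0 + m 1) := by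
  rw [topMap, MvPolynomial.aeval_monomial, Finsupp.prod_fintype _ _ fun i => pow_zero _,
    Fin.prod_univ_two, IsScalarTower.algebraMap_apply F F[X] F[X][X]]
  simp only [Polynomial.algebraMap_eq, Matrix.cons_val_zero, Matrix.cons_val_one, map_mul, map_pow,
    pow_add, mul_pow]
  ring

theorem deg_le_totalDegree {p : MvPolynomial (Fin 2) F} {m : Fin 2 →₀ ℕ} (hm : m ∈ p.support) :
    m 0 + m 1 ≤ p.totalDegree := by
  have := MvPolynomial.le_totalDegree hm
  rwa [Finsupp.sum_fintype _ _ fun _ => rfl, Fin.sum_univ_two] at this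

theorem topMap_natDegree_le (p : MvPolynomial (Fin 2) F) :
    (topMap p).natDegree ≤ p.totalDegree := by
  conv_lhs => rw [p.as_sum, map_sum]
  refine natDegree_sum_le_of_forall_le _ _ fun m hm => ?_
  rw [topMap_monomial]
  exact (natDegree_C_mul_X_pow_le _ _).trans (deg_le_totalDegree hm)

theorem natDegree_coeff_topMap_le (p : MvPolynomial (Fin 2) F) (k : ℕ) :
    ((topMap p).coeff k).natDegree ≤ k := by
  rw [p.as_sum, map_sum, finsetSum_coeff]
  refine natDegree_sum_le_of_forall_le _ _ fun m _ => ?_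
  rw [topMap_monomial, coeff_C_mul_X_pow]
  split_ifs with h
  · exact (natDegree_C_mul_X_pow_le _ _).trans (h ▸ Nat.le_add_left _ _)
  · simp

/-- A nonzero polynomial of degree at most `D` vanishing on a small set, with its top form. -/
theorem exists_vanishing (U : Finset (F × F)) (D : ℕ) (hU : U.card < (D + 2).choose 2) :
    ∃ (α : MvPolynomial (Fin 2) F) (d : ℕ), d ≤ D ∧ α.totalDegree ≤ d ∧
      (topMap α).natDegree ≤ d ∧ (topMap α).coeff d ≠ 0 ∧
      ∀ x : Fin 2 → F, (x 0, x 1) ∈ U → MvPolynomial.eval x α = 0 := by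
  classical
  let I : Finset (ℕ × ℕ) := (range (D + 1)).biUnion antidiagonal
  have hI : I.card = (D + 2).choose 2 := by
    rw [card_biUnion]
    · simp only [Finset.Nat.card_antidiagonal]
      have h := Finset.sum_range_succ' (fun i => i) (D + 1)
      rw [Nat.choose_two_right, ← Finset.sum_range_id, h]
      simp
    · intro i _ j _ hij
      simp only [Function.onFun, Finset.disjoint_left, HasAntidiagonal.mem_antidiagonal]
      omega
  let L : (I → F) →ₗ[F] (U → F) :=
    { toFun := fun c z => ∑ i : I, c i * (z.1.1 ^ i.1.1 * z.1.2 ^ i.1.2)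
      map_add' := fun c c' => by
        funext z
        simp [add_mul, sum_add_distrib]
      map_smul' := fun a c => by
        funext z
        simp [mul_sum, mul_assoc] }
  obtain ⟨c, hc, hc0⟩ : ∃ c ∈ L.ker, c ≠ 0 :=
    Submodule.exists_mem_ne_zero_of_ne_bot
      (L.ker_ne_bot_of_finrank_lt (by simp [hI, hU]))
  let mon : ℕ × ℕ → Fin 2 →₀ ℕ := fun i => Finsupp.single 0 i.1 + Finsupp.single 1 i.2
  have hm0 : ∀ i, mon i 0 = i.1 := fun i => by simp [mon]
  have hm1 : ∀ i, mon i 1 = i.2 := fun i => by simp [mon]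
  let J : Finset I := univ.filter fun i => c i ≠ 0
  let d := J.sup fun i => i.1.1 + i.1.2
  let α : MvPolynomial (Fin 2) F := ∑ i ∈ J, MvPolynomial.monomial (mon i.1) (c i)
  have hdeg : α.totalDegree ≤ d := by
    refine MvPolynomial.totalDegree_finsetSum_le fun i hi => ?_
    refine (MvPolynomial.totalDegree_monomial_le _ _).trans ?_
    rw [Finsupp.sum_fintype _ _ fun _ => rfl, Fin.sum_univ_two, id, id, hm0, hm1]
    exact le_sup (f := fun i : I => i.1.1 + i.1.2) hi
  obtain ⟨i0, hi0⟩ : J.Nonempty := by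
    obtain ⟨i, hi⟩ := Function.ne_iff.1 hc0
    exact ⟨i, by simpa [J] using hi⟩
  obtain ⟨i1, hi1, hd⟩ := exists_mem_eq_sup J ⟨i0, hi0⟩ fun i : I => i.1.1 + i.1.2
  refine ⟨α, d, ?_, hdeg, (topMap_natDegree_le α).trans hdeg, ?_, fun x hx => ?_⟩
  · refine Finset.sup_le fun i _ => ?_
    obtain ⟨k, hk, hki⟩ := mem_biUnion.1 i.2
    rw [HasAntidiagonal.mem_antidiagonal.1 hki]
    exact Nat.lt_succ_iff.1 (mem_range.1 hk)
  · intro h
    apply (mem_filter.1 hi1).2
    have h' := congrArg (fun P : F[X] => P.coeff i1.1.2) h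
    simp only [α, map_sum, finsetSum_coeff, topMap_monomial, coeff_C_mul_X_pow, hm0, hm1,
      coeff_zero] at h'
    rw [sum_eq_single i1] at h'
    · simpa [d, hd, coeff_C_mul_X_pow] using h'
    · intro j hj hne
      by_cases hj' : d = j.1.1 + j.1.2
      · rw [if_pos hj', coeff_C_mul_X_pow, if_neg]
        intro h2
        refine hne (Subtype.ext (Prod.ext ?_ h2.symm))
        have : d = i1.1.1 + i1.1.2 := hd
        omega
      · rw [if_neg hj', coeff_zero]
    · exact fun h2 => absurd hi1 h2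
  · have h := congrFun (LinearMap.mem_ker.1 hc) ⟨_, hx⟩
    simp only [L, LinearMap.coe_mk, AddHom.coe_mk, Pi.zero_apply] at h
    rw [← h, map_sum, sum_filter]
    refine sum_congr rfl fun i _ => ?_
    split_ifs with hi
    · rw [MvPolynomial.eval_monomial, Finsupp.prod_fintype _ _ fun _ => pow_zero _,
        Fin.prod_univ_two, hm0, hm1]
    · simp [not_not.1 hi]

end Vale.Agent.P045
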